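import Vale.Agent.P352X.Spec
import Vale.Agent.P352X.ST.Montel

/-!
# P352X: the row LIE (affine changes of variables in Schwartz space)
-/

set_option linter.all false

open Filter Topology Metric
open scoped SchwartzMap ContDiff

noncomputable section

namespace Vale.Agent.P352X

namespace Lie

variable {E : Type*} [NormedAddCommGroup E] [NormedSpace ℝ E] {m k n : ℕ}

theorem sn_nonneg (m : ℕ) (F : 𝓢(E, ℂ)) : 0 ≤ sn m F := apply_nonneg _ _

theorem le_sn (hk : k ≤ m) (hn : n ≤ m) (F : 𝓢(E, ℂ)) : SchwartzMap.seminorm ℂ k n F ≤ sn m F :=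
  Seminorm.le_finset_sup_apply (p := schwartzSeminormFamily ℂ E ℂ) (x := F)
    (i := (k, n)) (Finset.mem_Iic.2 (Prod.mk_le_mk.2 ⟨hk, hn⟩))

theorem sn_le {F : 𝓢(E, ℂ)} {M : ℝ} (h0 : 0 ≤ M)
    (h : ∀ k ≤ m, ∀ n ≤ m, ∀ x, ‖x‖ ^ k * ‖iteratedFDeriv ℝ n F x‖ ≤ M) : sn m F ≤ M :=
  Seminorm.finset_sup_apply_le h0 fun _ hi => SchwartzMap.seminorm_le_bound ℂ _ _ _ h0
    (h _ (Finset.mem_Iic.1 hi).1 _ (Finset.mem_Iic.1 hi).2)

theorem sn_mono (h : k ≤ m) (F : 𝓢(E, ℂ)) : sn k F ≤ sn m F :=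
  Seminorm.finset_sup_apply_le (sn_nonneg m F) fun _ hi =>
    le_sn ((Finset.mem_Iic.1 hi).1.trans h) ((Finset.mem_Iic.1 hi).2.trans h) F

theorem dec (hk : k ≤ m) (hn : n ≤ m) (F : 𝓢(E, ℂ)) (x : E) :
    (1 + ‖x‖) ^ k * ‖iteratedFDeriv ℝ n F x‖ ≤ 2 ^ m * sn m F :=
  SchwartzMap.one_add_le_sup_seminorm_apply (𝕜 := ℂ) (m := (m, m)) hk hn F x

theorem iter {F G : 𝓢(E, ℂ)} {g : E →L[ℝ] E} {a : E} (h : ∀ x, G x = F (g x + a)) (n : ℕ) (x : E) :
    iteratedFDeriv ℝ n G x =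
      (iteratedFDeriv ℝ n F (g x + a)).compContinuousLinearMap fun _ => g := by
  rw [show (G : E → ℂ) = (fun y => F (y + a)) ∘ g from funext h,
    g.iteratedFDeriv_comp_right (f := fun y => F (y + a)) (n := n)
      ((F.smooth n).comp (contDiff_id.add contDiff_const)) x le_rfl, iteratedFDeriv_comp_add_right]

/-- the bound for the seminorms -/
theorem bd {R : ℝ} (hR : 1 ≤ R) {g : E →L[ℝ] E} {a : E} {F G : 𝓢(E, ℂ)} (h1 : ‖g‖ ≤ R)
    (h2 : ∀ x, ‖x‖ ≤ R * ‖g x‖) (h : ∀ x, G x = F (g x + a)) :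
    sn m G ≤ R ^ m * R ^ m * 2 ^ m * (1 + ‖a‖) ^ m * sn m F := by
  have s0 := sn_nonneg m F
  refine sn_le (by positivity) fun k hk n hn x => ?_
  have e1 : ‖x‖ ≤ R * (1 + ‖a‖) * (1 + ‖g x + a‖) := by
    have : ‖g x‖ ≤ ‖g x + a‖ + ‖a‖ := norm_le_add_norm_add _ _
    refine (h2 x).trans ?_
    rw [mul_assoc]
    gcongr
    nlinarith [norm_nonneg a, norm_nonneg (g x + a)]
  have e2 : ‖iteratedFDeriv ℝ n G x‖ ≤ ‖iteratedFDeriv ℝ n F (g x + a)‖ * R ^ m := by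
    rw [iter h]
    refine (ContinuousMultilinearMap.norm_compContinuousLinearMap_le _ _).trans ?_
    rw [Finset.prod_const, Finset.card_fin]
    gcongr
    exact (pow_le_pow_left₀ (norm_nonneg _) h1 n).trans (pow_le_pow_right₀ hR hn)
  have e3 : (R * (1 + ‖a‖)) ^ k ≤ R ^ m * (1 + ‖a‖) ^ m := by
    rw [← mul_pow]
    exact pow_le_pow_right₀ (by nlinarith [norm_nonneg a]) hk
  calc _ ≤ (R * (1 + ‖a‖) * (1 + ‖g x + a‖)) ^ k * (‖iteratedFDeriv ℝ n F (g x + a)‖ * R ^ m) := by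
        gcongr
    _ = (R * (1 + ‖a‖)) ^ k * R ^ m *
        ((1 + ‖g x + a‖) ^ k * ‖iteratedFDeriv ℝ n F (g x + a)‖) := by
        rw [mul_pow]
        ring
    _ ≤ R ^ m * (1 + ‖a‖) ^ m * R ^ m * (2 ^ m * sn m F) := by
        gcongr ?_ * _ * ?_
        exact dec hk hn F _
    _ = _ := by ring

theorem ml {g : E →L[ℝ] E} {ε : ℝ} (h1 : ε ≤ 1) (h : ‖g - 1‖ ≤ ε) (T : E [×n]→L[ℝ] ℂ) :
    ‖(T.compContinuousLinearMap fun _ => g) - T‖ ≤ n * 2 ^ n * ε * ‖T‖ := by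
  have e0 := (norm_nonneg _).trans h
  have o : ‖(1 : E →L[ℝ] E)‖ ≤ 1 := ContinuousLinearMap.norm_id_le
  have p : ‖g‖ ≤ 2 := by linarith [norm_le_norm_add_norm_sub' g 1]
  set Φ := ContinuousMultilinearMap.compContinuousLinearMapContinuousMultilinear ℝ
    (fun _ : Fin n => E) (fun _ => E) ℂ
  have b : ‖Φ‖ ≤ 1 := MultilinearMap.mkContinuous_norm_le _ zero_le_one _
  have q := Φ.norm_image_sub_le (fun _ => g) fun _ => 1
  have r : max ‖fun _ : Fin n => g‖ ‖fun _ : Fin n => (1 : E →L[ℝ] E)‖ ≤ 2 :=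
    max_le ((pi_norm_const_le g).trans p) ((pi_norm_const_le _).trans (o.trans one_le_two))
  have s : ‖(fun _ : Fin n => g) - fun _ => 1‖ ≤ ε := (pi_norm_const_le (g - 1)).trans h
  refine (((Φ fun _ => g) - Φ fun _ => 1).le_opNorm T).trans ?_
  rw [Fintype.card_fin] at q
  gcongr
  refine q.trans ?_
  calc _ ≤ 1 * n * 2 ^ (n - 1) * ε := by gcongr
    _ ≤ _ := by
      rw [one_mul]
      gcongr
      · exact one_le_two
      · exact n.sub_le 1

/-- the Lipschitz bound near the identity -/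
theorem lip {g : E →L[ℝ] E} {a : E} {ε : ℝ} {F G : 𝓢(E, ℂ)} (h1 : ε ≤ 1 / 2) (hg : ‖g - 1‖ ≤ ε)
    (ha : ‖a‖ ≤ ε) (h : ∀ x, G x = F (g x + a)) :
    sn m (G - F) ≤ (m * 2 ^ m + 1) * 4 ^ (m + 1) * ε * sn (m + 1) F := by
  have s0 := sn_nonneg (m + 1) F
  have e0 := (norm_nonneg _).trans ha
  refine sn_le (by positivity) fun k hk n hn x => ?_
  have x0 := norm_nonneg x
  have hy : g x + a ∈ closedBall x (ε * (1 + ‖x‖)) := by
    rw [mem_closedBall_iff_norm, show g x + a - x = (g - 1) x + a by simp; abel]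
    nlinarith [norm_add_le ((g - 1) x) a, (g - 1).le_of_opNorm_le hg x]
  have d : ∀ j ≤ m + 1, ∀ i ≤ m + 1, ∀ z ∈ closedBall x (ε * (1 + ‖x‖)),
      (1 + ‖x‖) ^ j * ‖iteratedFDeriv ℝ i F z‖ ≤ 4 ^ (m + 1) * sn (m + 1) F := by
    intro j hj i hi z hz
    rw [mem_closedBall_iff_norm] at hz
    have : 1 + ‖x‖ ≤ 2 * (1 + ‖z‖) := by nlinarith [norm_le_norm_add_norm_sub z x]
    calc _ ≤ (2 * (1 + ‖z‖)) ^ j * ‖iteratedFDeriv ℝ i F z‖ := by gcongr
      _ = 2 ^ j * ((1 + ‖z‖) ^ j * ‖iteratedFDeriv ℝ i F z‖) := by rw [mul_pow, mul_assoc]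
      _ ≤ 2 ^ (m + 1) * (2 ^ (m + 1) * sn (m + 1) F) := by
        gcongr 2 ^ ?_ * ?_
        · exact one_le_two
        · exact dec hj hi F z
      _ = _ := by rw [← mul_assoc, ← mul_pow]; norm_num
  have t2 := (convex_closedBall x (ε * (1 + ‖x‖))).norm_image_sub_le_of_norm_fderiv_le
    (C := 4 ^ (m + 1) * sn (m + 1) F / (1 + ‖x‖) ^ (k + 1))
    (fun z _ => ST.diff_iter (F.smooth ⊤) n z) (fun z hz => by
      rw [norm_fderiv_iteratedFDeriv, le_div_iff₀' (by positivity)]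
      exact d _ (by omega) _ (by omega) z hz) (mem_closedBall_self (by positivity)) hy
  have t1 := ml (h1.trans (by norm_num)) hg (iteratedFDeriv ℝ n F (g x + a))
  have t3 := d k (by omega) n (by omega) _ hy
  rw [mem_closedBall_iff_norm] at hy
  have e : iteratedFDeriv ℝ n (⇑(G - F)) x = iteratedFDeriv ℝ n G x - iteratedFDeriv ℝ n F x :=
    iteratedFDeriv_sub_apply (G.smooth n).contDiffAt (F.smooth n).contDiffAt
  rw [e, iter h]
  calc _ ≤ (1 + ‖x‖) ^ k * (m * 2 ^ m * ε * ‖iteratedFDeriv ℝ n F (g x + a)‖ +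
        4 ^ (m + 1) * sn (m + 1) F / (1 + ‖x‖) ^ (k + 1) * (ε * (1 + ‖x‖))) := by
        gcongr
        · linarith
        refine (norm_sub_le_norm_sub_add_norm_sub _ (iteratedFDeriv ℝ n F (g x + a)) _).trans ?_
        gcongr
        · refine t1.trans ?_
          gcongr
          exact one_le_two
        · refine t2.trans ?_
          gcongr
    _ = m * 2 ^ m * ε * ((1 + ‖x‖) ^ k * ‖iteratedFDeriv ℝ n F (g x + a)‖) +
        ε * (4 ^ (m + 1) * sn (m + 1) F) := by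
        field_simp
        ring
    _ ≤ m * 2 ^ m * ε * (4 ^ (m + 1) * sn (m + 1) F) + ε * (4 ^ (m + 1) * sn (m + 1) F) := by
        gcongr
    _ = _ := by ring

theorem clm (q : Seminorm ℂ 𝓢(E, ℂ)) (h : Continuous q) :
    ∃ (m : ℕ) (C : ℝ), 0 ≤ C ∧ ∀ F, q F ≤ C * sn m F := by
  obtain ⟨s, C, -, hC⟩ := Seminorm.bound_of_continuous (schwartz_withSeminorms ℂ E ℂ) q h
  refine ⟨s.sup fun k => max k.1 k.2, C, C.2, fun F => (hC F).trans ?_⟩
  refine mul_le_mul_of_nonneg_left (Seminorm.finset_sup_apply_le (sn_nonneg _ F) fun i hi => ?_) C.2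
  have := Finset.le_sup (f := fun k : ℕ × ℕ => max k.1 k.2) hi
  exact le_sn ((le_max_left _ _).trans this) ((le_max_right _ _).trans this) F

variable [FiniteDimensional ℝ E]

theorem cont {ι : Type*} {l : Filter ι} {g : ι → E →L[ℝ] E} {a : ι → E} {g0 : E ≃L[ℝ] E} {a0 : E}
    {F F0 : 𝓢(E, ℂ)} {Ft : ι → 𝓢(E, ℂ)} (hg : Tendsto g l (𝓝 (g0 : E →L[ℝ] E)))
    (ha : Tendsto a l (𝓝 a0)) (h : ∀ᶠ i in l, ∀ x, Ft i x = F (g i x + a i))
    (h0 : ∀ x, F0 x = F (g0 x + a0)) : Tendsto Ft l (𝓝 F0) := by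
  have := FiniteDimensional.proper_real E
  refine ST.tendsto_of_bdd (𝕜 := ℂ) (fun k n => ?_) fun z => ?_
  · set c := ‖(g0.symm : E →L[ℝ] E)‖
    set R := ‖(g0 : E →L[ℝ] E)‖ + 1 + 2 * c
    have c0 : 0 ≤ c := norm_nonneg _
    have g1 := norm_nonneg (g0 : E →L[ℝ] E)
    refine ⟨R ^ max k n * R ^ max k n * 2 ^ max k n * (1 + (‖a0‖ + 1)) ^ max k n *
      sn (max k n) F, ?_⟩
    have t : Tendsto (fun i => c * ‖g i - g0‖) l (𝓝 0) := by
      simpa using (tendsto_iff_norm_sub_tendsto_zero.1 hg).const_mul c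
    filter_upwards [h, hg.norm.eventually_le_const (lt_add_one _),
      ha.norm.eventually_le_const (lt_add_one _), t.eventually_le_const one_half_pos]
      with i e e1 e2 e3
    refine (le_sn (le_max_left k n) (le_max_right k n) _).trans ((bd (R := R) (by linarith)
      (by linarith) (fun x => ?_) e).trans ?_)
    · have q1 : ‖x‖ ≤ c * ‖g0 x‖ := by
        simpa using (g0.symm : E →L[ℝ] E).le_opNorm (g0 x)
      have q2 : ‖g0 x‖ ≤ ‖g i x‖ + ‖g i - g0‖ * ‖x‖ :=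
        (norm_le_norm_add_norm_sub (g i x) (g0 x)).trans
          (add_le_add le_rfl ((g i - g0).le_opNorm x))
      nlinarith [mul_le_mul_of_nonneg_left q2 c0, mul_le_mul_of_nonneg_right e3 (norm_nonneg x),
        norm_nonneg (g i x)]
    · have := sn_nonneg (max k n) F
      gcongr
  · rw [h0]
    exact ((F.continuous.tendsto _).comp ((((ContinuousLinearMap.apply ℝ E z).continuous.tendsto
      _).comp hg).add ha)).congr' (h.mono fun i e => (e z).symm)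

theorem der {g : ℝ → E →L[ℝ] E} {a : ℝ → E} {g' : E →L[ℝ] E} {a' : E} {F F' : 𝓢(E, ℂ)}
    {Ft : ℝ → 𝓢(E, ℂ)} (hg : HasDerivAt g g' 0) (ha : HasDerivAt a a' 0) (g0 : g 0 = 1)
    (a0 : a 0 = 0) (h : ∀ᶠ t in 𝓝 (0 : ℝ), ∀ x, Ft t x = F (g t x + a t))
    (h' : ∀ x, F' x = fderiv ℝ F x (g' x + a')) :
    Tendsto (fun t : ℝ => t⁻¹ • (Ft t - F)) (𝓝[≠] 0) (𝓝 F') := by
  have := FiniteDimensional.proper_real E
  refine ST.tendsto_of_bdd (𝕜 := ℂ) (fun k n => ?_) fun z => ?_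
  · set C := ‖g'‖ + ‖a'‖ + 1
    refine ⟨(max k n * 2 ^ max k n + 1) * 4 ^ (max k n + 1) * C * sn (max k n + 1) F, ?_⟩
    have t : Tendsto (fun t : ℝ => C * ‖t‖) (𝓝 0) (𝓝 0) :=
      (continuous_const.mul continuous_norm).tendsto' 0 0 (by simp)
    filter_upwards [nhdsWithin_le_nhds h, self_mem_nhdsWithin,
      hg.tendsto_slope_zero.norm.eventually_le_const (lt_add_one _),
      ha.tendsto_slope_zero.norm.eventually_le_const (lt_add_one _),
      nhdsWithin_le_nhds (t.eventually_le_const one_half_pos)] with t e t0 e1 e2 e3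
    have p : 0 < ‖t‖ := norm_pos_iff.2 t0
    rw [zero_add, norm_smul, norm_inv, inv_mul_le_iff₀' p] at e1 e2
    rw [g0] at e1
    rw [a0, sub_zero] at e2
    have q := lip (m := max k n) e3 (e1.trans (by gcongr; linarith [norm_nonneg a']))
      (e2.trans (by gcongr; linarith [norm_nonneg g'])) e
    rw [← Complex.coe_smul, map_smul_eq_mul, Complex.norm_real, norm_inv, inv_mul_le_iff₀' p]
    refine (le_sn (le_max_left k n) (le_max_right k n) _).trans (q.trans_eq ?_)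
    push_cast
    ring
  · have q : HasDerivAt (fun t => F (g t z + a t)) (F' z) 0 := by
      rw [h']
      refine (F.differentiableAt.hasFDerivAt (x := z)).comp_hasDerivAt_of_eq 0
        (by simpa using (hg.clm_apply (hasDerivAt_const 0 z)).fun_add ha) ?_
      simp [g0, a0]
    refine q.tendsto_slope_zero.congr' ((h.filter_mono nhdsWithin_le_nhds).mono fun t e => ?_)
    simp [e z, g0, a0]

end Lie

theorem lie_row : LIE where
  der _ _ _ _ _ _ _ _ _ _ _ hg ha g0 a0 h h' := Lie.der hg ha g0 a0 h h'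
  cont _ _ _ _ _ _ _ _ _ _ _ _ _ hg ha h h0 := Lie.cont hg ha h h0
  bd E _ _ _ m R := ⟨max R 1 ^ m * max R 1 ^ m * 2 ^ m, fun g _ _ _ h1 h2 h =>
    Lie.bd (g := (g : E →L[ℝ] E)) (le_max_right _ _) (h1.trans (le_max_left _ _)) (fun x => by
      simpa using (g.symm : E →L[ℝ] E).le_of_opNorm_le (h2.trans (le_max_left R 1)) (g x)) h⟩
  clm _ _ _ := Lie.clm

end Vale.Agent.P352X
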