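import Vale.Agent.P352X.Main0
import Vale.Agent.P352X.Kin.KT
import Vale.Agent.P352.BW.H268.Tra
import Vale.Agent.P352.BW.Ps2
import Vale.Agent.P352.BW.H649.Lw
import Vale.Agent.P352.H246.Main

/-!
# P352X, row CTX: the context exists
-/

set_option linter.all false

noncomputable section

namespace Vale.Agent.P352X

open Vale.Agent.P352 Vale.Agent.P352.GF Vale.Agent.P352.BW Vale.Agent.P352.H246
open Vale.Agent.P352.H496 Vale.Agent.P352.H755 Vale.Agent.P352.H15
open UniformSpace (Completion)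

namespace CTXp

lemma fr : Kin.Fr va vb ex := by
  refine ⟨⟨?_, ?_⟩, ⟨?_, ?_⟩, ?_, fun i => ?_, fun i => ?_, fun i j => ?_⟩
  · simp [va, H496.gm]
  · simp [va, o]
  · simp [vb, H496.gm]
  · simp [vb, o]
  · simp [va, vb, H496.gm]; norm_num
  · fin_cases i <;> simp [va, ex, tv, pt, e2, H496.gm]
  · fin_cases i <;> simp [vb, ex, tv, pt, e2, H496.gm]
  · fin_cases i <;> fin_cases j <;> simp [ex, tv, pt, e2, H496.gm]

lemma gmw (w : R2) : H746.nrt va (tv ((1 / 2 : ℝ) • w)) = Kin.Gm va ex w := by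
  unfold Kin.Gm
  congr 1
  funext m
  fin_cases m <;> simp [Kin.tv, ex, tv, pt, e2]

lemma pair3 : SN.IsPair pr3 := by
  have := SN.isPair_mul.prod (SN.isPair_dot (ι := Fin 2))
  convert this using 3 with k y
  simp [pr3, d2, SN.dot, Fin.sum_univ_two]

end CTXp

open CTXp

theorem ctx_row (D : Type*) [NormedAddCommGroup D] [InnerProductSpace ℂ D] : CTX D := by
  intro Q T A N wp wm t tp hT hP hG hN hU hTP
  obtain ⟨S, hS⟩ := S0.grp0 (H268.s0 hG hN)
  obtain ⟨E⟩ := hN.modW fr.ha fr.hb fr.hab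
  obtain ⟨l, hl, -, -, wl, -⟩ := H246.main hT
  have e1 : (fun (y : V) (z : Completion D) => Ut Q y z) = fun y => Ue Q 1 GF.one y := by
    funext y z
    exact Ug_apply Q one_pos H496.isLor_one y z
  have e2 : (fun (y : P3) (z : Completion D) => Ut Q (y.1 • va) (Ga Q y.2 z)) =
      fun y z => Ue Q 1 GF.one (y.1 • va) (Ue Q 1 (Kin.Gm va ex y.2) 0 z) := by
    funext y z
    rw [Ut, Ga, Ug_apply Q one_pos H496.isLor_one, gmw, Ug_apply Q one_pos (fr.lor _)]
  obtain ⟨bt⟩ : Nonempty (SN.BC (fun p y : V => mdot p y) fun y z => Ut Q y z) := by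
    rw [e1]
    exact Kin.exists_TC hN.toRep
  obtain ⟨a3⟩ : Nonempty (SN.BC pr3 fun (y : P3) z => Ut Q (y.1 • va) (Ga Q y.2 z)) := by
    rw [e2]
    exact SN.exists_BC pair3 ((Kin.urep_a hN.toRep va).prod (Kin.urep_G hN.toRep fr)
      fun x y v => (Kin.G_a hN.toRep fr y x v).symm)
  refine ⟨⟨Q, T, A, N, S, l, E, wp, wm, t, bt, a3, hT, hP, hG, hN, hU, hS.grp1 hG hN,
    fun a z w ha hz => (H268.gr0 hS).pos hG hN a z w ha hz, hl, wl, fun s z => ?_, tp, hTP⟩,
    rfl, rfl, rfl⟩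
  have h1 : Real.sqrt (Real.exp (-(2 * Real.pi * s)) * Real.exp (-(-(2 * Real.pi * s)))) = 1 := by
    rw [← Real.exp_add, add_neg_cancel, Real.exp_zero, Real.sqrt_one]
  have h2 : ∀ u : ℝ, Real.sqrt (Real.exp u / Real.exp (-u)) = Real.exp u := fun u => by
    rw [← Real.exp_sub, sub_neg_eq_add, Real.exp_add, Real.sqrt_mul_self (Real.exp_pos u).le]
  have h3 : Real.sqrt (Real.exp (-(-(2 * Real.pi * s))) / Real.exp (-(2 * Real.pi * s))) =
      Real.exp (2 * Real.pi * s) := by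
    rw [neg_neg]
    exact h2 _
  have hL : IsLor (bst va vb (Real.exp (-(2 * Real.pi * s)) - 1) (Real.exp (2 * Real.pi * s) - 1)) :=
    isLor_bst fr.ha fr.hb fr.hab (by linarith [Real.exp_pos (-(2 * Real.pi * s))]) (by
      rw [add_sub_cancel, add_sub_cancel, ← Real.exp_add, neg_add_cancel, Real.exp_zero])
  rw [Bo, Usc, h1, h2, h3, Ug_apply Q one_pos hL]
  exact hN.bw hG va vb s _ E z fr.ha fr.hb fr.hab hL fun x => sim_bst _ _ _ _ x

end Vale.Agent.P352X
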