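import Vale.Agent.P352X.R.GEN.A

/-!
# P352X: the row GEN
-/

set_option linter.all false

noncomputable section

open Filter Topology
open scoped SchwartzMap ContDiff

namespace Vale.Agent.P352X

open Vale.Agent.P352 Vale.Agent.P352.GF Vale.Agent.P352.BW Vale.Agent.P352.H246
open Vale.Agent.P352.H496 Vale.Agent.P352.H755 Vale.Agent.P352.H15
open H746 (Crv vf)
open H148 (snS)
open UniformSpace (Completion)
open Complex (I)
open Br

namespace Gen

variable {D : Type*} [NormedAddCommGroup D] [InnerProductSpace ℂ D] {c : Ctx D}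

theorem der_pt {α β : ℝ → ℝ} {x : ℝ → R2} {α' β' t : ℝ} {x' : R2} (h1 : HasDerivAt α α' t)
    (h2 : HasDerivAt β β' t) (h3 : HasDerivAt x x' t) :
    HasDerivAt (fun e => pt (α e) (β e) (x e)) (α' • va + β' • vb + tv x') t := by
  simp only [pt_eq]
  exact ((h1.smul_const _).fun_add (h2.smul_const _)).fun_add
    (tvL.hasFDerivAt.comp_hasDerivAt t h3)

theorem fl_ut (c : Ctx D) (y : V) : Fl c (fun t => Ut c.Q (t • y)) fun _ => y :=
  ⟨fun _ => GF.one, fun t => t • y, 0, y, ⟨rfl, rfl, zero_smul _ _, fun _ => one_pos,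
    fun _ => H496.isLor_one, hasDerivAt_const _ _, fun _ _ => hasDerivAt_const _ _, fun n => by
      simpa using (hasDerivAt_id (0 : ℝ)).mul_const (y n)⟩, fun _ => rfl, fun z n => by simp⟩

theorem sq1 (t : ℝ) : Real.sqrt (Real.exp t * Real.exp (-t)) = 1 := by
  rw [← Real.exp_add, add_neg_cancel, Real.exp_zero, Real.sqrt_one]

theorem fl_bo (g : GRP c) : Fl c (Bo c.Q) fun z => al z • va - be z • vb := by
  refine fl_lin (σ := fun t => scp (Real.exp t) (Real.exp (-t)))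
    (fun t => by rw [Bo, Usc, sq1]) (fun t => ?_) (fun z => by simp [scp, pt_self]) fun z => ?_
  · have := g.lsc _ _ (Real.exp_pos t) (Real.exp_pos (-t))
    rwa [sq1] at this
  · simp only [scp, sq1]
    convert der_pt ((Real.hasDerivAt_exp 0).mul_const _) ((hasDerivAt_neg (0 : ℝ)).exp.mul_const _)
      (hasDerivAt_const _ _) using 1
    simp [← tvL_apply, sub_eq_add_neg]

theorem fl_ga (g : GRP c) (w : R2) :
    Fl c (fun t => Ga c.Q (t • w)) fun z => d2 w (tx z) • va + be z • tv w := by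
  refine fl_lin (σ := fun t => gap (t • w)) (fun t => rfl) (fun t => g.lga _)
    (fun z => by simp [gap, d2, pt_self]) fun z => ?_
  have h := hasDerivAt_id' (0 : ℝ)
  have k := fun j => h.mul_const (w j)
  simp only [gap, d2, Pi.smul_apply, smul_eq_mul]
  convert der_pt (((((k 0).mul_const _).fun_add ((k 1).mul_const _)).const_add _).fun_add
    (((((k 0).fun_mul (k 0)).fun_add ((k 1).fun_mul (k 1))).mul_const _).div_const 2))
    (hasDerivAt_const _ _) (((h.smul_const w).fun_const_smul (be z)).const_add _) using 1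
  simp [tv_smul']

theorem d2_e2 (i : Fin 2) (x : R2) : d2 (e2 i) x = x i := by
  fin_cases i <;> simp [d2, e2]

theorem fl_mi (g : GRP c) (i : Fin 2) : Fl c (Mi c.Q i) fun z => tx z i • va + be z • ex i := by
  have := fl_ga g (e2 i)
  simp only [d2_e2] at this
  exact this

theorem fl_gb (g : GRP c) : Fl c (Gb c.Q) fun z => tx z 0 • vb + al z • ex 0 := by
  refine fl_lin (σ := gbp) (fun t => rfl) g.lgb (fun z => by simp [gbp, pt_self]) fun z => ?_
  have h := hasDerivAt_id' (0 : ℝ)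
  simp only [gbp]
  convert der_pt (hasDerivAt_const _ _) (((h.mul_const _).const_add _).fun_add
    (((h.fun_pow 2).mul_const _).div_const 2)) (((h.mul_const _).smul_const _).const_add _) using 1
  simp [tv_smul', ex]

theorem vf_two (u v : V → ℝ) (h k : V) (f : Fn) : vf (fun z => u z • h + v z • k) f =
    fun z => (u z : ℝ) * dv h f z + (v z : ℝ) * dv k f z := by
  funext z
  simp only [vf, dv, Finset.mul_sum, ← Finset.sum_add_distrib, Pi.add_apply, Pi.smul_apply,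
    smul_eq_mul]
  refine Finset.sum_congr rfl fun m _ => ?_
  push_cast
  ring

theorem vf_bo (f : Fn) : vf (fun z => al z • va - be z • vb) f = Bc f := by
  have := vf_two al (fun z => -be z) va vb f
  simp only [neg_smul, ← sub_eq_add_neg, Complex.ofReal_neg, neg_mul] at this
  exact this

theorem vf_ut (y : V) (f : Fn) : vf (fun _ => y) f = dv y f := rfl

theorem vf_mi (i : Fin 2) (f : Fn) : vf (fun z => tx z i • va + be z • ex i) f = Mc i f :=
  vf_two _ _ _ _ _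

theorem vf_gb (f : Fn) : vf (fun z => tx z 0 • vb + al z • ex 0) f = Mb f := vf_two _ _ _ _ _

theorem al0 : al 0 = 0 := by simp [al, gm]
theorem be0 : be 0 = 0 := by simp [be, gm]
theorem tx0 : tx 0 = 0 := by
  funext i
  fin_cases i <;> rfl

/-- the group law of the group generated by `B`, `P_b`, `M^b` -/
theorem gq_mul (g : GRP c) (q r : ℝ × ℝ × ℝ) : c.gq q * c.gq r =
    c.gq (q.1 + r.1, Real.exp r.1 * q.2.1 + r.2.1, Real.exp r.1 * q.2.2 + r.2.2) := by
  obtain ⟨t, u, s⟩ := q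
  obtain ⟨τ, υ, σ⟩ := r
  have p := Real.exp_pos τ
  have p' := Real.exp_pos (-τ)
  have x : ∀ y, Real.exp (-τ) * (Real.exp τ * y) = y := fun y => by
    rw [← mul_assoc, ← Real.exp_add, neg_add_cancel, Real.exp_zero, one_mul]
  have b : ∀ y : ℝ, y • vb = pt 0 y 0 := fun y => by simp [pt_eq, ← tvL_apply]
  have e1 : Pb c.Q u * Bo c.Q τ = Bo c.Q τ * Pb c.Q (Real.exp τ * u) := by
    rw [Bo, Pb, Pb, g.sc_ut _ _ _ p p', b, b, scp, al_pt', be_pt', tx_pt', x, mul_zero, smul_zero]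
  have e2 : Gb c.Q s * Bo c.Q τ = Bo c.Q τ * Gb c.Q (Real.exp τ * s) := by
    rw [Bo, g.sc_gb _ _ _ p p', ← Real.exp_sub, show -τ - τ = -τ + -τ by ring, Real.exp_add,
      Real.sqrt_mul_self p'.le, x]
  have e3 : ∀ y, Gb c.Q y * Pb c.Q υ = Pb c.Q υ * Gb c.Q y := fun y => by
    rw [Pb, g.gb_ut, b, gbp, al_pt', be_pt', tx_pt']
    simp
  have e4 : Bo c.Q (t + τ) = Bo c.Q t * Bo c.Q τ := by
    rw [Bo, Bo, Bo, ← g.sc _ _ _ _ (Real.exp_pos _) (Real.exp_pos _) p p', neg_add, Real.exp_add,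
      Real.exp_add]
  simp only [Ctx.gq, e4, g.gb, Pb, add_smul, g.ut]
  simp only [Pb] at e1 e3
  calc _ = Bo c.Q t * (Ut c.Q (u • vb) * (Gb c.Q s * Bo c.Q τ)) * (Ut c.Q (υ • vb) * Gb c.Q σ) := by
        simp only [mul_assoc]
    _ = Bo c.Q t * Bo c.Q τ * Ut c.Q ((Real.exp τ * u) • vb) *
        (Gb c.Q (Real.exp τ * s) * Ut c.Q (υ • vb)) * Gb c.Q σ := by
        rw [e2, ← mul_assoc (Ut c.Q _), e1]
        simp only [mul_assoc]
    _ = _ := by
        rw [e3]
        simp only [mul_assoc]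

theorem prod3 {H : Type*} [NormedAddCommGroup H] [InnerProductSpace ℂ H] {B P G : ℝ → H →L[ℂ] H}
    {v a b e : H} (nB : ∀ y z, ‖B y z‖ ≤ ‖z‖) (nP : ∀ y z, ‖P y z‖ ≤ ‖z‖)
    (cB : ∀ z, ContinuousAt (fun y => B y z) 0) (cP : ∀ z, ContinuousAt (fun y => P y z) 0)
    (B0 : B 0 = 1) (P0 : P 0 = 1) (G0 : G 0 = 1) (dB : HasDerivAt (fun y => B y v) a 0)
    (dP : HasDerivAt (fun y => P y v) b 0) (dG : HasDerivAt (fun y => G y v) e 0) :
    ∃ A : ℝ × ℝ × ℝ →L[ℝ] H, HasFDerivAt (fun q : ℝ × ℝ × ℝ => (B q.1 * P q.2.1 * G q.2.2) v) A 0 ∧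
      ∀ y, A y = y.1 • a + y.2.1 • b + y.2.2 • e := by
  have d : ∀ {f : ℝ → H} {f'} (h : HasDerivAt f f' 0) (π : ℝ × ℝ × ℝ →L[ℝ] ℝ),
      HasFDerivAt (fun q => f (π q)) (π.smulRight f') 0 := fun {f f'} h π =>
    HasFDerivAt.comp (g := f) (g' := .toSpanSingleton ℝ f') 0 (by simpa using h.hasFDerivAt)
      π.hasFDerivAt
  have k := prodF (W := fun q : ℝ × ℝ × ℝ => P q.2.1) (fun q => nP _)
    (fun z => (cP z).comp_of_eq (by fun_prop) rfl) P0
    (d dG ((ContinuousLinearMap.snd ℝ ℝ ℝ).comp (.snd ℝ ℝ _)))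
    (by simpa [G0] using d dP ((ContinuousLinearMap.fst ℝ ℝ ℝ).comp (.snd ℝ ℝ _)))
  have k' := prodF (W := fun q : ℝ × ℝ × ℝ => B q.1) (fun q => nB _)
    (fun z => (cB z).comp_of_eq (by fun_prop) rfl) B0 k
    (by simpa [G0, P0] using d dB (.fst ℝ ℝ _))
  exact ⟨_, k', fun y => (add_assoc _ _ _).symm⟩

theorem gq_der (g : GRP c) (v : D) : ∃ (w : Fin 3 → D) (A : ℝ × ℝ × ℝ →L[ℝ] Completion D),
    HasFDerivAt (fun q => c.gq q v) A 0 ∧
      ∀ y, A y = y.1 • (w 0 : Completion D) + y.2.1 • (w 1 : Completion D) + y.2.2 • (w 2 : D) :=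
  have B := fl_bo g
  have P := fl_ut c vb
  have G := fl_gb g
  ⟨![_, _, _], prod3 (B.norm g) (P.norm g) (B.cont g) (P.cont g) (B.zero g) (P.zero g) (G.zero g)
    (B.dom g v) (P.dom g v) (G.dom g v)⟩

theorem sm (g : GRP c) (v : D) : ContDiff ℝ ∞ fun q => c.gq q (v : Completion D) := by
  set ψ := fun q r : ℝ × ℝ × ℝ => (r.1 - q.1, r.2.1 - Real.exp (r.1 - q.1) * q.2.1,
    r.2.2 - Real.exp (r.1 - q.1) * q.2.2)
  have s : ContDiff ℝ ∞ ψ.uncurry := by
    unfold Function.uncurry ψ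
    fun_prop
  have s' : ∀ y, ContDiff ℝ ∞ fun q => fderiv ℝ (ψ q) q y := fun y =>
    (s.fderiv contDiff_id le_rfl).clm_apply contDiff_const
  have key : ∀ v : D, ∃ w : Fin 3 → D, ∀ q, ∃ A, HasFDerivAt (fun q => c.gq q v) A q ∧ ∀ y,
      A y = (fderiv ℝ (ψ q) q y).1 • c.gq q (w 0) + (fderiv ℝ (ψ q) q y).2.1 • c.gq q (w 1) +
        (fderiv ℝ (ψ q) q y).2.2 • c.gq q (w 2) := fun v => by
    obtain ⟨w, A, h, e⟩ := gq_der g v
    refine ⟨w, fun q => ⟨_, ((((c.gq q).restrictScalars ℝ).hasFDerivAt.comp q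
      (HasFDerivAt.comp q (g := fun q => c.gq q v) (f := ψ q) ((show ψ q q = 0 by simp [ψ]) ▸ h)
        (((s.comp (contDiff_const.prodMk contDiff_id)).differentiable (by simp))
          q).hasFDerivAt)).congr_of_eventuallyEq (.of_forall fun r => ?_)), fun y => ?_⟩⟩
    · have := congrArg (· (v : Completion D)) (gq_mul g q (ψ q r))
      simpa [ψ] using this.symm
    · simp [e, Function.comp_def]
  rw [contDiff_infty]
  intro n
  induction n generalizing v with
  | zero =>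
    obtain ⟨w, h⟩ := key v
    exact contDiff_zero.2 (continuous_iff_continuousAt.2 fun q => (h q).choose_spec.1.continuousAt)
  | succ n ih =>
    obtain ⟨w, h⟩ := key v
    choose A h e using h
    rw [Nat.cast_succ, contDiff_succ_iff_fderiv_apply]
    refine ⟨fun q => (h q).differentiableAt, by simp, fun y => ?_⟩
    have t : ContDiff ℝ n fun q => fderiv ℝ (ψ q) q y := (s' y).of_le (by exact_mod_cast le_top)
    simp only [fun q => (h q).fderiv, e]
    exact ((t.fst.smul (ih _)).add (t.snd.fst.smul (ih _))).add (t.snd.snd.smul (ih _))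

theorem bd (c : Ctx D) (v : D) : ∃ (m : ℕ) (C : ℝ), 0 ≤ C ∧ ∀ h k (f : Sch),
    ‖c.Tf (hk h k (ev f)) v‖ ≤ C * ‖h‖ * ‖k‖ * sn m f := by
  set L := ContinuousLinearMap.pi fun i : I2 => (tl c v i.1 i.2).comp ofSch
  obtain ⟨m, C, C0, hC⟩ := Lie.clm ((normSeminorm ℂ _).comp L.toLinearMap) L.continuous.norm
  refine ⟨m, 16 * C, by positivity, fun h k f => ?_⟩
  have e : ∀ i, |eta i| = 1 := fun i => by unfold eta; split_ifs <;> simp
  rw [← Completion.norm_coe, show ev f = fl (ofSch f) from rfl, ← th_apply, th]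
  simp only [ContinuousLinearMap.sum_apply, ContinuousLinearMap.smul_apply]
  refine (norm_sum_le_of_le _ fun i _ => norm_sum_le_of_le (n := fun _ =>
    ‖h‖ * ‖k‖ * (C * sn m f)) _ fun j _ => ?_).trans_eq (by simp; ring)
  rw [norm_smul, Complex.norm_real, Real.norm_eq_abs, abs_mul, abs_mul, abs_mul, e, e, one_mul,
    one_mul]
  gcongr
  exacts [norm_le_pi_norm h i, norm_le_pi_norm k j, (norm_le_pi_norm (L f) (i, j)).trans (hC f)]

theorem bd2 (c : Ctx D) (v : D) : ∃ (m : ℕ) (C : ℝ), ∀ i j k l (f g : Sch),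
    ‖c.T i j (ev f) (c.T k l (ev g) v)‖ ≤ C * sn m f * sn m g := by
  choose K n K0 h using fun i : I2 × I2 => (od c i.1.1 i.1.2).joint (od c i.2.1 i.2.2) v
  obtain ⟨m, C, C0, hC⟩ := Lie.clm ((snS (Finset.univ.sup n)).comp ofSch.toLinearMap)
    ((H148.cont_snS _).comp ofSch.continuous)
  refine ⟨m, (∑ i, K i) * C * C, fun i j k l f g => (h ((i, j), k, l) (ofSch f) (ofSch g)).trans ?_⟩
  have e := fun f => (H148.snS_mono (Finset.le_sup (f := n) (Finset.mem_univ ((i, j), k, l)))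
    (ofSch f)).trans (hC f)
  have := Finset.single_le_sum (fun i _ => K0 i) (Finset.mem_univ ((i, j), k, l))
  have := Finset.sum_nonneg fun i (_ : i ∈ Finset.univ) => K0 i
  have := Lie.sn_nonneg m f
  calc _ ≤ (∑ i, K i) * (C * sn m f) * (C * sn m g) := by
        gcongr
        exacts [e f, e g]
    _ = _ := by ring

theorem ky (g : GRP c) (y : R2) {ψ} (h : Dm c.SK ψ) (hm : ∀ i, Dm (Mi c.Q i) ψ)
    (hp : Dm (Pa c.Q) ψ) : Gn (c.Ky (tv y)) ψ (gen c.SK ψ -
      ∑ i, ((2 * y i : ℝ) : ℂ) • gen (Mi c.Q i) ψ + (d2 y y : ℝ) • gen (Pa c.Q) ψ) := by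
  have p : ∀ {W X φ φ' k} (r : ℝ), Fl c W X → HasDerivAt φ φ' 0 → φ 0 = ψ → Gn W ψ k →
      HasDerivAt (fun t => W (t * r) (φ t)) (r • I • k + φ') 0 ∧ W (0 * r) (φ 0) = ψ :=
    fun {W X φ φ' k} r K d e q => ⟨prod1 (W := fun t => W (t * r)) (fun t => K.norm g _)
      (fun z => (K.cont g z).comp_of_eq (by fun_prop) (zero_mul r))
      (by rw [zero_mul, K.zero g]) d
      (e ▸ HasDerivAt.scomp_of_eq (0 : ℝ) q (hasDerivAt_mul_const r) (zero_mul r).symm),
      by rw [zero_mul, K.zero g, e]; rfl⟩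
  have a := p (-(2 * y 1)) (fl_mi g 1) h.gn' (by rw [Ctx.SK, c.hS.zero _ g.na]; rfl) (hm 1).gn'
  have b := p (-(2 * y 0)) (fl_mi g 0) a.1 a.2 (hm 0).gn'
  have d := (p (d2 y y) (fl_ut c va) b.1 b.2 hp.gn').1
  refine (d.congr_of_eventuallyEq (.of_forall fun t => ?_)).congr_deriv ?_
  · have e := g.S_ut t (-y)
    rw [← tvL_apply, map_neg, tvL_apply] at e
    simp only [Ctx.Ky]
    rw [mul_assoc, e, ← mul_assoc, ← mul_assoc, ← g.ut, add_neg_cancel_left,
      show (2 * t) • -y = (t * -(2 * y 0)) • e2 0 + (t * -(2 * y 1)) • e2 1 by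
        funext i
        fin_cases i <;> simp [e2] <;> ring, g.ga, show d2 (-y) (-y) = d2 y y by simp [d2]]
    rfl
  · simp only [Fin.sum_univ_two, ← Complex.coe_smul]
    module

end Gen

open Gen

theorem gen_row {D : Type*} [NormedAddCommGroup D] [InnerProductSpace ℂ D] (c : Ctx D)
    (t : T0 c) : GEN c where
  ut y h k f hf := by
    have z : ∀ h k, h = 0 ∨ k = 0 → c.Tv (hk h k f) = 0 := fun h k e => by
      obtain ⟨F, rfl⟩ := exists_fl hf
      rcases e with rfl | rfl <;> simp [Ctx.Tv, ← th_apply, th]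
    simpa only [vf_ut, sub_self, z _ _ (.inl rfl), z _ _ (.inr rfl), sub_zero] using
      (fl_ut c y).tv t.grp h k hf
  bo h k f hf := by
    simpa only [vf_bo, al0, be0, zero_smul, sub_zero] using (fl_bo t.grp).tv t.grp h k hf
  mi i h k f hf := by
    simpa only [vf_mi, tx0, be0, Pi.zero_apply, zero_smul, add_zero, sub_zero] using
      (fl_mi t.grp i).tv t.grp h k hf
  gb h k f hf := by
    simpa only [vf_gb, tx0, al0, Pi.zero_apply, zero_smul, add_zero, sub_zero] using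
      (fl_gb t.grp).tv t.grp h k hf
  uth y f hf := (fl_ut c y).tr t.grp hf
  both f hf := vf_bo f ▸ (fl_bo t.grp).tr t.grp hf
  mith i f hf := vf_mi i f ▸ (fl_mi t.grp i).tr t.grp hf
  gbth f hf := vf_gb f ▸ (fl_gb t.grp).tr t.grp hf
  utl y f hf := (fl_ut c y).pot t.grp hf
  bol f hf := vf_bo f ▸ (fl_bo t.grp).pot t.grp hf
  mil i f hf := vf_mi i f ▸ (fl_mi t.grp i).pot t.grp hf
  sm := sm t.grp
  bd := let ⟨m, C, _, h⟩ := bd c c.Q.vac
    ⟨m, C, fun a k f => (Completion.norm_coe _).trans_le (h a k f)⟩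
  bd2 := bd2 c
  ky y _ := ky t.grp y

end Vale.Agent.P352X
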