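import Vale.Agent.P352X.R.IX.D

/-!
# P352X, row IX: the transverse boundary of the third leg (helper80)
-/

set_option linter.all false

open MeasureTheory Filter Topology
open scoped SchwartzMap ComplexConjugate ENNReal ContDiff

namespace Vale.Agent.P352X

open Vale.Agent.P352 Vale.Agent.P352.GF Vale.Agent.P352.BW Vale.Agent.P352.H246
open Vale.Agent.P352.H496 Vale.Agent.P352.H755 Vale.Agent.P352.H15
open UniformSpace (Completion)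
open Complex (I)
open CK.Near (Nb ex_Nb)

noncomputable section

namespace IXH

/-- the two legs are at different transverse positions -/
def Cl (G : E5 → ℂ) : Prop := Dc G ∧ ∀ u ∈ tsupport G, u.1.2 ≠ u.1.1.2

theorem Cl.of {G G' : E5 → ℂ} (h : Cl G) (h1 : Dc G') (h2 : tsupport G' ⊆ tsupport G) : Cl G' :=
  ⟨h1, fun u hu => h.2 u (h2 hu)⟩

theorem Cl.mul {G : E5 → ℂ} (h : Cl G) {φ : E5 → ℝ} (hφ : ContDiff ℝ ∞ φ) : Cl (mu5 φ G) :=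
  h.of (dc_mu5 hφ h.1) tsupport_mul_subset_right

theorem Cl.der {G : E5 → ℂ} (h : Cl G) (i : Fin 2) : Cl fun u => fderiv ℝ G u (NL i u) :=
  h.of (Api4.dc_fderiv h.1 (smooth_NL i)) (Api4.tsupport_fderiv_subset _ _)

/-- `(x3 - x1)_i / |x3 - x1|^2` -/
def qi (i : Fin 2) (u : E5) : ℝ := (u.1.2 i - u.1.1.2 i) / d2 (u.1.2 - u.1.1.2) (u.1.2 - u.1.1.2)

theorem Cl.div {G : E5 → ℂ} (h : Cl G) (i : Fin 2) : Cl (mu5 (qi i) G) := by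
  refine h.of ⟨contDiff_iff_contDiffAt.2 fun u => ?_, h.1.2.mul_left⟩ tsupport_mul_subset_right
  by_cases hu : u ∈ tsupport (mu5 (qi i) G)
  swap
  · exact contDiffAt_const.congr_of_eventuallyEq (notMem_tsupport_iff_eventuallyEq.1 hu)
  have h0 : d2 (u.1.2 - u.1.1.2) (u.1.2 - u.1.1.2) ≠ 0 := fun k =>
    h.2 u (tsupport_mul_subset_right hu) (sub_eq_zero.1 ((d2_eq_zero _).1 k))
  have h1 : ContDiff ℝ ∞ fun u : E5 => u.1.2 i - u.1.1.2 i := by fun_prop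
  have h2 : ContDiff ℝ ∞ fun u : E5 => d2 (u.1.2 - u.1.1.2) (u.1.2 - u.1.1.2) := by fun_prop
  exact (Complex.ofRealCLM.contDiff.contDiffAt.comp u
    (h1.contDiffAt.div h2.contDiffAt h0)).mul h.1.1.contDiffAt

theorem Cl.split {G : E5 → ℂ} (h : Cl G) (u : E5) :
    G u = mu5 (fun u => u.1.2 0 - u.1.1.2 0) (mu5 (qi 0) G) u +
      mu5 (fun u => u.1.2 1 - u.1.1.2 1) (mu5 (qi 1) G) u := by
  by_cases k : G u = 0
  · simp [mu5, k]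
  have h0 : d2 (u.1.2 - u.1.1.2) (u.1.2 - u.1.1.2) ≠ 0 := fun e =>
    h.2 u (subset_tsupport _ k) (sub_eq_zero.1 ((d2_eq_zero _).1 e))
  have : (u.1.2 0 - u.1.1.2 0) * qi 0 u + (u.1.2 1 - u.1.1.2 1) * qi 1 u = 1 := by
    rw [qi, qi, ← mul_div_assoc, ← mul_div_assoc, ← add_div, div_eq_one_iff_eq h0]
    rfl
  simp only [mu5, ← mul_assoc, ← add_mul, ← Complex.ofReal_mul, ← Complex.ofReal_add, this,
    Complex.ofReal_one, one_mul]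

/-- families that are eventually bounded by `w ε` -/
def Ev (w : ℝ → ℝ) (F : ℝ → ℝ → ℝ → ℂ) : Prop := ∃ C : ℝ, 0 ≤ C ∧ ∀ ε ∈ Set.Ioc (0 : ℝ) 1,
  ∀ δ ∈ Set.Ioc 0 ε, ∀ᶠ L in atTop, ‖F ε δ L‖ ≤ C * w ε

section ev

variable {w : ℝ → ℝ} {F F' : ℝ → ℝ → ℝ → ℂ}

theorem Ev.add (h : Ev w F) (h' : Ev w F') : Ev w fun ε δ L => F ε δ L + F' ε δ L := by
  obtain ⟨C, hC, h⟩ := h
  obtain ⟨C', hC', h'⟩ := h'
  refine ⟨C + C', by positivity, fun ε hε δ hδ => ?_⟩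
  filter_upwards [h ε hε δ hδ, h' ε hε δ hδ] with L a b
  rw [add_mul]
  exact (norm_add_le _ _).trans (add_le_add a b)

theorem Ev.neg (h : Ev w F) : Ev w fun ε δ L => -F ε δ L := by
  simpa only [Ev, norm_neg] using h

theorem Ev.sub (h : Ev w F) (h' : Ev w F') : Ev w fun ε δ L => F ε δ L - F' ε δ L := by
  simpa only [sub_eq_add_neg] using h.add h'.neg

theorem Ev.congr (h : Ev w F)
    (e : ∀ ε ∈ Set.Ioc (0 : ℝ) 1, ∀ δ ∈ Set.Ioc 0 ε, ∀ L, 0 < L → F' ε δ L = F ε δ L) : Ev w F' := by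
  obtain ⟨C, hC, h⟩ := h
  refine ⟨C, hC, fun ε hε δ hδ => ?_⟩
  filter_upwards [h ε hε δ hδ, eventually_gt_atTop (0 : ℝ)] with L a b
  rwa [e ε hε δ hδ L b]

theorem Ev.gain (h : Ev w F) {s : ℝ → ℝ → ℝ}
    (hs : ∀ ε ∈ Set.Ioc (0 : ℝ) 1, ∀ δ ∈ Set.Ioc 0 ε, |s ε δ| ≤ ε) :
    Ev (fun ε => ε * w ε) fun ε δ L => s ε δ * F ε δ L := by
  obtain ⟨C, hC, h⟩ := h
  refine ⟨C, hC, fun ε hε δ hδ => (h ε hε δ hδ).mono fun L a => ?_⟩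
  rw [norm_mul, Complex.norm_real, mul_left_comm]
  exact mul_le_mul (hs ε hε δ hδ) a (norm_nonneg _) hε.1.le

end ev

variable {D : Type*} [NormedAddCommGroup D] [InnerProductSpace ℂ D] {c : Ctx D}

/-- the terms -/
def Tm (c : Ctx D) (G : E5 → ℂ) (K : ℝ → ℝ) (j : ℕ) (g : P3 → ℝ) (ρ : ℝ → ℝ) (ε δ L : ℝ) : ℂ :=
  X c (Ps G K ε) (pr (gS j g L) (dlt δ ρ))

/-- the bound for functions with `n` vanishing moments -/
def PN (c : Ctx D) (w : ℝ → ℝ) (n : ℕ) : Prop := ∀ G K j g ρ, Cl G → Mom n K → KC j g → Tst ρ →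
  tsupport ρ ⊆ Set.Icc (-1) 1 → Ev w (Tm c G K j g ρ)

theorem pn_zero [Fact c.tp] (t : T3 c) : ∃ m : ℕ, PN c (fun ε => ε⁻¹ ^ m) 0 := by
  obtain ⟨m, h⟩ := bnd t
  refine ⟨m, fun G K j g ρ hG hK hg hρ hs => ?_⟩
  obtain ⟨r, hr⟩ := supp_Ps hG.1 hK.1
  obtain ⟨C1, hC1, h1⟩ := sn_Ps hG.1 hK.1 m
  obtain ⟨C, A, hC, -, h⟩ := h j g r hg
  have h0 : 0 ≤ ∫ t, |ρ t| := integral_nonneg fun _ => abs_nonneg _
  refine ⟨C * C1 * ∫ t, |ρ t|, by positivity, fun ε hε δ hδ => ?_⟩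
  filter_upwards [eventually_ge_atTop A] with L hL
  refine (h L _ _ (∫ t, |ρ t|) hL (dc_Ps hG.1 hK.1 hε) (hr ε hε) (Ap.tst_dlt hρ hδ.1.ne')
    ((Ap.tsupport_dlt_Icc hs hδ.1).trans (Set.Icc_subset_Icc (by linarith [hδ.2, hε.2])
      (by linarith [hδ.2, hε.2]))) ⟨fun l hl => absurd hl (Nat.not_lt_zero l), le_of_eq ?_⟩).trans
    ((mul_le_mul_of_nonneg_right (mul_le_mul_of_nonneg_left (h1 ε hε) hC) h0).trans_eq (by ring))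
  simp only [Ap.abs_dlt hδ.1, Ap.integral_dlt hδ.1]

theorem ev_far (hf : FAR c) {w : ℝ → ℝ} (hw : ∀ ε, 0 < ε → 0 < w ε) {G : E5 → ℂ} {K ρ : ℝ → ℝ}
    (j : ℕ) {g : P3 → ℝ} (hG : Dc G) (hK : Tst K) (hg : Tst g) (h0 : (0 : P3) ∉ tsupport g)
    (hρ : Tst ρ) : Ev w (Tm c G K j g ρ) :=
  ⟨1, zero_le_one, fun ε hε δ hδ => X_far hf j hg h0 (Ap.tst_dlt hρ hδ.1.ne') (dc_Ps hG hK hε)
    (by rw [one_mul]; exact hw ε hε.1)⟩

theorem pn_one [Fact c.tp] (hc : GRP c) (hf : FAR c) {w : ℝ → ℝ} (hw : ∀ ε, 0 < ε → 0 < w ε) {n : ℕ}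
    (h : PN c w n) {G : E5 → ℂ} {K ρ : ℝ → ℝ} {j : ℕ} {g : P3 → ℝ} (hG : Cl G) (hK : Mom n K)
    (hg : KC j g) (hρ : Tst ρ) (hs : tsupport ρ ⊆ Set.Icc (-1) 1) (i : Fin 2) :
    Ev (fun ε => ε * w ε) (Tm c (mu5 (fun u => u.1.2 i - u.1.1.2 i) G) (deriv K) j g ρ) := by
  have hw' : ∀ ε, 0 < ε → 0 < ε * w ε := fun ε a => mul_pos a (hw ε a)
  have tρ : Tst fun t => t * ρ t := Ap.cs_mul_l contDiff_fun_id hρ
  have a1 := ev_far hf hw' (j + 2) (dc_mu5 (φ := fun u => u.1.1.2 i) (by fun_prop) hG.1) hK.1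
    (tst_da hg.tst) hg.da0 hρ
  have a2 := ev_far hf hw' (j + 1) hG.1 hK.1 (tst_xi i (tst_da hg.tst)) (hg.xda0 i) hρ
  have a3 := (h G K _ _ _ hG hK (hg.di i) tρ (tsupport_mul_subset_right.trans hs)).gain
    (s := fun _ δ => δ) fun ε _ δ hδ => (abs_of_pos hδ.1).trans_le hδ.2
  have a4 := (h _ K _ _ _ (hG.der i) hK hg hρ hs).gain (s := fun ε _ => ε)
    fun ε hε _ _ => (abs_of_pos hε.1).le
  refine (((a1.sub a2).sub a3).sub a4).congr fun ε hε δ hδ L hL => ?_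
  have e : pr (gS (j + 1) (di i g) L) (fun t => t * dlt δ ρ t) =
      fun z => (δ : ℂ) * pr (gS (j + 1) (di i g) L) (dlt δ fun t => t * ρ t) z := funext fun z => by
    have := Ap.pow_dlt hδ.1.ne' 1 ρ (be z)
    simp only [pow_one] at this
    simp only [pr, this]
    push_cast
    ring
  rw [Tm, ward hc hG.1 hK.1 (tst_gS j hg.tst hL) (Ap.tst_dlt hρ hδ.1.ne') hε i, da_gS hg.tst hL,
    xi_gS i hL, di_gS i hg.tst hL, e, X_mul_r (dc_Ps hG.1 hK.1 hε)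
      (Far.dc_pr (tst_gS _ (tst_di i hg.tst) hL) (Ap.tst_dlt tρ hδ.1.ne'))]
  rfl

theorem pn_succ [Fact c.tp] (hc : GRP c) (hf : FAR c) {w : ℝ → ℝ} (hw : ∀ ε, 0 < ε → 0 < w ε) {n : ℕ}
    (h : PN c w n) : PN c (fun ε => ε * w ε) (n + 1) := by
  intro G k j g ρ hG hk hg hρ hs
  obtain ⟨K, hK, rfl⟩ := hk.prim
  refine ((pn_one hc hf hw h (hG.div 0) hK hg hρ hs 0).add
    (pn_one hc hf hw h (hG.div 1) hK hg hρ hs 1)).congr fun ε hε δ hδ L hL => ?_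
  simp only [Tm]
  rw [← X_add_l (dc_Ps ((hG.div 0).mul (by fun_prop)).1 hk.1 hε)
    (dc_Ps ((hG.div 1).mul (by fun_prop)).1 hk.1 hε)
    (Far.dc_pr (tst_gS j hg.tst hL) (Ap.tst_dlt hρ hδ.1.ne'))]
  congr 1
  funext z
  simp only [Ps, ten, ← add_mul, ← hG.split]

theorem pn [Fact c.tp] (t : T3 c) (hf : FAR c) : ∃ n, PN c (fun ε => ε) n := by
  obtain ⟨m, h⟩ := pn_zero t
  have key : ∀ n, PN c (fun ε => ε ^ n * ε⁻¹ ^ m) n := fun n => by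
    induction n with
    | zero => simpa only [pow_zero, one_mul] using h
    | succ n ih =>
      simpa only [pow_succ', mul_assoc] using pn_succ t.grp hf (fun ε a => by positivity) ih
  refine ⟨m + 1, fun G K j g ρ a1 a2 a3 a4 a5 => ?_⟩
  obtain ⟨C, hC, h⟩ := key (m + 1) G K j g ρ a1 a2 a3 a4 a5
  refine ⟨C, hC, fun ε hε δ hδ => (h ε hε δ hδ).mono fun L a => a.trans_eq ?_⟩
  have := hε.1.ne'
  beta_reduce
  rw [inv_pow]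
  field_simp
  ring

/-! ## the weight -/

/-- the test function of the two legs with the weight `(al1 - al3)^2` -/
def Ps2 (G : E5 → ℂ) (k : ℝ → ℝ) (ε : ℝ) : V × V → ℂ :=
  fun z => (((al z.1 - al z.2) ^ 2 : ℝ) : ℂ) * Ps G k ε z

theorem dc_Ps2 {G : E5 → ℂ} {k : ℝ → ℝ} {ε : ℝ} (hG : Dc G) (hk : Tst k)
    (h : ε ∈ Set.Ioc (0 : ℝ) 1) : Dc (Ps2 G k ε) :=
  Api4.dc_mul_left (Ap.smooth_cx (by fun_prop)) (dc_Ps hG hk h)

theorem ev_two {w : ℝ → ℝ} {n : ℕ} (h : PN c w n) {G : E5 → ℂ} {k ρ : ℝ → ℝ} {j : ℕ} {g : P3 → ℝ}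
    (hG : Cl G) (hk : Mom (n + 2) k) (hg : KC j g) (hρ : Tst ρ) (hs : tsupport ρ ⊆ Set.Icc (-1) 1) :
    Ev w fun ε δ L => X c (Ps2 G k ε) (pr (gS j g L) (dlt δ ρ)) := by
  have c1 := hG.mul (φ := fun u => u.1.1.1 ^ 2) (by fun_prop)
  have c2 := hG.mul (φ := fun u => -2 * u.1.1.1) (by fun_prop)
  refine (((h _ _ j g ρ c1 hk.mono.mono hg hρ hs).add (h _ _ j g ρ c2 hk.mul.mono hg hρ hs)).add
    (h _ _ j g ρ hG hk.mul.mul hg hρ hs)).congr fun ε hε δ hδ L hL => ?_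
  have d0 := Far.dc_pr (tst_gS j hg.tst hL) (Ap.tst_dlt hρ hδ.1.ne')
  have d1 := dc_Ps c1.1 hk.1 hε
  have d2 := dc_Ps c2.1 hk.mul.1 hε
  simp only [Tm]
  rw [← X_add_l d1 d2 d0, ← X_add_l (Api4.dc_add d1 d2) (dc_Ps hG.1 hk.mul.mul.1 hε) d0]
  congr 1
  funext z
  simp only [Ps2, Ps, ten, mu5, cx, BL_apply, pl_1]
  push_cast
  ring

/-- the term `i` of the weight `(x2 - x1).(x2 - x3)` -/
def Fi (G : E5 → ℂ) (k : ℝ → ℝ) (κ : P3 → ℝ) (ρ : ℝ → ℝ) (ε δ L : ℝ) (i : Fin 2)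
    (z : V × V × V) : ℂ :=
  (((tx z.2.1 i - tx z.1 i) * (tx z.2.1 i - tx z.2.2 i) : ℝ) : ℂ) *
    (Ps2 G k ε (z.1, z.2.2) * pr (kL κ L) (dlt δ ρ) z.2.1)

theorem ev_three {w : ℝ → ℝ} {n : ℕ} (h : PN c w n) {G : E5 → ℂ} {k ρ : ℝ → ℝ} {κ : P3 → ℝ}
    (hG : Cl G) (hk : Mom (n + 2) k) (hκ : Cut κ) (hρ : Tst ρ) (hs : tsupport ρ ⊆ Set.Icc (-1) 1)
    (i : Fin 2) : Ev w fun ε δ L => c.t0 (sch (Fi G k κ ρ ε δ L i)) := by
  have k2 := kc_cut hκ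
  have k1 := k2.xi i
  have k0 := k1.xi i
  have c1 := hG.mul (φ := fun u => -(u.1.1.2 i + u.1.2 i)) (by fun_prop)
  have c2 := hG.mul (φ := fun u => u.1.1.2 i * u.1.2 i) (by fun_prop)
  refine (((ev_two h hG hk k0 hρ hs).add (ev_two h c1 hk k1 hρ hs)).add
    (ev_two h c2 hk k2 hρ hs)).congr fun ε hε δ hδ L hL => ?_
  have tρ := Ap.tst_dlt hρ hδ.1.ne'
  have d0 := Far.dc_tri (dc_Ps2 hG.1 hk.1 hε) (Far.dc_pr (tst_gS 0 k0.tst hL) tρ)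
  have d1 := Far.dc_tri (dc_Ps2 c1.1 hk.1 hε) (Far.dc_pr (tst_gS 1 k1.tst hL) tρ)
  have d2 := Far.dc_tri (dc_Ps2 c2.1 hk.1 hε) (Far.dc_pr (tst_gS 2 k2.tst hL) tρ)
  simp only [X]
  rw [← Far.t0_add, ← Far.t0_add, ← Api4.sch_add d0 d1, ← Api4.sch_add (Api4.dc_add d0 d1) d2]
  congr 2
  funext z
  rw [← xi_gS i hL, ← xi_gS i hL, gS_two hL]
  simp only [Fi, Ps2, Ps, ten, mu5, cx, BL_apply, pl_2, pr, xi]
  push_cast
  ring

/-- the initial function of the two legs -/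
def G0 (ρ1 : P3 → ℝ) (θ : ℝ → ℝ) (k' : R2 → ℝ) (u : E5) : ℂ :=
  (ρ1 u.1.1 * fderiv ℝ k' u.1.2 (u.1.2 - u.1.1.2) * (θ u.2.1 * θ u.2.2) : ℝ)

theorem cl_G0 {ρ1 : P3 → ℝ} {θ : ℝ → ℝ} {k' : R2 → ℝ} (h1 : Tst ρ1) (hθ : Tst θ) (hk : Tst k')
    (h : ∀ y ∈ tsupport ρ1, ∀ᶠ x in 𝓝 y.2, k' x = 1) : Cl (G0 ρ1 θ k') := by
  have hK : IsCompact ((tsupport ρ1 ×ˢ tsupport (fderiv ℝ k')) ×ˢ (tsupport θ ×ˢ tsupport θ)) :=
    (h1.2.isCompact.prod (hk.2.fderiv ℝ).isCompact).prod (hθ.2.isCompact.prod hθ.2.isCompact)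
  have hs : tsupport (G0 ρ1 θ k') ⊆ _ := Ap.tsupp_sub hK.isClosed fun u hu => by
    have a := Complex.ofReal_ne_zero.1 hu
    obtain ⟨a1, a2⟩ := mul_ne_zero_iff.1 a
    exact ⟨⟨subset_tsupport _ (left_ne_zero_of_mul a1), subset_tsupport _ fun k =>
      right_ne_zero_of_mul a1 (by rw [k]; rfl)⟩, subset_tsupport _ (left_ne_zero_of_mul a2),
      subset_tsupport _ (right_ne_zero_of_mul a2)⟩
  refine ⟨⟨Ap.smooth_cx ?_, hK.of_isClosed_subset (isClosed_tsupport _) hs⟩, fun u hu e => ?_⟩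
  · exact ((h1.1.comp contDiff_fst.fst).mul (((hk.1.fderiv_right (m := ∞) le_rfl).comp
      contDiff_fst.snd).clm_apply (by fun_prop))).mul
      ((hθ.1.comp contDiff_snd.fst).mul (hθ.1.comp contDiff_snd.snd))
  · refine notMem_tsupport_iff_eventuallyEq.2 ?_ (e ▸ (hs hu).1.2)
    exact (h _ (hs hu).1.1).eventually_nhds.mono fun x hx => by
      rw [EventuallyEq.fderiv_eq hx]
      simp

theorem dx_k3 {k : ℝ → ℝ} {k' : R2 → ℝ} (h : Tst k) (h' : Tst k') (y : P3) (w : R2) :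
    dx (k3 k k') y w = k y.1 * fderiv ℝ k' y.2 w := by
  have h1 := (h.1.differentiable (by simp) y.1).hasFDerivAt.comp y hasFDerivAt_fst
  have h2 := (h'.1.differentiable (by simp) y.2).hasFDerivAt.comp y hasFDerivAt_snd
  refine (congrArg (· ((0, w) : P3)) (h1.mul h2).fderiv).trans ?_
  simp

end IXH

open IXH in
theorem ix_row {D : Type*} [NormedAddCommGroup D] [InnerProductSpace ℂ D] (c : Ctx D) [Fact c.tp] :
    T3 c → FAR c → IX c := by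
  intro t hf
  obtain ⟨n, h⟩ := pn t hf
  refine ⟨n + 1, fun ρ1 κ k θ ρ k' h1 hκ hk hθ hρ hk' hm h2 hs η hη => ?_⟩
  have hG := cl_G0 h1 hθ hk' h2
  have hM : Mom (n + 2) k := ⟨hk, fun j hj => hm j (by omega)⟩
  obtain ⟨C, hC, h3⟩ := (ev_three h hG hM hκ hρ hs 0).add (ev_three h hG hM hκ hρ hs 1)
  have a1 : ∀ᶠ ε in 𝓝[>] (0 : ℝ), C * ε ≤ η := by
    have : Tendsto (fun ε : ℝ => C * ε) (𝓝 0) (𝓝 0) :=
      Continuous.tendsto' (by fun_prop) _ _ (mul_zero C)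
    exact (this.eventually_le_const hη).filter_mono nhdsWithin_le_nhds
  filter_upwards [a1, Ioc_mem_nhdsGT (zero_lt_one' ℝ)] with ε a2 hε δ hδ
  filter_upwards [h3 ε hε δ hδ, eventually_gt_atTop (0 : ℝ)] with L a3 hL
  have d : ∀ i, Dc (Fi (G0 ρ1 θ k') k κ ρ ε δ L i) := fun i =>
    Api4.dc_mul_left (Ap.smooth_cx (by fun_prop)) (Far.dc_tri (dc_Ps2 hG.1 hk hε)
      (Far.dc_pr (Ap.tst_kL hκ.1 hL) (Ap.tst_dlt hρ hδ.1.ne')))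
  rw [← Far.t0_add, ← Api4.sch_add (d 0) (d 1)] at a3
  refine le_trans (le_of_eq ?_) (a3.trans a2)
  congr 3
  funext z
  simp only [Fi, Ps2, IXH.Ps, ten, cx, BL_apply, pl_1, pl_2, pr, IXH.G0, Ph0, d2, dx_k3 hk hk', dil,
    div_eq_inv_mul, Pi.sub_apply]
  push_cast
  ring

end

end Vale.Agent.P352X
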