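import Vale.Agent.P352X.R.GFF.A
import Vale.Agent.P352X.Spec
import Vale.Agent.P352.Bdl.B1

/-!
# P352X, row GFF (helper64)
-/

set_option linter.all false

open MeasureTheory Filter Topology Set
open scoped SchwartzMap ComplexConjugate ContDiff Real
open Complex (I exp)

namespace Vale.Agent.P352X

open Vale.Agent.P352.GF Vale.Agent.P352.BW Vale.Agent.P352.H246
open Vale.Agent.P352.H496 Vale.Agent.P352.H755 Vale.Agent.P352.H15 Ap

noncomputable section

namespace Gf

theorem swap {h ψ : Fn} {S : Set V} (hS : MeasurableSet S) (hh : Integrable h)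
    (hψ : IntegrableOn ψ S) :
    ∫ p in S, ft h p * ψ p = ∫ z, h z * ∫ p in S, exp (I * mdot p z) * ψ p := by
  rw [← integral_indicator hS, funext fun p => indicator_mul_right S (ft h) ψ (i := p),
    ft_swap hh ((integrable_indicator_iff hS).2 hψ)]
  congr 2 with z
  rw [ft, ← integral_indicator hS, funext fun p => indicator_mul_right S _ ψ (i := p)]
  simp only [md_comm z, mul_comm (exp _)]

/-- the two point function at spacelike points -/
theorem two {φ : Fn} (hφ : In {z | mu z < 0} φ) :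
    ∫ p in Fc, ft φ p = ∫ z, φ z * (2 * π / ((mu z : ℂ) / 2) ^ 2) := by
  let e : ℕ → ℝ := fun n => 1 / ((n : ℝ) + 1)
  have e0 (n) : 0 < e n := Nat.one_div_pos_of_nat
  have e1 : Tendsto (fun n => (e n : ℂ)) atTop (𝓝 0) :=
    (Complex.continuous_ofReal.tendsto' 0 0 rfl).comp tendsto_one_div_add_atTop_nhds_zero_nat
  have im (t : ℝ) (n) : 0 < (t + e n * I : ℂ).im := by simpa using e0 n
  have im0 (n) : 0 < (e n * I : ℂ).im := by simpa using e0 n
  let w : ℕ → V → ℂ := fun n z =>
    2 * π / ((al z + e n * I) * (be z + e n * I) - d2 (tx z) (tx z) / 2) ^ 2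
  have key (n) : ∫ p in Fc, ft φ p * Ex (e n * I) (e n * I) 0 p = ∫ z, φ z * w n z := by
    rw [swap meas_Fc (test_int hφ.1) (int_Ex (im0 n) (im0 n) 0)]
    congr 2 with z
    congr 1
    simp only [w, ← lap (im _ n) (im _ n)]
    congr 1 with p
    simp only [Ex, ← Complex.exp_add, mdot_null, d2_comm (tx z), d2, Pi.zero_apply]
    congr 1
    push_cast
    ring
  have l1 : Tendsto (fun n => ∫ p in Fc, ft φ p * Ex (e n * I) (e n * I) 0 p) atTop
      (𝓝 (∫ p in Fc, ft φ p)) := by
    refine tendsto_integral_of_dominated_convergence _ (fun n => ((cont_ft hφ.1).mul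
      (by unfold Ex; fun_prop)).aestronglyMeasurable) (int_ft hφ.1).norm.integrableOn
      (fun n => (ae_restrict_mem meas_Fc).mono fun p hp => ?_) (ae_of_all _ fun p => ?_)
    · have h1 := ((mem_Fc p).1 hp).1
      have h2 := ((mem_Fc' p).1 hp).1
      rw [norm_mul]
      refine mul_le_of_le_one_right (norm_nonneg _) ?_
      simp only [Ex, Complex.norm_exp, Real.exp_le_one_iff]
      simp
      nlinarith [e0 n]
    · have : Continuous fun t : ℂ => ft φ p * Ex (t * I) (t * I) 0 p := by unfold Ex; fun_prop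
      simpa [Ex, Function.comp_def] using (this.tendsto 0).comp e1
  obtain ⟨C, hC⟩ := hφ.2.1.isCompact.exists_bound_of_continuousOn
    (f := fun z => 2 * π / (mu z / 2) ^ 2) (ContinuousOn.div (by fun_prop) (by fun_prop)
      fun z hz => pow_ne_zero _ (div_ne_zero (ne_of_lt (hφ.2.2 hz)) two_ne_zero))
  have l2 : Tendsto (fun n => ∫ z, φ z * w n z) atTop
      (𝓝 (∫ z, φ z * (2 * π / ((mu z : ℂ) / 2) ^ 2))) := by
    refine tendsto_integral_of_dominated_convergence (fun z => ‖φ z‖ * C)
      (fun n => (test_int hφ.1).1.mul (Measurable.aestronglyMeasurable (by simp only [w]; fun_prop)))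
      ((test_int hφ.1).norm.mul_const C) (fun n => ae_of_all _ fun z => ?_) (ae_of_all _ fun z => ?_)
    all_goals by_cases hz : z ∈ tsupport φ
    · rw [norm_mul]
      refine mul_le_mul_of_nonneg_left (le_trans ?_ ((le_abs_self _).trans (hC z hz)))
        (norm_nonneg _)
      have h : mu z < 0 := hφ.2.2 hz
      simp only [w, norm_div, norm_pow]
      rw [show ‖(2 * π : ℂ)‖ = 2 * π by simp [Real.pi_pos.le], ← neg_sq (mu z / 2)]
      gcongr
      · nlinarith
      · linarith
      refine le_trans ?_ ((neg_le_abs _).trans (Complex.abs_re_le_norm _))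
      rw [mu_eq]
      simp
      nlinarith [e0 n]
    · simp [image_eq_zero_of_notMem_tsupport hz]
    · have h : (mu z : ℂ) / 2 = al z * be z - d2 (tx z) (tx z) / 2 := by
        rw [mu_eq]; push_cast; ring
      have : Continuous fun t : ℂ =>
          ((al z + t * I) * (be z + t * I) - d2 (tx z) (tx z) / 2) ^ 2 := by fun_prop
      have h2 := (this.tendsto 0).comp e1
      simp only [zero_mul, add_zero, ← h] at h2
      exact (tendsto_const_nhds.div h2 (pow_ne_zero _ (div_ne_zero
        (Complex.ofReal_ne_zero.2 (ne_of_lt (hφ.2.2 hz))) two_ne_zero))).const_mul _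
    · simp [image_eq_zero_of_notMem_tsupport hz]
  simp only [key] at l1
  exact tendsto_nhds_unique l1 l2

theorem loc {φ : Fn} (hφ : In {z | mu z < 0} φ) : ∫ p in Fc, ft φ p = ∫ p in Fc, ft φ (-p) := by
  simp only [← ft_refl]
  rw [two hφ, two (in_mono (in_conf0 conf_neg hφ) fun z hz => by simpa using hz),
    ← integral_neg_eq_self]
  simp only [mu_neg]

variable {ψ : Fn}

theorem line (hψ : IntegrableOn ψ Fc) (a : V) {v : V} (hv : v ∈ Fc) {s t : ℝ} (hst : s < t)
    (hz : ∀ r, s < r → r < t → ∫ p in Fc, exp (I * mdot p (a + r • v)) * ψ p = 0) (r : ℝ) :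
    ∫ p in Fc, exp (I * mdot p (a + r • v)) * ψ p = 0 := by
  let E : ℂ → V → ℂ := fun z p => exp (I * (mdot p a + z * mdot p v)) * ψ p
  have e (r : ℝ) : ∫ p in Fc, exp (I * mdot p (a + r • v)) * ψ p = ∫ p in Fc, E r p := by
    simp only [E, md_add, md_smul, Complex.ofReal_add, Complex.ofReal_mul]
  have hm (z) : AEStronglyMeasurable (E z) (volume.restrict Fc) :=
    (Continuous.aestronglyMeasurable (by fun_prop)).mul hψ.1
  have hb : ∀ᵐ p ∂volume.restrict Fc, ∀ z : ℂ, 0 ≤ z.im → ‖E z p‖ ≤ ‖ψ p‖ :=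
    (ae_restrict_mem meas_Fc).mono fun p hp z hz => by
      rw [norm_mul, Complex.norm_exp]
      refine mul_le_of_le_one_left (norm_nonneg _) (Real.exp_le_one_iff.2 ?_)
      simpa using mul_nonneg hz (md_pos hp hv).le
  rw [e]
  exact P352.halfplane_unique (fun z => ∫ p in Fc, E z p)
    (fun z₀ _ => continuousWithinAt_of_dominated (bound := fun p => ‖ψ p‖) (.of_forall hm)
      (eventually_mem_nhdsWithin.mono fun z k => hb.mono fun p hp => hp z k) hψ.norm
      (.of_forall fun s => Continuous.continuousWithinAt (by simp only [E]; fun_prop)))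
    (fun z₀ k => (P352.differentiableAt_integral (isOpen_lt continuous_const Complex.continuous_im)
      (fun z _ => hm z) (.of_forall fun s => Differentiable.differentiableOn
        (by simp only [E]; fun_prop)) (hb.mono fun p hp z k => hp z (le_of_lt k)) hψ.norm
          k).differentiableWithinAt)
    ⟨_, fun z k => norm_integral_le_of_norm_le hψ.norm (hb.mono fun p hp => hp z k)⟩
    s t hst (fun r h1 h2 => (e r).symm.trans (hz r h1 h2)) r (by simp)

/-- the transform of a function on the cone does not vanish near a point -/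
theorem all (hψ : IntegrableOn ψ Fc)
    (h : ∀ᶠ y in 𝓝 (0 : V), ∫ p in Fc, exp (I * mdot p y) * ψ p = 0) (y : V) :
    ∫ p in Fc, exp (I * mdot p y) * ψ p = 0 := by
  have hv : (bas o 1 : V) ∈ Fc := ⟨by simp [mdot_eq, bas, o], by simp [bas]⟩
  have step {a v : V} (hv : v ∈ Fc) (h : ∀ᶠ y in 𝓝 a, ∫ p in Fc, exp (I * mdot p y) * ψ p = 0)
      (r : ℝ) : ∫ p in Fc, exp (I * mdot p (a + r • v)) * ψ p = 0 := by
    have c : Continuous fun r : ℝ => a + r • v := by fun_prop
    obtain ⟨s, t, h1, h2⟩ := mem_nhds_iff_exists_Ioo_subset.1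
      ((c.tendsto' 0 a (by simp)).eventually h)
    exact line hψ a hv (h1.1.trans h1.2) (fun r k k' => h2 ⟨k, k'⟩) r
  have c : Continuous fun t : ℝ => bas o 1 + t • y := by fun_prop
  obtain ⟨t, ht, t0⟩ := ((((c.tendsto' 0 _ (by simp)).eventually
    (isOpen_Fc.mem_nhds hv)).filter_mono nhdsWithin_le_nhds).and
      (self_mem_nhdsWithin (s := Ioi (0 : ℝ)))).exists
  have c2 : Continuous fun x : V => x + t⁻¹ • bas o 1 := by fun_prop
  have := step (a := -(t⁻¹ • bas o 1)) ht (((c2.tendsto' _ 0 (by simp)).eventually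
    h.eventually_nhds).mono fun x hx => by simpa using step hv hx (-t⁻¹)) t⁻¹
  simpa [smul_add, smul_smul, inv_mul_cancel₀ (ne_of_gt t0)] using this

theorem temp_evp (q : MvPolynomial Ix ℂ) : (evp q).HasTemperateGrowth := by
  induction q using MvPolynomial.induction_on with
  | C a => exact (funext fun p => by simp [evp] : (fun _ => a) = evp (.C a)) ▸ .const a
  | add p q hp hq => exact (funext fun x => by simp [evp] : evp p + evp q = evp (p + q)) ▸ hp.add hq
  | mul_X p n hp =>
    exact (funext fun x => by simp [evp] : (evp p * fun x => (x n : ℂ)) = evp (p * .X n)) ▸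
      hp.mul (temp_cx (temp_apply n))

theorem evp_zero {q : MvPolynomial Ix ℂ} {U : Set V} (hU : IsOpen U) {x : V} (hx : x ∈ U)
    (h : ∀ p ∈ U, evp q p = 0) : q = 0 := by
  obtain ⟨r, r0, hr⟩ := Metric.isOpen_iff.1 hU x hx
  refine MvPolynomial.funext_set (fun i => Complex.ofReal '' Metric.ball (x i) r) (fun i => ?_)
    fun z hz => ?_
  · rw [Real.ball_eq_Ioo]
    exact (Ioo_infinite (by linarith)).image Complex.ofReal_injective.injOn
  · choose p h1 h2 using fun i => hz i (mem_univ i)
    rw [map_zero, ← h p (hr ((dist_pi_lt_iff r0).2 h1)), evp, funext h2]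

theorem sep (q : MvPolynomial Ix ℂ) {O O' : Set V} (hO : IsOpen O) (hn : O.Nonempty)
    (hO' : IsOpen O') (hn' : O'.Nonempty)
    (h : ∀ f g, In O f → In O' g → ∫ p in Fc, evp q p * ft f p * ft g (-p) = 0) : q = 0 := by
  obtain ⟨x, hx⟩ := hn
  obtain ⟨x', hx'⟩ := hn'
  obtain ⟨ρ, a1, a2, -, a3⟩ := ex_rho (volume : Measure V) (hO.mem_nhds hx)
  obtain ⟨ρ', b1, b2, -, b3⟩ := ex_rho (volume : Measure V) (hO'.mem_nhds hx')
  have f1 := in_cx a1 (subset_refl _)
  have g1 := in_cx b1 b2
  set f : Fn := fun z => (ρ z : ℂ)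
  set g : Fn := fun z => (ρ' z : ℂ)
  have one {ρ : V → ℝ} (h : ∫ z, ρ z = 1) : ft (fun z => (ρ z : ℂ)) 0 ≠ 0 := by
    rw [show ft (fun z => (ρ z : ℂ)) 0 = ∫ z, (ρ z : ℂ) from FT.gft_at_zero (B := FT.d4.B) _,
      integral_complex_ofReal, h]
    simp
  have s : IsTest fun p => evp q p * ft f p * ft g (-p) :=
    sw_mul (sw_temp (sw_mul (temp_evp q) (test_ft f1.1))) (test_neg (test_ft g1.1))
  obtain ⟨δ, δ0, hδ⟩ := a1.2.isCompact.exists_thickening_subset_open hO a2
  have z1 := all (test_int s).integrableOn (mem_of_superset (Metric.ball_mem_nhds (0 : V) δ0)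
    fun y hy => by
    show _ = (0 : ℂ)
    rw [← h (fun z => f (z + -y)) g (in_mono (in_tr (-y) f1) fun z hz => hδ
      (Metric.mem_thickening_iff.2 ⟨_, hz, by simpa using hy⟩)) g1]
    simp only [ft_tsl, md_neg, Complex.ofReal_neg, mul_neg, neg_neg]
    congr 1 with p
    ring)
  have z2 := ft_eq_zero meas_Fc ((test_memLp s 2).restrict Fc) fun k hk => by
    simp only [← ft_bar', ← ft_refl (bar k)]
    rw [swap meas_Fc (test_int (test_neg (test_bar hk.1))) (test_int s).integrableOn]
    simp only [z1, mul_zero, integral_zero]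
  have z3 := Measure.eqOn_open_of_ae_eq z2 isOpen_Fc (sw_cont s).continuousOn continuousOn_const
  have c1 := cont_ft f1.1
  have c2 := (cont_ft g1.1).comp continuous_neg
  have hv : (bas o 1 : V) ∈ Fc := ⟨by simp [mdot_eq, bas, o], by simp [bas]⟩
  have c : Tendsto (fun t : ℝ => t • (bas o 1 : V)) (𝓝[>] 0) (𝓝 0) :=
    ((by fun_prop : Continuous fun t : ℝ => t • (bas o 1 : V)).tendsto' 0 0
      (by simp)).mono_left nhdsWithin_le_nhds
  obtain ⟨t, t1, t2, t3⟩ := ((c.eventually (c1.continuousAt.eventually_ne (one a3))).and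
    ((c.eventually (c2.continuousAt.eventually_ne (by simpa using one b3))).and
      self_mem_nhdsWithin)).exists
  exact evp_zero (isOpen_Fc.inter ((isOpen_ne_fun c1 continuous_zero).inter
    (isOpen_ne_fun c2 continuous_zero))) ⟨(Fc_smul t3).2 hv, t1, t2⟩ fun p hp =>
      (mul_eq_zero.1 ((mul_eq_zero.1 (z3 hp.1)).resolve_right hp.2.2)).resolve_right hp.2.1

end Gf

theorem gff_row : GFF := ⟨fun _ => Gf.loc, fun q _ _ => Gf.sep q⟩

end

end Vale.Agent.P352X
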