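import Vale.Agent.P352X.R.TWO
import Vale.Agent.P352X.R.POLY.Alg
import Vale.Agent.P352X.R.POLY.Cov
import Vale.Agent.P352X.R.POLY.Ex2
import Vale.Agent.P352X.R.POLY.Par
import Vale.Agent.P352X.R.POLY.Pol

/-!
# P352X, row POLY: overlaps of the stress tensor with covariant multiplets (helper21)
-/

set_option linter.all false

open MeasureTheory Measure Set Filter Topology
open scoped SchwartzMap ComplexConjugate NNReal ENNReal

namespace Vale.Agent.P352X

open Vale.Agent.P352.GF Vale.Agent.P352.BW Vale.Agent.P352.H496 Vale.Agent.P352.H755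
open UniformSpace (Completion)
open Two

noncomputable section

variable {D : Type*} [NormedAddCommGroup D] [InnerProductSpace ℂ D] {c : Ctx D}

namespace Poly

/-- the dual basis -/
def eb {k : ℕ} (μ : Fin k → Ix) (j : Fin k) : V := bas (μ j) (eta (μ j))

lemma eta_sq (m : Ix) : eta m * eta m = 1 := by fin_cases m <;> simp [eta, o]

lemma sum_eb {k : ℕ} (μ : Fin k → Ix) (v : (Fin k → Ix) → Completion D) :
    ∑ J, (sy (eb μ) J : ℂ) • v J = v μ := by
  rw [Finset.sum_eq_single μ (fun J _ hJ => ?_) (by simp)]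
  · simp [sy, eb, bas, eta_sq]
  · obtain ⟨i, hi⟩ := Function.ne_iff.1 hJ
    rw [sy, Finset.prod_eq_zero (Finset.mem_univ i) (by simp [eb, bas, hi])]
    simp

lemma cfs_eb {k : ℕ} (μ : Fin k → Ix) (A : Fin k → Fin 4) (p : V) :
    cfs (eb μ) A p = cm μ A p := congrArg _ (Finset.prod_congr rfl fun j _ => by
  simp [cf, eb, mdot, bas, eta_sq, ← mul_assoc])

lemma lt_ae (J : Fin 2 → Ix) : ∀ᵐ p ∂c.nu (LT c J gS), p ∈ Fc := by
  obtain ⟨C, -, h⟩ := two_thm c
  have := h (eb J 0) (eb J 1) _ ⟨gS, rfl⟩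
  rw [Tv_hk, show ![eb J 0, eb J 1] = eb J from funext fun j => by fin_cases j <;> rfl,
    sum_eb J fun J => LT c J gS] at this
  exact (this.absolutelyContinuous.trans (withDensity_absolutelyContinuous _ _)).ae_le (ae_fc _)

/-- existence of the densities -/
theorem dex {l : ℕ} {d : ℝ} {Λ : (Fin l → Ix) → Sch →L[ℂ] Completion D} (h : Mu c d Λ) :
    ∃ κ, Sel d κ ∧ ∀ J μ, Den c (LT c J gS) (Λ μ gS) (FF (d / 2) κ J μ) := by
  obtain ⟨K1, h1⟩ := ex_ad 2
  obtain ⟨K2, h2⟩ := ex_ad l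
  have hK := h1.mul h2.wt
  have hK' := h2.mul h1.wt
  simp only [mul_comm (K1 _)] at hK'
  generalize (fun p => K2 p * K1 p) = K at hK hK'
  have : ∀ (A : Fin 2 → Fin 4) (C : Fin l → Fin 4), ∃ κ : ℂ, (κ ≠ 0 → A 0 ≠ 3 ∧ A 1 ≠ 3 ∧
      Even (nU A + nU C) ∧ 1 / 2 < d / 2 + ∑ j, yw (C j)) ∧ ∃ F : V → ℝ, (∀ p, F p =
        dn (fun p => K p * ft g0 p) (∑ j, (xw (A j) - yw (A j)) + ∑ j, (xw (C j) - yw (C j)))
        (d / 2 + ∑ j, yw (A j) + ∑ j, yw (C j)) p) ∧ IntegrableOn (fun p => κ * F p) Fc ∧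
      ∀ G, SN.Bd G → inner ℂ (Zf c (LT c) K A) (c.bt.Phi G (Zf c Λ K C)) =
        ∫ p in Fc, G p * (κ * F p) := fun A C => by
    by_cases hA : A 0 = 3 ∨ A 1 = 3
    · exact ⟨0, fun h => absurd rfl h, _, fun _ => rfl, by simp, fun G _ => by simp [zf_zero hK hA]⟩
    · obtain ⟨κ, a1, a2, a3⟩ := overlap ((mu_T c).vc hK A) (h.vc hK' C) hK.wt1 (zf_ae hK A)
      refine ⟨κ, fun h0 => ⟨(not_or.1 hA).1, (not_or.1 hA).2,
        par c _ _ _ _ _ _ K A C κ _ _ (mu_T c) h hK hK' a2 a3 h0, (a1 h0).2⟩, _, fun p => ?_, a2, a3⟩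
      congr 1
      · simp only [Finset.sum_sub_distrib]
        ring
      · ring
  choose κ a1 F a2 a3 a4 using this
  refine ⟨κ, a1, fun J μ G hG => ?_⟩
  have hS : Fc ⊆ {p | 0 < be p} := fun p hp => ((mem_Fc p).1 hp).1
  have m := minv hK.wt.bd.1
  have ci := (hK.wt.cont.mono (subset_univ Fc)).inv₀ fun p _ => hK.wt.ne p
  obtain ⟨-, B, b1, b2, b3⟩ := id hG
  have g1 := (cp_ind b1 b2 (.const 1)).mul m ci
  have g2 := hG.mul m ci
  have e1 := expand (c := c) (Λ := LT c) hK g1 hS (eb J)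
  have e2 := expand (c := c) (Λ := Λ) hK' g2 hS (eb μ)
  have bb := fun A C => (g1.cfs hS (eb J) A).1.cj.mul (g2.cfs hS (eb μ) C).1
  have hB : ∀ p, conj (B.indicator (fun _ => (1 : ℂ)) p) * G p = G p := fun p => by
    by_cases hp : p ∈ B <;> simp [hp, b3 p]
  simp only [inv_mul_cancel_right₀ (hK.wt.ne _), sum_eb J fun J => LT c J gS,
    sum_eb μ fun J => Λ J gS] at e1 e2
  have e := congrArg₂ (inner ℂ) e1 e2
  rw [c.bt.adj (.ind b1.measurableSet), ← c.bt.mul_apply (SN.Bd.ind b1.measurableSet).cj hG.1,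
    sum_inner] at e
  simp only [hB, _root_.map_sum, inner_sum, c.bt.adj (g1.cfs hS _ _).1,
    ← c.bt.mul_apply (g1.cfs hS _ _).1.cj (g2.cfs hS _ _).1, a4 _ _ _ (bb _ _)] at e
  have ii := fun A C => (a3 A C).bdd_mul (bb A C).1.aestronglyMeasurable
    (.of_forall (bb A C).2.choose_spec)
  rw [e, Finset.sum_congr rfl fun A _ => (integral_finsetSum _ fun C _ => ii A C).symm,
    ← integral_finsetSum _ fun A _ => integrable_finsetSum _ fun C _ => ii A C]
  refine integral_congr_ae (.of_forall fun p => ?_)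
  simp only [FF, Finset.mul_sum]
  refine Finset.sum_congr rfl fun A _ => Finset.sum_congr rfl fun C _ => ?_
  have k0 := hK.wt.ne p
  have k1 : conj (K p) ≠ 0 := by simpa using k0
  rw [a2, dn, Complex.ofReal_mul, ← SN.conj_mul_self, cfs_eb, cfs_eb]
  conv_rhs => rw [← hB p]
  simp only [map_mul, map_inv₀, Complex.conj_ofReal, Complex.ofReal_mul]
  field_simp

end Poly

open Poly in
/-- row POLY, without hypotheses -/
theorem poly_thm (c : Ctx D) : POLY c := fun N d O hO he => by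
  obtain ⟨hM, hp⟩ := red c N d O hO
  obtain ⟨κ, hS, hD⟩ := dex hM
  have hc := pol.1 2 N (d / 2) κ
  obtain ⟨π, e, h⟩ := alg N d (fun r s => FF (d / 2) κ ![r, s]) ⟨fun r s μ t L p ht hL hp => by
      rw [cov c 2 N 4 d _ _ _ (mu_T c) hM hD hc _ μ t L p ht hL hp, add_sub_cancel_left,
        Real.rpow_intCast, sum2]
      simp only [Fin.prod_univ_two, Matrix.cons_val_zero, Matrix.cons_val_one],
    fun r s μ => uni c _ _ _ _ (hD _ μ) (LT_sym (c := c) r s ▸ hD ![s, r] μ) (hc _ μ) (hc _ μ),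
    fun s μ => con c _ _ _ (fun G hG => LT_con s (fun m => (hG.mul (by fun_prop)
      (by fun_prop)).1) hG.1) (fun r => hD ![r, s] μ) fun r => hc _ μ, pol.2 N d κ he hS⟩
  refine ⟨π, fun r s μ f' f => (hp μ f _ (LT_perp ![r, s] f')).symm.trans
    (ext c 2 N 4 d _ _ ![r, s] μ _ (mu_T c) hM (lt_ae _) (fun G hG => (hD _ μ G hG).trans
      (integral_congr_ae ((ae_fc _).mono fun p hp => by simp only [e r s μ p hp]))) f' f), h⟩

theorem poly_row (c : Ctx D) : T2 c → POLY c := fun _ => poly_thm c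

end

end Vale.Agent.P352X
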