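import Vale.Agent.P352X.Main0
import Vale.Agent.P352X.ST.Ker

/-!
# P352X: row KER
-/

set_option linter.all false

open scoped SchwartzMap

namespace Vale.Agent.P352X

theorem ker_row : KER := by
  intro E F _ _ _ _ _ _ Λ O O' hO hO' h0 G _ hG
  refine ST.ker2 Λ (hO.prod hO') (fun f g hf hg hs => ?_) G hG
  by_cases nf : (tsupport f).Nonempty
  · by_cases ng : (tsupport g).Nonempty
    · rw [Set.prod_subset_prod_iff' (nf.prod ng)] at hs
      exact h0 f g _ hf hs.1 hg hs.2 fun _ _ => rfl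
    · have : g = 0 := by
        ext z
        by_contra hz
        exact ng ⟨z, subset_tsupport _ hz⟩
      rw [this, ← ST.tensR_apply, map_zero, map_zero]
  · have : f = 0 := by
      ext z
      by_contra hz
      exact nf ⟨z, subset_tsupport _ hz⟩
    rw [this, ← ST.tensL_apply, map_zero, map_zero]

/-- the two versions of the Schwartz norms agree -/
lemma sn_eq {E : Type*} [NormedAddCommGroup E] [NormedSpace ℝ E] (m : ℕ) (f : 𝓢(E, ℂ)) :
    sn m f = ST.sn E ℂ m f := by
  refine le_antisymm ?_ ?_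
  · refine Seminorm.finset_sup_apply_le (apply_nonneg _ _) fun k hk => ?_
    rw [ST.seminorm_eq]
    exact ST.seminorm_le_sn (Finset.mem_Iic.1 hk).1 (Finset.mem_Iic.1 hk).2 f
  · refine ST.sn_le (apply_nonneg _ _) fun k hk n hn => ?_
    rw [← ST.seminorm_eq (𝕜 := ℂ)]
    exact Seminorm.le_def.1 (Finset.le_sup (f := fun k : ℕ × ℕ => SchwartzMap.seminorm ℂ k.1 k.2)
      (Finset.mem_Iic.2 (⟨hk, hn⟩ : (k, n) ≤ (m, m)))) f

end Vale.Agent.P352X
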