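import Vale.Agent.P352X.R.KD.D
import Vale.Agent.P352X.R.KER

/-!
# P352X, row KD: the domain of `K`
-/

set_option linter.all false

noncomputable section

open Filter Topology Metric
open Complex (I norm_I)
open scoped SchwartzMap
open UniformSpace (Completion)

namespace Vale.Agent.P352X

open Vale.Agent.P352 Vale.Agent.P352.GF Vale.Agent.P352.BW Vale.Agent.P352.H496

variable {D : Type*} [NormedAddCommGroup D] [InnerProductSpace ℂ D] {c : Ctx D}

namespace KDa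

lemma ut_tau (g : GRP c) (a h k : V) (f : Sch) :
    Ut c.Q a (tau c h k f) = tau c h k (ST.tsl a f) := by
  have h1 := g.ten 1 GF.one a h k (ev (ST.tsl a f)) c.Q.vac one_pos H496.isLor_one ⟨_, rfl⟩
  have e : (fun x => ev (ST.tsl a f) (sim 1 GF.one a x)) = ev f := by
    funext x
    simp [ev, HM.sim_tr]
  rw [e, c.Q.U_vac 1 _ a one_pos H496.isLor_one, HM.sim_tr, HM.sim_tr, add_zero, add_zero] at h1
  rw [tau_apply, tau_apply, Ctx.Tv, Ctx.Tv, Ut, g.coe _ _ _ _ one_pos H496.isLor_one, h1]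

lemma tsupport_tsl (a : V) (f : Sch) : tsupport (ST.tsl a f) ⊆ {z | z - a ∈ tsupport f} :=
  closure_minimal (fun _ hz => subset_tsupport _ hz)
    ((isClosed_tsupport f).preimage (continuous_id.sub continuous_const))

lemma norm_va : ‖va‖ ≤ 1 := (pi_norm_le_iff_of_nonneg zero_le_one).2 fun i => by
  fin_cases i <;> simp [va]

/-- bounded parts of a slab are moved into a cut cone by translations along `a` -/
lemma shift_mem {b1 b2 R : ℝ} (hb : b2 < 0) (hR : 1 ≤ R) {z : V} (h1 : b1 ≤ be z) (h2 : be z ≤ b2)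
    (h3 : ‖z‖ ≤ R) : z + (3 * R ^ 2) • va ∈ Rc (1 / (2 * (|b1| + 1))) 0 := by
  set δ := 1 / (|b1| + 1) with hδ
  have h0 : 0 < δ := by positivity
  have h4 : δ * |b1| = 1 - δ := by
    rw [hδ]
    field_simp
    ring
  have h5 : 1 / (2 * (|b1| + 1)) = δ / 2 := by
    rw [hδ]
    field_simp
  have h6 : δ ≤ 1 + δ * be z := by nlinarith [neg_abs_le b1]
  have h7 := abs_le.1 ((abs_al_le z).trans h3)
  have h8 : d2 (tx z) (tx z) ≤ 2 * R ^ 2 := (d2_le_norm _).trans (by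
    have := (norm_tx_le z).trans h3
    gcongr)
  rw [h5, Rc, Set.mem_setOf_eq, sub_zero]
  refine ⟨?_, ?_, ?_⟩
  · simp only [md_va, be_add, be_smul, be_va]
    linarith
  · simp only [md_va, be_add, be_smul, be_va]
    linarith
  · have := mu_eq (z + (3 * R ^ 2) • va)
    rw [mu] at this
    rw [this]
    simp only [md_vb, be_add, be_smul, be_va, al_add, al_smul, al_va, tx_add, tx_smul, tx_va,
      smul_zero, add_zero, mul_zero, mul_one]
    have h9 : 2 * R ^ 2 ≤ al z + 3 * R ^ 2 := by nlinarith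
    have h10 := mul_le_mul h9 h6 h0.le (by nlinarith)
    have h11 := mul_le_mul_of_nonneg_left h8 h0.le
    have h12 : 0 < δ * R ^ 2 := by positivity
    nlinarith

/-- slabs below the plane -/
theorem two_neg (g : GRP c) (G : GEN c) (b1 : ℝ) {b2 : ℝ} (hb : b2 < 0) : ∃ (m : ℕ) (C : ℝ),
    0 ≤ C ∧ ∀ h k (f : Sch), tsupport f ⊆ {z | b1 ≤ be z ∧ be z ≤ b2} →
      ∃ y, (tau c h k f, y) ∈ gr2 c ∧ ‖y‖ ≤ C * ‖h‖ * ‖k‖ * ST.sn V ℂ m f := by
  obtain ⟨m, C, hC, h1⟩ := two_loc g G (show 0 < 1 / (2 * (|b1| + 1)) by positivity)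
  obtain ⟨C0, hC0, h2⟩ := ext_rel V m (2 * m)
  refine ⟨m + (2 * m + 2), C0 * (C * 8 ^ m), by positivity, fun h k f hf => ?_⟩
  refine (h2 (gr2 c) (tau c h k) _ (C * 8 ^ m * ‖h‖ * ‖k‖) (gr2_closed g)
    (by positivity) (fun R u hR hu => ?_) f hf).imp fun y hy => ⟨hy.1, hy.2.trans_eq (by ring)⟩
  set a := (3 * R ^ 2) • va with ha
  have hs : tsupport (ST.tsl a u) ⊆ (fun z => z + a) '' tsupport u := fun z hz =>
    ⟨z - a, tsupport_tsl a u hz, sub_add_cancel z a⟩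
  have hc : IsCompact (tsupport u) :=
    (isCompact_closedBall 0 R).of_isClosed_subset (isClosed_tsupport _) fun z hz => (hu hz).2
  obtain ⟨y, hy, hb2⟩ := h1 h k (ST.tsl a u)
    ((hc.image (continuous_id.add continuous_const)).of_isClosed_subset (isClosed_tsupport _) hs)
    (hs.trans (by
      rintro _ ⟨z, hz, rfl⟩
      exact shift_mem hb hR (hu hz).1.1 (hu hz).1.2 (mem_closedBall_zero_iff.1 (hu hz).2)))
  have e : Pa c.Q (-(3 * R ^ 2)) (tau c h k (ST.tsl a u)) = tau c h k u := by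
    rw [Pa, ut_tau g, neg_smul, ← ha]
    congr 1
    ext z
    simp
  have hn : ∀ z, ‖Pa c.Q (-(3 * R ^ 2)) z‖ = ‖z‖ := norm_uni (g.uni _ _ _)
  refine ⟨(Pa c.Q (-(3 * R ^ 2)) y.1, Pa c.Q (-(3 * R ^ 2)) y.2),
    ⟨e ▸ gn_comm _ (g.pa_S _) hy.1, gn_comm _ (g.pa_S _) hy.2⟩, ?_⟩
  rw [Prod.norm_def, hn, hn]
  refine hb2.trans ((mul_le_mul_of_nonneg_left (ST.sn_tsl u a m) (by positivity)).trans ?_)
  have h3 : 1 + ‖a‖ ≤ 4 * R ^ 2 := by
    rw [ha, norm_smul, Real.norm_of_nonneg (by positivity)]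
    nlinarith [norm_va, mul_le_mul_of_nonneg_left norm_va (show 0 ≤ 3 * R ^ 2 by positivity)]
  calc _ ≤ C * ‖h‖ * ‖k‖ * (2 ^ m * (4 * R ^ 2) ^ m * ST.sn V ℂ m u) := by gcongr
    _ = _ := by
      rw [mul_pow, pow_mul, show (8 : ℝ) = 2 * 4 by norm_num, mul_pow]
      ring

/-- the reflection -/
def jrE : V ≃L[ℝ] V := ContinuousLinearEquiv.equivOfInverse jrL jrL jr_jr jr_jr

/-- the mirror image of a test function -/
def mir : Sch →L[ℝ] Sch :=
  barL ∘L (SchwartzMap.compCLMOfContinuousLinearEquiv ℂ jrE).restrictScalars ℝ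

lemma mir_apply (f : Sch) (z : V) : mir f z = star (f (jr z)) := rfl

lemma J_tau (j : JC c) (h k : V) (f : Sch) :
    c.J (tau c (jr h) (jr k) (mir f)) = tau c h k f := by
  simp only [tau, ContinuousLinearMap.sum_apply, ContinuousLinearMap.smul_apply, map_sum,
    map_smulₛₗ, Complex.conj_ofReal]
  refine Finset.sum_congr rfl fun m _ => Finset.sum_congr rfl fun n _ => ?_
  have h1 := j.one m n (ev (mir f)) ⟨_, rfl⟩
  have e : (bar fun z => ev (mir f) (jr z)) = ev f := by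
    funext z
    simp [bar, ev, mir_apply]
  rw [e] at h1
  show _ • c.J (c.T m n (ev (mir f)) c.Q.vac : D) = _ • ((c.T m n (ev f) c.Q.vac : D) : Completion D)
  rw [h1, smul_smul, ← Complex.ofReal_mul, jr_apply, jr_apply]
  congr 2
  linear_combination (eta m * h m * (eta n * k n) * sj n * sj n) * sj_sq m +
    (eta m * h m * (eta n * k n)) * sj_sq n

/-- slabs above the plane -/
theorem two_pos (g : GRP c) (G : GEN c) (j : JC c) {b1 : ℝ} (b2 : ℝ) (hb : 0 < b1) :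
    ∃ (m : ℕ) (C : ℝ), 0 ≤ C ∧ ∀ h k (f : Sch), tsupport f ⊆ {z | b1 ≤ be z ∧ be z ≤ b2} →
      ∃ y, (tau c h k f, y) ∈ gr2 c ∧ ‖y‖ ≤ C * ‖h‖ * ‖k‖ * ST.sn V ℂ m f := by
  obtain ⟨m, C, hC, h1⟩ := two_neg g G (-b2) (neg_neg_of_pos hb)
  have a0 : Adm fun (h k : V) (f : Sch) => C * ‖h‖ * ‖k‖ * ST.sn V ℂ m f :=
    ⟨m, C, hC, fun h k f => (Real.norm_of_nonneg (by positivity)).le⟩
  obtain ⟨m', C', hC', h2⟩ := a0.comp jrL jrL mir
  refine ⟨m', C', hC', fun h k f hf => ?_⟩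
  obtain ⟨y, hy, hb2⟩ := h1 (jr h) (jr k) (mir f) (closure_minimal (fun z hz => by
    have h3 := hf (subset_tsupport f (show f (jr z) ≠ 0 from fun h => hz (by
      rw [mir_apply, h, star_zero])))
    simp only [Set.mem_setOf_eq, be_jr] at h3 ⊢
    exact ⟨by linarith [h3.2], by linarith [h3.1]⟩)
    ((isClosed_le continuous_const cont_be).inter (isClosed_le cont_be continuous_const)))
  refine ⟨(c.J y.1, c.J y.2), ⟨J_tau j h k f ▸ hy.1.anti_neg c.J fun t => j.S t _,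
    hy.2.anti_neg c.J fun t => j.S t _⟩, ?_⟩
  rw [Prod.norm_def, c.J.norm_map, c.J.norm_map]
  exact hb2.trans ((le_abs_self _).trans (h2 h k f))

end KDa

open KDa in
/-- **row KD** -/
theorem kd_row (c : Ctx D) (t : T1 c) : KD c where
  a r hr := let ⟨C, _, h⟩ := kd_a t.grp hr; ⟨C, fun _ _ hp hB => h _ _ _ hp hB.gn⟩
  b _ _ _ _ hr hr' hp := kd_b t.grp hr hr' hp
  a2 r r' ψ ψ' h0 h hp hB hB' :=
    ⟨pr_genK t.grp h0 h hp (dom t.grp (h0.trans_lt h) hp hB).gn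
      (dom t.grp (h0.trans_lt h) (pr_symm hp) hB').gn,
      fun hBB => gn_B_K t.grp (h0.trans_lt h) hp hB.gn hB'.gn hBB.gn⟩
  slab b1 b2 hb := by
    obtain ⟨m, C, -, h⟩ := hb.elim (two_neg t.grp t.gen b1) (two_pos t.grp t.gen t.jc b2)
    refine ⟨m, C, fun h' k f hf => ?_⟩
    obtain ⟨y, ⟨h1, h2⟩, h3⟩ := h h' k f hf
    rw [← tau_apply, sn_eq, h1.gen_eq, h2.gen_eq]
    exact ⟨h1.dm, h2.dm, (norm_fst_le y).trans h3, (norm_snd_le y).trans h3⟩

end Vale.Agent.P352X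

end
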