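import Vale.Agent.P352X.R.Br

/-!
# P352X: row BAS
-/

noncomputable section

open MeasureTheory Filter Topology Complex Set

namespace Vale.Agent.P352X

open Vale.Agent.P352 Vale.Agent.P352.GF Vale.Agent.P352.BW
open Vale.Agent.P352.H496 Vale.Agent.P352.H755 Vale.Agent.P352.H15
open SN (BC Calc Bd IsPair URep)
open UniformSpace (Completion)
open Br

namespace Br

lemma norm_P_union {X H : Type*} [MeasurableSpace X] [NormedAddCommGroup H]
    [InnerProductSpace ℂ H] [CompleteSpace H] (C : Calc X H) {A B : Set X} (hA : MeasurableSet A)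
    (hB : MeasurableSet B) (v : H) : ‖C.P (A ∪ B) v‖ ≤ ‖C.P A v‖ + ‖C.P B v‖ := by
  refine (pow_le_pow_iff_left₀ (norm_nonneg _) (by positivity) two_ne_zero).1 ?_
  have h := measureReal_union_le (μ := C.nu v) A B
  rw [C.nu_real hA, C.nu_real hB, C.nu_real (hA.union hB)] at h
  nlinarith [mul_nonneg (norm_nonneg (C.P A v)) (norm_nonneg (C.P B v))]

lemma norm_P_of_nu {X H : Type*} [MeasurableSpace X] [NormedAddCommGroup H]
    [InnerProductSpace ℂ H] [CompleteSpace H] (C : Calc X H) {A : Set X} (hA : MeasurableSet A)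
    {v : H} {K : ℝ} (hK : 0 ≤ K) (h : C.nu v A ≤ ENNReal.ofReal (K ^ 2)) : ‖C.P A v‖ ≤ K := by
  rw [C.nu_apply hA, ENNReal.ofReal_le_ofReal_iff (by positivity)] at h
  exact (pow_le_pow_iff_left₀ (norm_nonneg _) hK two_ne_zero).1 h

variable {D : Type*} [NormedAddCommGroup D] [InnerProductSpace ℂ D] {c : Ctx D}

/-- the Lorentz part of `sc(r,s)` -/
def scL (r s : ℝ) : Ix → V := bst va vb (Real.sqrt (r / s) - 1) (Real.sqrt (s / r) - 1)

lemma scL_lor {r s : ℝ} (hr : 0 < r) (hs : 0 < s) : IsLor (scL r s) := by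
  refine isLor_bst fr.ha fr.hb fr.hab (by simpa using div_pos hr hs) ?_
  rw [add_sub_cancel, add_sub_cancel, ← Real.sqrt_mul (div_pos hr hs).le]
  rw [show r / s * (s / r) = 1 by field_simp, Real.sqrt_one]

lemma sc_pos {r s : ℝ} (hr : 0 < r) (hs : 0 < s) : 0 < Real.sqrt (r * s) :=
  Real.sqrt_pos.2 (mul_pos hr hs)

lemma scL_va (r s : ℝ) : sim 1 (scL r s) 0 va = Real.sqrt (r / s) • va := by
  rw [scL, sim_bst, fr.ha.1, md_comm vb va, fr.hab]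
  module

lemma scL_vb (r s : ℝ) : sim 1 (scL r s) 0 vb = Real.sqrt (s / r) • vb := by
  rw [scL, sim_bst, fr.hb.1, fr.hab]
  module

lemma scL_tv (r s : ℝ) (x : R2) : sim 1 (scL r s) 0 (tv x) = tv x := by
  rw [scL, sim_bst, ← tv_kin, fr.a_tv, fr.b_tv]
  module

lemma sqrt_sc {r s : ℝ} (hr : 0 < r) (hs : 0 < s) : Real.sqrt (r * s) * Real.sqrt (r / s) = r := by
  rw [← Real.sqrt_mul (mul_pos hr hs).le, show r * s * (r / s) = r * r by field_simp,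
    Real.sqrt_mul_self hr.le]

lemma sqrt_sc' {r s : ℝ} (hr : 0 < r) (hs : 0 < s) :
    Real.sqrt (r / s) / Real.sqrt (r * s) = s⁻¹ := by
  rw [← Real.sqrt_div (div_pos hr hs).le, show r / s / (r * s) = s⁻¹ * s⁻¹ by field_simp,
    Real.sqrt_mul_self (inv_pos.2 hs).le]

lemma sc_va {r s : ℝ} (hr : 0 < r) (hs : 0 < s) :
    sim (Real.sqrt (r * s)) (scL r s) 0 va = r • va := by
  rw [sim_s, scL_va, smul_smul, sqrt_sc hr hs]

lemma sc_vb {r s : ℝ} (hr : 0 < r) (hs : 0 < s) :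
    sim (Real.sqrt (r * s)) (scL r s) 0 vb = s • vb := by
  rw [sim_s, scL_vb, smul_smul, mul_comm r, sqrt_sc hs hr]

lemma sc_tv (r s : ℝ) (x : R2) :
    sim (Real.sqrt (r * s)) (scL r s) 0 (tv x) = Real.sqrt (r * s) • tv x := by
  rw [sim_s, scL_tv]

lemma Usc_apply (Q : Theory D) {r s : ℝ} (hr : 0 < r) (hs : 0 < s) (z : Completion D) :
    Usc Q r s z = Ue Q (Real.sqrt (r * s)) (scL r s) 0 z :=
  Ug_apply Q (sc_pos hr hs) (scL_lor hr hs) 0 z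

/-- the action of `sc(r,s)` on the momenta -/
def dsc (r s : ℝ) : V → V := Kin.du (Real.sqrt (r * s)) (scL r s)

lemma dsc_meas (r s : ℝ) : Measurable (dsc r s) := Kin.du_meas _ _

lemma be_dsc {r s : ℝ} (hr : 0 < r) (hs : 0 < s) (p : V) : be (dsc r s p) = r * be p := by
  rw [be, dsc, Kin.du_pair' _ (scL_lor hr hs), sc_va hr hs, md_smul_l, be]

lemma al_dsc {r s : ℝ} (hr : 0 < r) (hs : 0 < s) (p : V) : al (dsc r s p) = s * al p := by
  rw [al, dsc, Kin.du_pair' _ (scL_lor hr hs), sc_vb hr hs, md_smul_l, al]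

lemma mu_dsc {r s : ℝ} (hr : 0 < r) (hs : 0 < s) (p : V) : mu (dsc r s p) = r * s * mu p := by
  rw [mu, dsc, Kin.du_sq _ (scL_lor hr hs), Real.sq_sqrt (mul_pos hr hs).le, mu]

lemma tx_eq (p : V) (i : Fin 2) : tx p i = -GF.mdot (ex i) p := by
  rw [ex, md_tv]
  fin_cases i <;> simp [d2, e2]

lemma tx_dsc {r s : ℝ} (hr : 0 < r) (hs : 0 < s) (p : V) :
    tx (dsc r s p) = Real.sqrt (r * s) • tx p := by
  funext i
  rw [tx_eq, dsc, Kin.du_pair' _ (scL_lor hr hs), ex, sc_tv, md_smul_l, Pi.smul_apply, tx_eq, ex,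
    smul_eq_mul, mul_neg]

lemma Usc_Phi (c : Ctx D) {r s : ℝ} (hr : 0 < r) (hs : 0 < s) {f : V → ℂ} (hf : Bd f)
    (v : Completion D) :
    Usc c.Q r s (c.bt.Phi f v) = c.bt.Phi (fun p => f (dsc r s p)) (Usc c.Q r s v) := by
  rw [Usc_apply _ hr hs, Usc_apply _ hr hs]
  exact Kin.U_Phi c.bR c.ct (sc_pos hr hs) (scL_lor hr hs) 0 hf v

lemma Usc_norm (Q : Theory D) {r s : ℝ} (hr : 0 < r) (hs : 0 < s) (z : Completion D) :
    ‖Usc Q r s z‖ = ‖z‖ := by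
  rw [Usc_apply _ hr hs, Kin.Ue_norm (sc_pos hr hs) (scL_lor hr hs)]

theorem ae_be_pos (c : Ctx D) {v : Completion D} (hv : inner ℂ c.Om v = 0) :
    ∀ᵐ p ∂c.nu v, 0 < be p := Kin.ae_md_pos c.bR c.ct c.bV fr.ha hv

theorem ae_al_pos (c : Ctx D) {v : Completion D} (hv : inner ℂ c.Om v = 0) :
    ∀ᵐ p ∂c.nu v, 0 < al p := Kin.ae_md_pos c.bR c.ct c.bV fr.hb hv

theorem ae_tx_ne (c : Ctx D) (i : Fin 2) {v : Completion D} (hv : inner ℂ c.Om v = 0) :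
    ∀ᵐ p ∂c.nu v, tx p i ≠ 0 := by
  filter_upwards [Kin.ae_perp_ne c.bR c.ct c.bV fr.ha (fr.hae i) (by simp [fr.hee]) hv] with p hp
  rw [tx_eq]
  exact neg_ne_zero.2 hp

/-- weak nullity along arbitrary filters -/
theorem wn_gen (c : Ctx D) {a : V} (ha : IsNull a) {ι : Type*} {l : Filter ι} {s r : ι → ℝ}
    {L : ι → Ix → V} (hs : ∀ i, 0 < s i) (hL : ∀ i, IsLor (L i)) (y : ι → V)
    (hr : ∀ i, sim (s i) (L i) 0 a = r i • a) (h : Tendsto r l atTop ∨ Tendsto r l (𝓝 0))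
    {η : Completion D} (hη : inner ℂ c.Om η = 0) {E : ι → Completion D}
    (hE : Tendsto E l (𝓝 η)) (w : Completion D) :
    Tendsto (fun i => inner ℂ w (Ue c.Q (s i) (L i) (y i) (E i))) l (𝓝 (0 : ℂ)) := by
  rcases h with h | h
  · exact (Kin.weak_null c.bR c.ct c.bV ha (l := comap r atTop ⊓ comap E (𝓝 η)) hs hL y hr
      (Or.inl (tendsto_comap.mono_left inf_le_left)) hη (tendsto_comap.mono_left inf_le_right)
      w).mono_left (le_inf h.le_comap hE.le_comap)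
  · exact (Kin.weak_null c.bR c.ct c.bV ha (l := comap r (𝓝 0) ⊓ comap E (𝓝 η)) hs hL y hr
      (Or.inr (tendsto_comap.mono_left inf_le_left)) hη (tendsto_comap.mono_left inf_le_right)
      w).mono_left (le_inf h.le_comap hE.le_comap)

theorem bas_tail (c : Ctx D) (η w : Completion D) (Λ C0 L : ℝ) (hL : 1 ≤ L) (hC : 0 ≤ C0)
    (hη : Dm (Pa c.Q) η) (hw : ∀ s, ‖Gb c.Q s w - w‖ ≤ Λ * |s|)
    (hν : ∀ s ∈ Set.Ioc (0 : ℝ) 1, c.nu η {p | al p < s} ≤ ENNReal.ofReal (C0 ^ 2 * s)) :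
    ‖inner ℂ (Usc c.Q L 1 η) w‖ ≤
      8 * L ^ (-(1 / 16 : ℝ)) * (‖w‖ + Λ) * (C0 + ‖η‖ + ‖gen (Pa c.Q) η‖) := by
  have hL0 : 0 < L := one_pos.trans_le hL
  set y := L ^ (1 / 16 : ℝ) with hy
  have hy1 : 1 ≤ y := Real.one_le_rpow hL (by norm_num)
  have hy0 : 0 < y := one_pos.trans_le hy1
  have hyL : y ^ 16 = L := by
    rw [hy, ← Real.rpow_natCast, ← Real.rpow_mul hL0.le]
    norm_num
  rw [Real.rpow_neg hL0.le, ← hy]
  have hΛ : 0 ≤ Λ := by simpa using (norm_nonneg _).trans (hw 1)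
  have hB : MeasurableSet {p : V | be p ≤ y ^ 4 ∧ (y ^ 4)⁻¹ ≤ al p} :=
    (measurableSet_le meas_be measurable_const).inter (measurableSet_le measurable_const meas_al)
  have h1 : MeasurableSet {p : V | y ^ 4 < be p} := measurableSet_lt measurable_const meas_be
  have h2 : MeasurableSet {p : V | al p < (y ^ 4)⁻¹} := measurableSet_lt meas_al measurable_const
  obtain ⟨d1, d2⟩ := c.cgn_Pa.1 hη.gn'
  have a1 : ‖c.bt.P {p : V | y ^ 4 < be p} η‖ ≤ (y ^ 4)⁻¹ * ‖gen (Pa c.Q) η‖ := by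
    rw [← d2]
    exact Calc.norm_P_le_Psi h1 d1 (by positivity) (Eventually.of_forall fun p hp => by
      rw [norm_real]; exact (le_of_lt hp).trans (le_abs_self _))
  have a2 : ‖c.bt.P {p : V | al p < (y ^ 4)⁻¹} η‖ ≤ C0 * (y ^ 2)⁻¹ := by
    refine norm_P_of_nu _ h2 (by positivity) ((hν _ ⟨by positivity,
      inv_le_one_of_one_le₀ (one_le_pow₀ hy1)⟩).trans_eq ?_)
    congr 1
    ring
  have a3 : ‖c.bt.P {p : V | be p ≤ y ^ 4 ∧ (y ^ 4)⁻¹ ≤ al p}ᶜ η‖ ≤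
      (y ^ 4)⁻¹ * ‖gen (Pa c.Q) η‖ + C0 * (y ^ 2)⁻¹ := by
    refine le_trans (Calc.norm_P_mono hB.compl (h1.union h2) (Eventually.of_forall fun p hp => ?_))
      ((norm_P_union _ h1 h2 η).trans (add_le_add a1 a2))
    simpa only [mem_compl_iff, mem_ofPred_eq, not_and_or, not_le, mem_union] using hp
  have hN : 0 < ⌈y ^ 2⌉₊ := Nat.ceil_pos.2 (by positivity)
  have hN1 : y ^ 2 ≤ ⌈y ^ 2⌉₊ := Nat.le_ceil _
  have hN2 : (⌈y ^ 2⌉₊ : ℝ) ≤ 2 * y ^ 2 := by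
    linarith [Nat.ceil_lt_add_one (sq_nonneg y), one_le_pow₀ (n := 2) hy1]
  have a4 := Kin.pig c.bR c.ct fr.ha fr.hb fr.hab (fr.hae 0) (fr.hbe 0) (by simp [fr.hee])
    (ρ := (y ^ 12)⁻¹) (lam := (y ^ 4)⁻¹) (σ := 2 * (y ^ 4)⁻¹) (Λ := 2 * Λ) (by positivity)
    (by positivity) (by field_simp; norm_num) (w := w) (fun t ht => by
      rw [← Gb_apply]
      refine (hw _).trans_eq ?_
      rw [abs_of_nonneg (by positivity)]
      ring) hN
  have a5 : ‖w‖ / √(⌈y ^ 2⌉₊ : ℝ) ≤ ‖w‖ * y⁻¹ := by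
    rw [← div_eq_mul_inv]
    exact div_le_div_of_nonneg_left (norm_nonneg _) hy0 (Real.le_sqrt_of_sq_le hN1)
  have a6 : 2 * Λ * (⌈y ^ 2⌉₊ * (2 * (y ^ 4)⁻¹)) ≤ 8 * Λ * y⁻¹ := by
    calc 2 * Λ * (⌈y ^ 2⌉₊ * (2 * (y ^ 4)⁻¹)) ≤ 2 * Λ * (2 * y ^ 2 * (2 * (y ^ 4)⁻¹)) := by gcongr
      _ = 8 * Λ * (y ^ 2)⁻¹ := by field_simp; ring
      _ ≤ 8 * Λ * y⁻¹ := by gcongr; nlinarith
  have e : dsc L 1 ⁻¹' {p : V | be p ≤ y ^ 4 ∧ (y ^ 4)⁻¹ ≤ al p} =
      {p | GF.mdot va p ≤ (y ^ 12)⁻¹ ∧ (y ^ 4)⁻¹ ≤ GF.mdot vb p} := by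
    ext p
    simp only [mem_preimage, mem_ofPred_eq, be_dsc hL0 one_pos, al_dsc hL0 one_pos, one_mul]
    rw [← hyL, ← le_div_iff₀' (by positivity), show y ^ 4 / y ^ 16 = (y ^ 12)⁻¹ by field_simp]
    rfl
  have b1 : ‖inner ℂ (Usc c.Q L 1 (c.bt.P {p : V | be p ≤ y ^ 4 ∧ (y ^ 4)⁻¹ ≤ al p} η)) w‖ ≤
      ‖η‖ * (‖w‖ * y⁻¹ + 8 * Λ * y⁻¹) := by
    have h3 : Usc c.Q L 1 (c.bt.P {p : V | be p ≤ y ^ 4 ∧ (y ^ 4)⁻¹ ≤ al p} η) =
        c.bt.P (dsc L 1 ⁻¹' {p : V | be p ≤ y ^ 4 ∧ (y ^ 4)⁻¹ ≤ al p}) (Usc c.Q L 1 η) :=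
      Usc_Phi c hL0 one_pos (Bd.ind hB) η
    rw [h3, Calc.P_adj (dsc_meas L 1 hB), e]
    refine (norm_inner_le_norm _ _).trans ?_
    rw [Usc_norm _ hL0 one_pos]
    exact mul_le_mul_of_nonneg_left (a4.trans (add_le_add a5 a6)) (norm_nonneg _)
  have b2 : ‖inner ℂ (Usc c.Q L 1 (c.bt.P {p : V | be p ≤ y ^ 4 ∧ (y ^ 4)⁻¹ ≤ al p}ᶜ η)) w‖ ≤
      (y⁻¹ * ‖gen (Pa c.Q) η‖ + C0 * y⁻¹) * ‖w‖ := by
    refine (norm_inner_le_norm _ _).trans (mul_le_mul_of_nonneg_right ?_ (norm_nonneg _))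
    rw [Usc_norm _ hL0 one_pos]
    refine a3.trans (add_le_add ?_ ?_)
    · gcongr
      exact le_self_pow₀ hy1 (by norm_num)
    · gcongr
      exact le_self_pow₀ hy1 (by norm_num)
  rw [Calc.P_compl hB, map_sub, inner_sub_left] at b2
  have b3 := (norm_le_norm_sub_add _ _).trans (add_le_add b2 b1)
  refine b3.trans ?_
  have hi : 0 < y⁻¹ := by positivity
  have n1 := norm_nonneg w
  have n2 := norm_nonneg η
  have n3 := norm_nonneg (gen (Pa c.Q) η)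
  have : (y⁻¹ * ‖gen (Pa c.Q) η‖ + C0 * y⁻¹) * ‖w‖ + ‖η‖ * (‖w‖ * y⁻¹ + 8 * Λ * y⁻¹) =
      y⁻¹ * ((‖gen (Pa c.Q) η‖ + C0 + ‖η‖) * ‖w‖ + 8 * Λ * ‖η‖) := by ring
  rw [this, mul_comm 8 y⁻¹, mul_assoc y⁻¹, mul_assoc y⁻¹]
  refine mul_le_mul_of_nonneg_left ?_ hi.le
  nlinarith [mul_nonneg n1 n2, mul_nonneg n1 n3, mul_nonneg n1 hC, mul_nonneg hΛ n2,
    mul_nonneg hΛ n3, mul_nonneg hΛ hC]

end Br

variable {D : Type*} [NormedAddCommGroup D] [InnerProductSpace ℂ D]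

/-- row BAS, without hypotheses -/
theorem bas_thm (c : Ctx D) : BAS c where
  cone v := Kin.cone c.ct v
  ker v hv := by
    refine ⟨measure_eq_zero_iff_ae_notMem.2 ((ae_be_pos c hv).mono fun p hp => hp.ne'),
      measure_eq_zero_iff_ae_notMem.2 ((ae_al_pos c hv).mono fun p hp => hp.ne'),
      measure_eq_zero_iff_ae_notMem.2 ((ae_tx_ne c 0 hv).mono fun p hp h => hp (congrFun h 0)), ?_⟩
    rw [← c.common_a3.2.1, Measure.map_apply (by fun_prop)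
      (measurableSet_le measurable_fst measurable_const)]
    exact measure_eq_zero_iff_ae_notMem.2 ((Kin.ae_p_pos c.kc c.bR c.hS fr c.bV hv).mono
      fun q hq => not_le.2 hq)
  wn ι l r s y η η0 w hrs h hη h0 := by
    have e : ∀ i, Ut c.Q (y i) (Usc c.Q (r i) (s i) (η i)) =
        Ue c.Q (Real.sqrt (r i * s i)) (scL (r i) (s i)) (y i) (η i) := fun i => by
      rw [Ut_apply, Usc_apply _ (hrs i).1 (hrs i).2, Kin.Ue_mul c.bR one_pos
        (sc_pos (hrs i).1 (hrs i).2) H496.isLor_one (scL_lor (hrs i).1 (hrs i).2)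
        (fun x => H26.sim_one0 _), one_mul, HM.sim_tr, zero_add]
    have key : Tendsto (fun i => inner ℂ w
        (Ue c.Q (Real.sqrt (r i * s i)) (scL (r i) (s i)) (y i) (η i))) l (𝓝 (0 : ℂ)) := by
      rcases or_assoc.2 h with h | h
      · exact wn_gen c fr.ha (fun i => sc_pos (hrs i).1 (hrs i).2)
          (fun i => scL_lor (hrs i).1 (hrs i).2) y (fun i => sc_va (hrs i).1 (hrs i).2) h h0 hη w
      · exact wn_gen c fr.hb (fun i => sc_pos (hrs i).1 (hrs i).2)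
          (fun i => scL_lor (hrs i).1 (hrs i).2) y (fun i => sc_vb (hrs i).1 (hrs i).2) h h0 hη w
    have h1 := (continuous_conj.tendsto _).comp key
    rw [map_zero] at h1
    refine h1.congr fun i => ?_
    rw [Function.comp_apply, inner_conj_symm, e]
  thin u ξ hu h0 := by
    have h := (Kin.thin c.bR c.ct c.bV volume tvL (x := e2 0)
      (Or.inr ⟨va, fr.ha, fr.hae 0, by simpa [ex] using (show GF.mdot (ex 0) (ex 0) ≠ 0 by
        simp [fr.hee])⟩) hu ξ).comp tendsto_inv_nhdsGT_zero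
    rw [show inner ℂ (om c.Q) ξ = 0 from h0, zero_smul, smul_zero] at h
    simpa only [Function.comp_def, tvL_apply, Ut_apply] using h
  tail := ⟨8, 1 / 16, by norm_num, bas_tail c⟩

theorem bas_row (c : Ctx D) : T0 c → BAS c := fun _ => bas_thm c

end Vale.Agent.P352X

end
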