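import Vale.Agent.P352X.Main0
import Vale.Agent.P352X.Kin.KT

/-!
# P352X: the bridge between the context and the Borel calculus
-/

noncomputable section

open MeasureTheory Filter Topology Complex Set

namespace Vale.Agent.P352X

open Vale.Agent.P352 Vale.Agent.P352.GF Vale.Agent.P352.BW
open Vale.Agent.P352.H496 Vale.Agent.P352.H755 Vale.Agent.P352.H15
open SN (BC Calc Bd IsPair URep)
open UniformSpace (Completion)

section hilbert

variable {H : Type*} [NormedAddCommGroup H] [InnerProductSpace ℂ H] [CompleteSpace H]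
  {W : ℝ → H →L[ℂ] H} {ψ k : H}

omit [CompleteSpace H] in
lemma Gn.dm' (h : Gn W ψ k) : Dm W ψ := h.differentiableAt

omit [CompleteSpace H] in
lemma Gn.gen_eq' (h : Gn W ψ k) : gen W ψ = k := by
  rw [gen, h.deriv, smul_smul]
  simp

omit [CompleteSpace H] in
lemma Dm.gn' (h : Dm W ψ) : Gn W ψ (gen W ψ) := by
  rw [Gn, gen, smul_smul]
  simpa using h.hasDerivAt

namespace Br

variable {X : Type*} [MeasurableSpace X] (C : Calc X H) {r : X → ℝ}

/-- **generators of groups that are given by the calculus** -/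
theorem gn_iff (hr : Measurable r)
    (hW : ∀ t, W t ψ = C.Phi (fun p => cexp (I * (t * r p : ℝ))) ψ) :
    Gn W ψ k ↔ C.Dom (fun p => (r p : ℂ)) ψ ∧ C.Psi (fun p => (r p : ℂ)) ψ = k := by
  have h0 : C.Phi (fun p => cexp (I * ((0 : ℝ) * r p : ℝ))) = 1 := by simpa using C.one
  simp only [Gn, hW]
  constructor
  · intro h
    have h1 := h.tendsto_slope_zero
    simp only [zero_add, h0, one_apply_eq_self] at h1
    obtain ⟨h2, h3⟩ := Calc.dom_of_slope hr le_rfl h1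
    exact ⟨h2, (smul_right_injective H I_ne_zero h3).symm⟩
  · rintro ⟨h1, rfl⟩
    simpa only [h0, one_apply_eq_self] using Calc.hasDerivAt_exp hr h1 0

theorem dm_iff (hr : Measurable r)
    (hW : ∀ t, W t ψ = C.Phi (fun p => cexp (I * (t * r p : ℝ))) ψ) :
    Dm W ψ ↔ C.Dom (fun p => (r p : ℂ)) ψ :=
  ⟨fun h => ((gn_iff C hr hW).1 h.gn').1, fun h => ((gn_iff C hr hW).2 ⟨h, rfl⟩).dm'⟩

theorem gen_eq_Psi (hr : Measurable r)
    (hW : ∀ t, W t ψ = C.Phi (fun p => cexp (I * (t * r p : ℝ))) ψ) (h : Dm W ψ) :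
    gen W ψ = C.Psi (fun p => (r p : ℂ)) ψ := ((gn_iff C hr hW).1 h.gn').2.symm

/-- every strongly continuous unitary group is given by a calculus on the line -/
theorem exists_calc (hW : URep fun t z => W t z) : ∃ C : Calc ℝ H,
    ∀ t z, W t z = C.Phi (fun p => cexp (I * (t * p : ℝ))) z := by
  obtain ⟨C⟩ := SN.exists_BC SN.isPair_mul hW
  refine ⟨C.toCalc, fun t z => ?_⟩
  simpa using C.U_smul SN.isPair_mul t 1 z

end Br

end hilbert

namespace Br

/-! ### coordinates -/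

lemma md_pt (α β : ℝ) (x : R2) (p : V) : GF.mdot (pt α β x) p = α * be p + β * al p - d2 x (tx p) := by
  simp [gm, pt, be, al, va, vb, d2, tx]
  ring

lemma pt_eq (α β : ℝ) (x : R2) : pt α β x = α • va + β • vb + tv x := by
  funext i
  fin_cases i <;> simp [pt, va, vb, tv] <;> ring

lemma pt_self (z : V) : pt (al z) (be z) (tx z) = z := by
  funext i
  fin_cases i <;> simp [pt, al, be, va, vb, tx, gm] <;> ring

lemma al_pt' (α β : ℝ) (x : R2) : al (pt α β x) = α := by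
  simp [pt, al, vb, gm]
  ring

lemma be_pt' (α β : ℝ) (x : R2) : be (pt α β x) = β := by
  simp [pt, be, va, gm]

lemma tx_pt' (α β : ℝ) (x : R2) : tx (pt α β x) = x := by
  funext i
  fin_cases i <;> simp [pt, tx]

lemma va_pt : va = pt 1 0 0 := by
  funext i
  fin_cases i <;> simp [pt, va]

lemma vb_pt : vb = pt 0 1 0 := by
  funext i
  fin_cases i <;> simp [pt, vb]

lemma scp_va (r s : ℝ) : scp r s va = r • va := by
  rw [scp, va_pt, al_pt', be_pt', tx_pt']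
  funext i
  fin_cases i <;> simp [pt]

lemma scp_vb (r s : ℝ) : scp r s vb = s • vb := by
  rw [scp, vb_pt, al_pt', be_pt', tx_pt']
  funext i
  fin_cases i <;> simp [pt] <;> ring

lemma md_tv (x : R2) (p : V) : GF.mdot (tv x) p = -d2 x (tx p) := by simp [tv, md_pt]

lemma mu_eq' (p : V) : mu p = 2 * be p * al p - d2 (tx p) (tx p) := by
  have := md_pt (al p) (be p) (tx p) p
  rw [pt_self] at this
  rw [mu, this]
  ring

lemma d2_dot (x y : R2) : SN.dot x y = d2 x y := Kin.dot2 x y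

lemma tv_kin (w : R2) : Kin.tv ex w = tv w := by
  funext i
  fin_cases i <;> simp [Kin.tv, ex, tv, pt, e2]

lemma tv_add' (x y : R2) : tv (x + y) = tv x + tv y := by simp only [← tv_kin, Kin.tv_add]

lemma tv_smul' (t : ℝ) (x : R2) : tv (t • x) = t • tv x := by simp only [← tv_kin, Kin.tv_smul]

/-- the transverse plane as a linear map -/
def tvL : R2 →L[ℝ] V := LinearMap.toContinuousLinearMap ⟨⟨tv, tv_add'⟩, tv_smul'⟩

@[simp] lemma tvL_apply (x : R2) : tvL x = tv x := rfl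

theorem fr : Kin.Fr va vb ex := by
  refine ⟨⟨?_, ?_⟩, ⟨?_, ?_⟩, ?_, fun i => ?_, fun i => ?_, fun i j => ?_⟩
  · simp [va, gm]
  · simp [va, o]
  · simp [vb, gm]
  · simp [vb, o]
  · simp [va, vb, gm]; norm_num
  · simp [va, ex, tv, pt, gm]
  · simp [vb, ex, tv, pt, gm]
  · fin_cases i <;> fin_cases j <;> simp [ex, tv, pt, e2, gm]

lemma Gm_kin (w : R2) : Kin.Gm va ex w = H746.nrt va (tv ((1 / 2 : ℝ) • w)) := by
  rw [Kin.Gm, tv_kin, tv_smul', one_div]

lemma meas_al : Measurable al := Kin.meas_md vb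
lemma meas_be : Measurable be := Kin.meas_md va
lemma cont_tx : Continuous tx := by
  unfold tx
  fun_prop
lemma meas_tx : Measurable tx := cont_tx.measurable
lemma meas_mu : Measurable mu := HM.H584.cont_sq.measurable

theorem isPair_pr3 : IsPair pr3 := by
  have h := SN.isPair_mul.prod (SN.isPair_dot (ι := Fin 2))
  simp only [d2_dot] at h
  exact h

variable {D : Type*} [NormedAddCommGroup D] [InnerProductSpace ℂ D]

lemma Ut_apply (Q : Theory D) (y : V) (z : Completion D) : Ut Q y z = Ue Q 1 GF.one y z :=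
  Ug_apply Q one_pos H496.isLor_one y z

lemma Ga_apply (Q : Theory D) (w : R2) (z : Completion D) :
    Ga Q w z = Ue Q 1 (Kin.Gm va ex w) 0 z := by
  rw [Gm_kin]
  exact Ug_apply Q one_pos (Gm_kin w ▸ fr.lor w) 0 z

lemma Gb_apply (Q : Theory D) (t : ℝ) (z : Completion D) :
    Gb Q (2 * t) z = Ue Q 1 (H746.nrt vb (t • ex 0)) 0 z := by
  have : tv ((2 * t / 2) • e2 0) = t • ex 0 := by
    rw [tv_smul', mul_div_cancel_left₀ t two_ne_zero]
    rfl
  rw [Gb, this]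
  exact Ug_apply Q one_pos (H26.lor_c fr.hb (fr.hbe 0) t) 0 z

end Br

open Br

namespace Ctx

variable {D : Type*} [NormedAddCommGroup D] [InnerProductSpace ℂ D] (c : Ctx D)

lemma bR : Rep c.Q c.A := c.hN.toRep

lemma bV : Kin.UVac c.Q := c.hU

/-- the calculus of the translations -/
def ct : Kin.TC c.Q :=
  ⟨c.bt.toCalc, fun y v => (c.bt.Phi_ch y v).trans (Ut_apply c.Q y v)⟩

lemma ct_calc : c.ct.toCalc = c.bt.toCalc := rfl

lemma ut_Phi (y : V) (t : ℝ) (z : Completion D) :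
    Ut c.Q (t • y) z = c.bt.Phi (fun p => cexp (I * (t * GF.mdot y p : ℝ))) z := by
  simpa only [md_comm _ y] using c.bt.U_smul SN.isPair_mdot t y z

lemma cgn_ut (y : V) {ψ k : Completion D} : Gn (fun t => Ut c.Q (t • y)) ψ k ↔
    c.bt.Dom (fun p => (GF.mdot y p : ℂ)) ψ ∧ c.bt.Psi (fun p => (GF.mdot y p : ℂ)) ψ = k :=
  gn_iff c.bt.toCalc (Kin.meas_md y) fun t => c.ut_Phi y t ψ

lemma cgn_Pa {ψ k : Completion D} : Gn (Pa c.Q) ψ k ↔
    c.bt.Dom (fun p => (be p : ℂ)) ψ ∧ c.bt.Psi (fun p => (be p : ℂ)) ψ = k := c.cgn_ut va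

lemma cgn_Pb {ψ k : Completion D} : Gn (Pb c.Q) ψ k ↔
    c.bt.Dom (fun p => (al p : ℂ)) ψ ∧ c.bt.Psi (fun p => (al p : ℂ)) ψ = k := c.cgn_ut vb

/-- a joint calculus of `K`, `M`, `P` -/
def kc : Kin.KC c.Q c.S va ex := (Kin.exists_KC c.bR c.hS fr).some

lemma kpos (z w : Completion D) (h : HasDerivAt (fun t : ℝ => c.S va t z) (I • w) 0) :
    0 ≤ (inner ℂ z w).re := c.pos va z w fr.ha h

/-- the functions of `P` and `M` in the two calculi -/
theorem common_a3 :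
    (∀ f : P3 → ℂ, Bd f → ∀ v, c.kc.Phi (fun q => f (q.2.2, q.2.1)) v = c.a3.Phi f v) ∧
    (∀ v, (c.kc.nu v).map (fun q => ((q.2.2, q.2.1) : P3)) = c.a3.nu v) ∧
    ∀ f : P3 → ℂ, Measurable f → ∀ v,
      (c.kc.Dom (fun q => f (q.2.2, q.2.1)) v ↔ c.a3.Dom f v) ∧
      c.kc.Psi (fun q => f (q.2.2, q.2.1)) v = c.a3.Psi f v := by
  have h := SN.common isPair_pr3 c.kc.toCalc c.a3.toCalc (k₁ := fun q => ((q.2.2, q.2.1) : P3))
    (k₂ := id) (by fun_prop) measurable_id fun y v => by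
      have h1 := c.kc.Phi_ch (0, y.2, y.1) v
      have h2 := c.a3.Phi_ch y v
      simp only [Kin.Wk, c.hS.zero va fr.ha, one_apply_eq_self, Kin.G_a c.bR fr] at h1
      rw [← Ut_apply, ← Ga_apply, ← h2] at h1
      refine Eq.trans ?_ h1
      congr 2
      funext q
      simp [SN.ch, Kin.pk, pr3, d2_dot, add_comm]
  simpa only [Measure.map_id, id] using h

lemma S0_Phi (t : ℝ) (z : Completion D) :
    c.S0 t z = c.kc.Phi (fun q => cexp (I * (t * Kin.k0 q : ℝ))) z := by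
  rw [S0, ← c.common_a3.1 _ (Bd.expI (by unfold d2; fun_prop))]
  simp only [Kin.k0, d2_dot]

lemma SK_Phi (t : ℝ) (z : Completion D) :
    c.SK t z = c.kc.Phi (fun q => cexp (I * (t * q.1 : ℝ))) z := (Kin.Phi_S c.kc t z).symm

lemma Sk_Phi (t : ℝ) (z : Completion D) :
    c.Sk t z = c.kc.Phi (fun q => cexp (I * (t * Kin.kt q : ℝ))) z := by
  have h1 : Bd fun q : Kin.KX => cexp (I * (t * q.1 : ℝ)) :=
    Bd.expI (measurable_const.mul measurable_fst)
  have h2 : Bd fun q : Kin.KX => cexp (I * (-t * Kin.k0 q : ℝ)) :=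
    Bd.expI (measurable_const.mul Kin.k0_meas)
  rw [Sk, mul_apply_eq_comp, S0_Phi, ← Kin.Phi_S c.kc, ← c.kc.mul_apply h1 h2]
  congr 2
  funext q
  rw [← Complex.exp_add, Kin.kt]
  push_cast
  ring_nf

lemma Ga_Phi (w : R2) (z : Completion D) :
    Ga c.Q w z = c.kc.Phi (fun q => cexp (I * (d2 w q.2.1 : ℝ))) z := by
  rw [Ga_apply, ← Kin.Phi_G c.kc c.hS.toGrp0 fr.ha]
  simp only [d2_dot]

lemma Mi_Phi (i : Fin 2) (t : ℝ) (z : Completion D) :
    Mi c.Q i t z = c.kc.Phi (fun q => cexp (I * (t * q.2.1 i : ℝ))) z := by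
  rw [Mi, Ga_Phi]
  fin_cases i <;> simp [d2, e2]

lemma Pa_Phi (t : ℝ) (z : Completion D) :
    Pa c.Q t z = c.kc.Phi (fun q => cexp (I * (t * q.2.2 : ℝ))) z := by
  rw [Pa, Ut_apply, ← Kin.Phi_a c.kc c.hS.toGrp0 fr.ha]

variable {ψ k : Completion D}

lemma cgn_SK : Gn c.SK ψ k ↔
    c.kc.Dom (fun q => (q.1 : ℂ)) ψ ∧ c.kc.Psi (fun q => (q.1 : ℂ)) ψ = k :=
  gn_iff c.kc.toCalc measurable_fst fun t => c.SK_Phi t ψ

lemma cgn_Sk : Gn c.Sk ψ k ↔
    c.kc.Dom (fun q => (Kin.kt q : ℂ)) ψ ∧ c.kc.Psi (fun q => (Kin.kt q : ℂ)) ψ = k :=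
  gn_iff c.kc.toCalc Kin.kt_meas fun t => c.Sk_Phi t ψ

lemma cgn_S0 : Gn c.S0 ψ k ↔
    c.kc.Dom (fun q => (Kin.k0 q : ℂ)) ψ ∧ c.kc.Psi (fun q => (Kin.k0 q : ℂ)) ψ = k :=
  gn_iff c.kc.toCalc Kin.k0_meas fun t => c.S0_Phi t ψ

lemma cgn_Mi (i : Fin 2) : Gn (Mi c.Q i) ψ k ↔
    c.kc.Dom (fun q => (q.2.1 i : ℂ)) ψ ∧ c.kc.Psi (fun q => (q.2.1 i : ℂ)) ψ = k :=
  gn_iff c.kc.toCalc (r := fun q => q.2.1 i) (by fun_prop) fun t => c.Mi_Phi i t ψ

lemma cgn_Pa' : Gn (Pa c.Q) ψ k ↔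
    c.kc.Dom (fun q => (q.2.2 : ℂ)) ψ ∧ c.kc.Psi (fun q => (q.2.2 : ℂ)) ψ = k :=
  gn_iff c.kc.toCalc (r := fun q => q.2.2) (by fun_prop) fun t => c.Pa_Phi t ψ

end Ctx

end Vale.Agent.P352X

end
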