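import Vale.Agent.P352X.R.BB.L1
import Vale.Agent.P352X.R.BB.Flux
import Vale.Agent.P352X.R.BB.Low
import Vale.Agent.P352X.R.BB.Rate
import Vale.Agent.P352X.R.BB.Kt
import Vale.Agent.P352X.R.BB.KS
import Vale.Agent.P352X.R.BB.Half
import Vale.Agent.P352X.R.BB.MI
import Vale.Agent.P352X.R.BB.Dom
import Vale.Agent.P352X.R.BB.LIP
import Vale.Agent.P352X.R.BB.Dec
import Vale.Agent.P352X.R.BB.Far
import Vale.Agent.P352X.R.BB.Main
import Vale.Agent.P352X.R.BB.Cross
import Vale.Agent.P352X.R.BB.Fin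
import Vale.Agent.P352X.R.BB.Core
import Vale.Agent.P352X.R.BB.Tra

/-!
# P352X, row BB: the assembly of the sub-rows
-/

set_option linter.all false

namespace Vale.Agent.P352X

variable {D : Type*} [NormedAddCommGroup D] [InnerProductSpace ℂ D]

theorem BX.rows (c : Ctx D) : BX.Rows c :=
  ⟨BX.l1_row c, BX.flux_row c, BX.low_row c, BX.rate_row c, BX.kt_row c, BX.ks_row c,
    BX.half_row c, BX.mi_row c, BX.dom_row c, BX.lip_row c, BX.dec_row c, BX.gap_row c,
    BX.far_row c, BX.main_row c, BX.cross_row c, BX.fin_row c, BX.core_row c, BX.tra_row c⟩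

theorem bb_row (c : Ctx D) : T3 c → BB c := (BX.rows c).bb

end Vale.Agent.P352X
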