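import Vale.Agent.P352X.Spec
import Vale.Agent.P352X.Api3a

/-!
# P352X, row FAR: far parts of the plane, and both legs on one side (helper34)
-/

set_option linter.all false

open MeasureTheory Filter Topology
open scoped SchwartzMap ComplexConjugate ENNReal ContDiff

namespace Vale.Agent.P352X

open Vale.Agent.P352 Vale.Agent.P352.GF Vale.Agent.P352.BW Vale.Agent.P352.H246
open Vale.Agent.P352.H496 Vale.Agent.P352.H755 Vale.Agent.P352.H15
open UniformSpace (Completion)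

noncomputable section

namespace Far

/-! ### test functions -/

lemma sch_apply {E : Type*} [NormedAddCommGroup E] [NormedSpace ℝ E] {F : E → ℂ} (hF : Dc F)
    (x : E) : sch F x = F x := by
  have h : ∃ G : 𝓢(E, ℂ), ∀ x, G x = F x := ⟨hF.2.toSchwartzMap hF.1, fun _ => rfl⟩
  rw [sch, dif_pos h]
  exact h.choose_spec x

lemma sch_coe {E : Type*} [NormedAddCommGroup E] [NormedSpace ℝ E] {F : E → ℂ} (hF : Dc F) :
    (sch F : E → ℂ) = F := funext (sch_apply hF)

lemma dc_star {E : Type*} [NormedAddCommGroup E] [NormedSpace ℝ E] {F : E → ℂ} (hF : Dc F) :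
    Dc fun x => star (F x) :=
  ⟨Complex.conjCLE.contDiff.comp hF.1, hF.2.comp_left (g := fun x : ℂ => star x) (by simp)⟩

lemma isTest_dc {f : Fn} (hf : Dc f) : IsTest f := ⟨sch f, sch_coe hf⟩

lemma tsupport_pr (g : P3 → ℝ) (ρ : ℝ → ℝ) :
    tsupport (pr g ρ) ⊆ {z | pl z ∈ tsupport g ∧ be z ∈ tsupport ρ} := by
  refine closure_minimal (fun z hz => ?_) (((isClosed_tsupport g).preimage cont_pl).inter
    ((isClosed_tsupport ρ).preimage cont_be))
  have hz' : g (pl z) * ρ (be z) ≠ 0 := fun h => hz (by simp only [pr, h, Complex.ofReal_zero])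
  exact ⟨subset_tsupport _ (left_ne_zero_of_mul hz'), subset_tsupport _ (right_ne_zero_of_mul hz')⟩

lemma dc_pr {g : P3 → ℝ} {ρ : ℝ → ℝ} (hg : Tst g) (hρ : Tst ρ) : Dc (pr g ρ) := by
  refine ⟨Complex.ofRealCLM.contDiff.comp ((hg.1.comp smooth_pl).mul (hρ.1.comp smooth_be)), ?_⟩
  exact (plE.toHomeomorph.isCompact_preimage.2 (hg.2.isCompact.prod hρ.2.isCompact)).of_isClosed_subset
    (isClosed_tsupport _) (tsupport_pr g ρ)

/-- the scaling of the plane -/
def scE {L : ℝ} (hL : 0 < L) : P3 ≃ₜ P3 where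
  toFun y := (y.1 / L, (Real.sqrt L)⁻¹ • y.2)
  invFun y := (L * y.1, Real.sqrt L • y.2)
  left_inv y := by
    have := Real.sqrt_pos.2 hL
    simp only [smul_smul]
    rw [mul_inv_cancel₀ this.ne', one_smul, mul_div_cancel₀ _ hL.ne']
  right_inv y := by
    have := Real.sqrt_pos.2 hL
    simp only [smul_smul]
    rw [inv_mul_cancel₀ this.ne', one_smul, mul_div_cancel_left₀ _ hL.ne']
  continuous_toFun := by fun_prop
  continuous_invFun := by fun_prop

lemma tst_kL {g : P3 → ℝ} (hg : Tst g) {L : ℝ} (hL : 0 < L) : Tst (kL g L) :=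
  ⟨hg.1.comp ((contDiff_fst.div_const L).prodMk (contDiff_snd.const_smul (Real.sqrt L)⁻¹)),
    hg.2.comp_homeomorph (scE hL)⟩

lemma tsupport_kL (g : P3 → ℝ) (L : ℝ) :
    tsupport (kL g L) ⊆ {y | (y.1 / L, (Real.sqrt L)⁻¹ • y.2) ∈ tsupport g} :=
  closure_minimal (fun z hz => subset_tsupport g hz)
    ((isClosed_tsupport g).preimage (by fun_prop))

lemma bar_pr (g : P3 → ℝ) (ρ : ℝ → ℝ) : bar (pr g ρ) = pr g ρ := by
  funext z
  simp only [bar, pr, Complex.star_def, Complex.conj_ofReal]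

/-- the test function `Ψ(z1, z3) f(z2)` -/
lemma dc_tri {Ψ : V × V → ℂ} {f : Fn} (hΨ : Dc Ψ) (hf : Dc f) :
    Dc fun z : V × V × V => Ψ (z.1, z.2.2) * f z.2.1 := by
  refine ⟨(hΨ.1.comp (contDiff_fst.prodMk contDiff_snd.snd)).mul (hf.1.comp contDiff_snd.fst), ?_⟩
  refine HasCompactSupport.intro ((hΨ.2.isCompact.image continuous_fst).prod
    (hf.2.isCompact.prod (hΨ.2.isCompact.image continuous_snd))) fun z hz => ?_
  by_contra h
  have h1 := subset_tsupport _ (left_ne_zero_of_mul h)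
  exact hz ⟨⟨_, h1, rfl⟩, subset_tsupport _ (right_ne_zero_of_mul h), ⟨_, h1, rfl⟩⟩

/-- exchange of the first two points -/
def sw1 : (V × V × V) ≃L[ℝ] (V × V × V) := LinearEquiv.toContinuousLinearEquiv
  { toFun := fun z => (z.2.1, z.1, z.2.2)
    invFun := fun z => (z.2.1, z.1, z.2.2)
    map_add' := fun _ _ => rfl
    map_smul' := fun _ _ => rfl
    left_inv := fun _ => rfl
    right_inv := fun _ => rfl }

/-- exchange of the last two points -/
def sw2 : (V × V × V) ≃L[ℝ] (V × V × V) := LinearEquiv.toContinuousLinearEquiv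
  { toFun := fun z => (z.1, z.2.2, z.2.1)
    invFun := fun z => (z.1, z.2.2, z.2.1)
    map_add' := fun _ _ => rfl
    map_smul' := fun _ _ => rfl
    left_inv := fun _ => rfl
    right_inv := fun _ => rfl }

/-- the points of the two legs -/
abbrev legs (Ψ : V × V → ℂ) : Set V := Prod.fst '' tsupport Ψ ∪ Prod.snd '' tsupport Ψ

/-! ### factorization -/

variable {D : Type*} [NormedAddCommGroup D] [InnerProductSpace ℂ D] (c : Ctx D)

/-- `w(Θ, Θ)` -/
def wTT (w : I2 → I2 → S2 →L[ℂ] Completion D) (G : S2) : Completion D :=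
  ∑ m, ∑ n, ((eta m * eta n : ℝ) : ℂ) • w (m, m) (n, n) G

lemma T_smul (m n : Ix) (a : ℂ) {f : Fn} (hf : IsTest f) (v : D) :
    c.T m n (fun x => a * f x) v = a • c.T m n f v := by
  have hB := c.Q.bose_fld _ (c.hT.bose m n)
  have h0 : IsTest fun _ : V => (0 : ℂ) := ⟨0, rfl⟩
  have h1 := c.Q.lin _ _ _ 1 v hB h0 h0
  have h2 := c.Q.lin _ _ _ a v hB h0 hf
  simp only [mul_zero, add_zero, one_smul, left_eq_add, zero_add] at h1 h2
  rw [h2, h1, zero_add]

lemma Tv_hk (h k : V) {f : Fn} (hf : IsTest f) : c.Tv (hk h k f) = ∑ m, ∑ n,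
    ((eta m * h m * (eta n * k n) : ℝ) : ℂ) • ((c.T m n f c.Q.vac : D) : Completion D) := by
  have e : ∀ m n, c.T m n (hk h k f m n) c.Q.vac =
      ((eta m * h m * (eta n * k n) : ℝ) : ℂ) • c.T m n f c.Q.vac := fun m n => T_smul c m n _ hf _
  simp only [Ctx.Tv, Ctx.Tf, e]
  change Completion.toComplL (𝕜 := ℂ) _ = _
  simp only [map_sum, map_smul]
  rfl

/-- the middle leg is not earlier than the two others -/
theorem facP [Fact c.tp] (f : Sch) (G : S2) (F : S3) (e : ∀ x y z, F (x, y, z) = G (x, z) * f y)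
    (h : Late (tsupport f) (legs G)) :
    c.t0 F = inner ℂ (c.Tv (hk va va (bar (ev f)))) (wTT c.wp G) := by
  have key : ∀ I J K, c.t I J K F =
      inner ℂ ((c.T J.1 J.2 (bar (ev f)) c.Q.vac : D) : Completion D) (c.wp I K G) := by
    intro I J K
    rw [c.hTP.swap1 I J K F (SchwartzMap.compCLMOfContinuousLinearEquiv ℂ sw1 F) fun _ _ _ => rfl]
    exact c.hTP.fac1 J I K f G _ (fun x y z => (e y x z).trans (mul_comm _ _)) h
  rw [Tv_hk c va va (isTest_bar ⟨f, rfl⟩)]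
  simp only [sum_inner, inner_smul_left]
  simp only [Ctx.t0, key, wTT, inner_sum, inner_smul_right, Complex.conj_ofReal, Finset.mul_sum]
  rw [Finset.sum_comm]
  refine Finset.sum_congr rfl fun k _ => ?_
  rw [Finset.sum_comm]
  refine Finset.sum_congr rfl fun l _ => Finset.sum_congr rfl fun m _ =>
    Finset.sum_congr rfl fun n _ => ?_
  push_cast
  ring

/-- the middle leg is not later than the two others -/
theorem facM [Fact c.tp] (f : Sch) (G G' : S2) (F : S3) (e : ∀ x y z, F (x, y, z) = G (x, z) * f y)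
    (e' : ∀ x, G' x = star (G x)) (h : Late (legs G) (tsupport f)) :
    c.t0 F = inner ℂ (wTT c.wm G') (c.Tv (hk va va (ev f))) := by
  have key : ∀ I J K, c.t I J K F =
      inner ℂ (c.wm I K G') ((c.T J.1 J.2 (ev f) c.Q.vac : D) : Completion D) := by
    intro I J K
    rw [c.hTP.swap2 I J K F (SchwartzMap.compCLMOfContinuousLinearEquiv ℂ sw2 F) fun _ _ _ => rfl]
    exact c.hTP.fac3 I K J G G' f _ (fun x y z => e x z y) e' h
  rw [Tv_hk c va va ⟨f, rfl⟩]
  simp only [Ctx.t0, key, wTT, sum_inner, inner_sum, inner_smul_left, inner_smul_right,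
    Complex.conj_ofReal, Finset.mul_sum]
  rw [Finset.sum_comm]
  refine Finset.sum_congr rfl fun k _ => ?_
  rw [Finset.sum_comm]
  refine Finset.sum_congr rfl fun l _ => Finset.sum_congr rfl fun m _ =>
    Finset.sum_congr rfl fun n _ => ?_
  push_cast
  ring

lemma t0_add (F G : S3) : c.t0 (F + G) = c.t0 F + c.t0 G := by
  simp only [Ctx.t0, map_add, mul_add, Finset.sum_add_distrib]

variable {c}

/-- `U(sc(L, 1)) T_aa(g ρ) Ω = L T_aa(g_L ρ) Ω` -/
theorem usc_Tv (hg : GRP c) {g : P3 → ℝ} {ρ : ℝ → ℝ} (h1 : Tst g) (h2 : Tst ρ) {L : ℝ}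
    (hL : 0 < L) :
    Usc c.Q L 1 (c.Tv (hk va va (pr g ρ))) = (L : ℂ) • c.Tv (hk va va (pr (kL g L) ρ)) := by
  obtain ⟨hΛ, hs⟩ := hg.lsc L 1 hL one_pos
  have hq : 0 < Real.sqrt (L * 1) := Real.sqrt_pos.2 (by positivity)
  have hq' : 0 < Real.sqrt L := Real.sqrt_pos.2 hL
  have ht := isTest_dc (dc_pr (tst_kL h1 hL) h2)
  set Λ := bst va vb (Real.sqrt (L / 1) - 1) (Real.sqrt (1 / L) - 1)
  have e1 : (fun x => pr (kL g L) ρ (sim (Real.sqrt (L * 1)) Λ 0 x)) = pr g ρ := by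
    funext x
    rw [hs]
    simp only [pr, kL, pl_1, pl_2, al_scp, be_scp, tx_scp, mul_one, one_mul, smul_smul]
    rw [inv_mul_cancel₀ hq'.ne', one_smul, mul_div_cancel_left₀ _ hL.ne']
    rfl
  have e2 : sim 1 Λ 0 va = Real.sqrt L • va := by
    have h3 : Real.sqrt L • sim 1 Λ 0 va = L • va := by
      have : scp L 1 va = L • va := null_ext (by simp) (by simp) (by simp)
      rw [← this, ← hs]
      funext n
      simp [sim]
    have h4 : L • va = Real.sqrt L • Real.sqrt L • va := by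
      rw [smul_smul, Real.mul_self_sqrt hL.le]
    exact smul_right_injective _ hq'.ne' (h3.trans h4)
  have := hg.ten _ Λ 0 va va _ c.Q.vac hq hΛ ht
  rw [e1, e2, c.Q.U_vac _ _ _ hq hΛ] at this
  rw [Ctx.Tv, Usc, hg.coe _ _ _ _ hq hΛ, this]
  change c.Tv _ = _
  rw [Tv_hk c _ _ ht, Tv_hk c _ _ ht, Finset.smul_sum]
  refine Finset.sum_congr rfl fun m _ => ?_
  rw [Finset.smul_sum]
  refine Finset.sum_congr rfl fun n _ => ?_
  rw [smul_smul, ← Complex.ofReal_mul]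
  congr 2
  simp only [Pi.smul_apply, smul_eq_mul]
  have := Real.mul_self_sqrt hL.le
  linear_combination (eta m * va m * (eta n * va n)) * this

lemma perp_Tv (hg : GRP c) (h k : V) {f : Fn} (hf : IsTest f) :
    inner ℂ c.Om (c.Tv (hk h k f)) = 0 := by
  rw [Tv_hk c _ _ hf]
  simp only [inner_sum, inner_smul_right, Ctx.Om, om, Completion.inner_coe, hg.perp _ _ _ hf,
    mul_zero, Finset.sum_const_zero]

/-- weak nullity along `sc(L, 1)` -/
lemma wn (hg : GRP c) (hb : BAS c) {η : Completion D} (h : inner ℂ c.Om η = 0)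
    (w : Completion D) : Tendsto (fun L : ℝ => inner ℂ (Usc c.Q L 1 η) w) atTop (𝓝 0) := by
  have := hb.wn ℝ atTop (fun L => max L 1) (fun _ => 1) (fun _ => 0) (fun _ => η) η w
    (fun L => ⟨lt_max_of_lt_right one_pos, one_pos⟩)
    (Or.inl (tendsto_atTop_mono (fun L => le_max_left L 1) tendsto_id)) tendsto_const_nhds h
  refine this.congr' ?_
  filter_upwards [eventually_ge_atTop (1 : ℝ)] with L hL
  rw [hg.ut0, max_eq_left hL]
  rfl

/-- the three leg test function of the row -/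
abbrev tri (Ψ : V × V → ℂ) (g : P3 → ℝ) (ρ : ℝ → ℝ) (L : ℝ) : S3 :=
  sch fun z : V × V × V => Ψ (z.1, z.2.2) * pr (kL g L) ρ z.2.1

theorem triP [Fact c.tp] (hg : GRP c) {g : P3 → ℝ} {ρ : ℝ → ℝ} {Ψ : V × V → ℂ} (h1 : Tst g) (h2 : Tst ρ)
    (h3 : Dc Ψ) {L : ℝ} (hL : 0 < L) (h : Late (tsupport (pr (kL g L) ρ)) (legs Ψ)) :
    (L : ℂ) * c.t0 (tri Ψ g ρ L) =
      inner ℂ (Usc c.Q L 1 (c.Tv (hk va va (pr g ρ)))) (wTT c.wp (sch Ψ)) := by
  have hf := dc_pr (tst_kL h1 hL) h2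
  rw [facP c (sch (pr (kL g L) ρ)) (sch Ψ) _ (fun x y z => by
      rw [sch_apply (dc_tri h3 hf), sch_apply h3, sch_apply hf])
      (by rwa [sch_coe hf, sch_coe h3]), usc_Tv hg h1 h2 hL, inner_smul_left, Complex.conj_ofReal,
    ev, sch_coe hf, bar_pr]

theorem triM [Fact c.tp] (hg : GRP c) {g : P3 → ℝ} {ρ : ℝ → ℝ} {Ψ : V × V → ℂ} (h1 : Tst g) (h2 : Tst ρ)
    (h3 : Dc Ψ) {L : ℝ} (hL : 0 < L) (h : Late (legs Ψ) (tsupport (pr (kL g L) ρ))) :
    (L : ℂ) * c.t0 (tri Ψ g ρ L) = inner ℂ (wTT c.wm (sch fun z => star (Ψ z)))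
      (Usc c.Q L 1 (c.Tv (hk va va (pr g ρ)))) := by
  have hf := dc_pr (tst_kL h1 hL) h2
  rw [facM c (sch (pr (kL g L) ρ)) (sch Ψ) (sch fun z => star (Ψ z)) _ (fun x y z => by
      rw [sch_apply (dc_tri h3 hf), sch_apply h3, sch_apply hf])
      (fun x => by rw [sch_apply (dc_star h3), sch_apply h3])
      (by rwa [sch_coe hf, sch_coe h3]), usc_Tv hg h1 h2 hL, inner_smul_right, ev, sch_coe hf]

lemma limP (hg : GRP c) (hb : BAS c) {g : P3 → ℝ} {ρ : ℝ → ℝ} (h1 : Tst g) (h2 : Tst ρ)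
    (w : Completion D) :
    Tendsto (fun L : ℝ => inner ℂ (Usc c.Q L 1 (c.Tv (hk va va (pr g ρ)))) w) atTop (𝓝 0) :=
  wn hg hb (perp_Tv hg _ _ (isTest_dc (dc_pr h1 h2))) w

lemma limM (hg : GRP c) (hb : BAS c) {g : P3 → ℝ} {ρ : ℝ → ℝ} (h1 : Tst g) (h2 : Tst ρ)
    (w : Completion D) :
    Tendsto (fun L : ℝ => inner ℂ w (Usc c.Q L 1 (c.Tv (hk va va (pr g ρ))))) atTop (𝓝 0) := by
  have := (Complex.continuous_conj.tendsto 0).comp (limP hg hb h1 h2 w)
  simpa only [Function.comp_def, inner_conj_symm, map_zero] using this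

/-! ### geometry -/

lemma late_iff {A B : Set V} : Late A B ↔ ∀ x ∈ A, ∀ y ∈ B, 0 ≤ al y - al x → 0 ≤ be y - be x →
    2 * (al y - al x) * (be y - be x) < d2 (tx y - tx x) (tx y - tx x) := by
  refine forall₄_congr fun x _ y _ => ?_
  rw [← mu, cone_iff]
  simp only [al_sub, be_sub, tx_sub, not_and, not_le]

lemma d2_far (u v : R2) : d2 u u / 2 - d2 v v ≤ d2 (u - v) (u - v) := by
  simp only [d2, Pi.sub_apply]
  nlinarith [sq_nonneg (u 0 - 2 * v 0), sq_nonneg (u 1 - 2 * v 1)]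

lemma d2_sub_comm (u v : R2) : d2 (u - v) (u - v) = d2 (v - u) (v - u) := by
  simp only [d2, Pi.sub_apply]; ring

/-- the estimate behind both causal orders -/
lemma far_est {R b c0 L s : ℝ} (hR : 0 < R) (hb : 0 ≤ b) (hc : 0 < c0) (hL : 2 * R / c0 < L)
    {x y : V} (hy : ‖y‖ ≤ R) {A B : ℝ} (hA : 0 ≤ A) (hA' : A ≤ R - s) (hB : B ≤ 2 * R + b)
    (hx : c0 ≤ s / L + d2 ((Real.sqrt L)⁻¹ • tx x) ((Real.sqrt L)⁻¹ • tx x) / (4 * (2 * R + b))) :
    2 * A * B < d2 (tx x - tx y) (tx x - tx y) := by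
  have hL0 : 0 < L := lt_trans (by positivity) hL
  have hq : (Real.sqrt L)⁻¹ * (Real.sqrt L)⁻¹ = L⁻¹ := by
    rw [← mul_inv, Real.mul_self_sqrt hL0.le]
  rw [d2_smul, d2_smul_l, ← mul_assoc, hq] at hx
  have hM : 0 < 2 * R + b := by positivity
  have h1 : c0 * L * (4 * (2 * R + b)) ≤ s * (4 * (2 * R + b)) + d2 (tx x) (tx x) := by
    have := mul_le_mul_of_nonneg_right hx (show 0 ≤ L * (4 * (2 * R + b)) by positivity)
    refine (mul_assoc _ _ _).trans_le (this.trans_eq ?_)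
    field_simp
  have h2 : d2 (tx y) (tx y) ≤ 2 * R ^ 2 := (d2_le_norm _).trans (by
    have := (norm_tx_le y).trans hy
    gcongr)
  have h3 : 2 * R < c0 * L := by rwa [div_lt_iff₀' hc] at hL
  have h4 := d2_far (tx x) (tx y)
  have h5 : 2 * A * B ≤ 2 * (R - s) * (2 * R + b) := by
    nlinarith [mul_le_mul_of_nonneg_left hB hA, mul_le_mul_of_nonneg_right hA' hM.le]
  nlinarith [mul_lt_mul_of_pos_right h3 hM, mul_nonneg hR.le hb]

lemma norm_legs {Ψ : V × V → ℂ} {R : ℝ} (h : tsupport Ψ ⊆ Metric.closedBall 0 R) {y : V}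
    (hy : y ∈ legs Ψ) : ‖y‖ ≤ R := by
  rcases hy with ⟨z, hz, rfl⟩ | ⟨z, hz, rfl⟩
  exacts [(norm_fst_le z).trans (mem_closedBall_zero_iff.1 (h hz)),
    (norm_snd_le z).trans (mem_closedBall_zero_iff.1 (h hz))]

/-- **Splitting.** A function on the plane that vanishes near the origin is a sum of two functions;
after scaling, the first one is not earlier and the second one is not later than a bounded set. -/
theorem split {κ : P3 → ℝ} (h1 : Tst κ) (h0 : (0 : P3) ∉ tsupport κ) (R b : ℝ) :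
    ∃ (κp κm : P3 → ℝ) (A : ℝ), Tst κp ∧ Tst κm ∧ tsupport κp ⊆ tsupport κ ∧
      tsupport κm ⊆ tsupport κ ∧ (∀ y, κ y = κp y + κm y) ∧ 0 < A ∧ ∀ L, A ≤ L →
      ∀ (ρ : ℝ → ℝ) (B : Set V), tsupport ρ ⊆ Set.Icc (-b) b → (∀ y ∈ B, ‖y‖ ≤ R) →
        Late (tsupport (pr (kL κp L) ρ)) B ∧ Late B (tsupport (pr (kL κm L) ρ)) := by
  wlog hp : 0 < R ∧ 0 ≤ b generalizing R b
  · obtain ⟨κp, κm, A, a1, a2, a3, a4, a5, a6, a7⟩ := this (max R 1) (max b 0)
      ⟨lt_max_of_lt_right one_pos, le_max_right _ _⟩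
    exact ⟨κp, κm, A, a1, a2, a3, a4, a5, a6, fun L hL ρ B hρ hB => a7 L hL ρ B
      (hρ.trans (Set.Icc_subset_Icc (neg_le_neg (le_max_left _ _)) (le_max_left _ _)))
      fun y hy => (hB y hy).trans (le_max_left _ _)⟩
  obtain ⟨hR, hb⟩ := hp
  have hM : 0 < 4 * (2 * R + b) := by positivity
  set q : P3 → ℝ := fun y => d2 y.2 y.2 / (4 * (2 * R + b)) with hq
  have hqs : ContDiff ℝ ∞ q := (smooth_d2 contDiff_snd contDiff_snd).div_const _
  obtain ⟨c3, hc3, hc⟩ := h1.2.isCompact.exists_forall_le' (f := fun y => |y.1| + q y)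
    (continuous_fst.abs.add hqs.continuous).continuousOn (a := 0) fun y hy => by
      have a1 : 0 ≤ q y := div_nonneg (d2_nonneg _) hM.le
      refine lt_of_le_of_ne (add_nonneg (abs_nonneg _) a1) fun h => h0 ?_
      obtain ⟨a2, a3⟩ := (add_eq_zero_iff_of_nonneg (abs_nonneg _) a1).1 h.symm
      have a4 : y = 0 := Prod.ext (abs_eq_zero.1 a2)
        ((d2_eq_zero _).1 ((div_eq_zero_iff.1 a3).resolve_right hM.ne'))
      exact a4 ▸ hy
  set c0 := c3 / 3 with hc0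
  have hc0p : 0 < c0 := by positivity
  set σ : P3 → ℝ := fun y => Real.smoothTransition ((y.1 + q y) / c0 - 1) with hσ
  have hσs : ContDiff ℝ ∞ σ := Real.smoothTransition.contDiff.comp
    (((contDiff_fst.add hqs).div_const _).sub contDiff_const)
  have s1 : tsupport (fun y => κ y * σ y) ⊆ {y | c0 ≤ y.1 + q y} := by
    refine closure_minimal (fun y hy => ?_)
      (isClosed_le continuous_const (continuous_fst.add hqs.continuous))
    by_contra h
    refine right_ne_zero_of_mul hy (Real.smoothTransition.zero_of_nonpos ?_)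
    rw [sub_nonpos, div_le_one hc0p]
    exact (not_le.1 h).le
  have s2 : tsupport (fun y => κ y * (1 - σ y)) ⊆ {y | y.1 + q y ≤ 2 * c0} := by
    refine closure_minimal (fun y hy => ?_)
      (isClosed_le (continuous_fst.add hqs.continuous) continuous_const)
    by_contra h
    refine right_ne_zero_of_mul hy (sub_eq_zero.2 (Real.smoothTransition.one_of_one_le ?_).symm)
    rw [le_sub_iff_add_le, le_div_iff₀ hc0p]
    have h' : 2 * c0 < y.1 + q y := not_le.1 h
    linarith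
  refine ⟨fun y => κ y * σ y, fun y => κ y * (1 - σ y), 2 * R / c0 + 1,
    ⟨h1.1.mul hσs, h1.2.mul_right⟩, ⟨h1.1.mul (contDiff_const.sub hσs), h1.2.mul_right⟩,
    tsupport_mul_subset_left, tsupport_mul_subset_left, fun y => by ring, by positivity,
    fun L hL ρ B hρ hB => ⟨late_iff.2 fun x hx y hy a1 a2 => ?_,
      late_iff.2 fun y hy x hx a1 a2 => ?_⟩⟩
  · obtain ⟨b1, b2⟩ := tsupport_pr _ _ hx
    rw [d2_sub_comm]
    refine far_est (s := al x) hR hb hc0p (by linarith) (hB y hy) a1 ?_ ?_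
      (s1 (tsupport_kL _ _ b1))
    · linarith [le_abs_self (al y), abs_al_le y, hB y hy]
    · linarith [le_abs_self (be y), abs_be_le y, hB y hy, (hρ b2).1]
  · obtain ⟨b1, b2⟩ := tsupport_pr _ _ hx
    have b3 := tsupport_kL _ _ b1
    have b4 : al x / L + q (al x / L, (Real.sqrt L)⁻¹ • tx x) ≤ 2 * c0 := s2 b3
    have b5 : c3 ≤ |al x / L| + q (al x / L, (Real.sqrt L)⁻¹ • tx x) :=
      hc _ (tsupport_mul_subset_left b3)
    refine far_est (s := -al x) (L := L) hR hb hc0p (by linarith) (hB y hy) a1 ?_ ?_ ?_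
    · linarith [neg_abs_le (al y), abs_al_le y, hB y hy]
    · linarith [neg_abs_le (be y), abs_be_le y, hB y hy, (hρ b2).2]
    · change c0 ≤ -al x / L + q (al x / L, (Real.sqrt L)⁻¹ • tx x)
      rw [neg_div]
      rcases abs_cases (al x / L) with h | h <;> linarith [h.1]

/-- **Exact factorization** of the far part. -/
theorem far_fac [Fact c.tp] (hg : GRP c) {κ : P3 → ℝ} (h1 : Tst κ) (h0 : (0 : P3) ∉ tsupport κ) (R b : ℝ) :
    ∃ (κp κm : P3 → ℝ) (A : ℝ), Tst κp ∧ Tst κm ∧ tsupport κp ⊆ tsupport κ ∧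
      tsupport κm ⊆ tsupport κ ∧ (∀ y, κ y = κp y + κm y) ∧ 0 < A ∧ ∀ L, A ≤ L →
      ∀ (ρ : ℝ → ℝ) (Ψ : V × V → ℂ), Tst ρ → tsupport ρ ⊆ Set.Icc (-b) b → Dc Ψ →
        tsupport Ψ ⊆ Metric.closedBall 0 R → (L : ℂ) * c.t0 (tri Ψ κ ρ L) =
          inner ℂ (Usc c.Q L 1 (c.Tv (hk va va (pr κp ρ)))) (wTT c.wp (sch Ψ)) +
          inner ℂ (wTT c.wm (sch fun z => star (Ψ z)))
            (Usc c.Q L 1 (c.Tv (hk va va (pr κm ρ)))) := by
  obtain ⟨κp, κm, A, a1, a2, a3, a4, a5, a6, a7⟩ := split h1 h0 R b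
  refine ⟨κp, κm, A, a1, a2, a3, a4, a5, a6, fun L hL ρ Ψ h2 h3 h4 h5 => ?_⟩
  have hL0 := a6.trans_le hL
  obtain ⟨b1, b2⟩ := a7 L hL ρ (legs Ψ) h3 fun y hy => norm_legs h5 hy
  rw [← triP hg a1 h2 h4 hL0 b1, ← triM hg a2 h2 h4 hL0 b2, ← mul_add, ← t0_add]
  congr 2
  ext z
  rw [SchwartzMap.add_apply, sch_apply (dc_tri h4 (dc_pr (tst_kL h1 hL0) h2)),
    sch_apply (dc_tri h4 (dc_pr (tst_kL a1 hL0) h2)),
    sch_apply (dc_tri h4 (dc_pr (tst_kL a2 hL0) h2))]
  simp only [pr, kL, a5]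
  push_cast
  ring

theorem far_thm [Fact c.tp] (hg : GRP c) (hb : BAS c) : FAR c where
  far κ ρ Ψ h1 h0 h2 h3 := by
    obtain ⟨R, hR⟩ := h3.2.isCompact.isBounded.subset_closedBall 0
    obtain ⟨b, hb'⟩ := h2.2.isCompact.isBounded.subset_closedBall 0
    obtain ⟨κp, κm, A, a1, a2, -, -, -, -, a7⟩ := far_fac hg h1 h0 R b
    have := (limP hg hb a1 h2 (wTT c.wp (sch Ψ))).add
      (limM hg hb a2 h2 (wTT c.wm (sch fun z => star (Ψ z))))
    rw [add_zero] at this
    refine this.congr' ?_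
    filter_upwards [eventually_ge_atTop A] with L hL
    refine (a7 L hL ρ Ψ h2 ?_ h3 hR).symm
    rwa [Real.closedBall_eq_Icc, zero_sub, zero_add] at hb'
  side u0 κ ρ Ψ h1 h2 h3 h4 h5 := by
    rcases h5 with h5 | h5
    · refine (limP hg hb h1 h2 (wTT c.wp (sch Ψ))).congr' ?_
      filter_upwards [eventually_gt_atTop (0 : ℝ)] with L hL
      refine (triP hg h1 h2 h3 hL (late_iff.2 fun x hx y hy _ a2 => ?_)).symm
      have b1 := (h4 (tsupport_pr _ _ hx).2).1
      rcases hy with ⟨z, hz, rfl⟩ | ⟨z, hz, rfl⟩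
      · linarith [(h5 hz).1]
      · linarith [(h5 hz).2]
    · refine (limM hg hb h1 h2 (wTT c.wm (sch fun z => star (Ψ z)))).congr' ?_
      filter_upwards [eventually_gt_atTop (0 : ℝ)] with L hL
      refine (triM hg h1 h2 h3 hL (late_iff.2 fun y hy x hx _ a2 => ?_)).symm
      have b1 := (h4 (tsupport_pr _ _ hx).2).2
      rcases hy with ⟨z, hz, rfl⟩ | ⟨z, hz, rfl⟩
      · linarith [(h5 hz).1]
      · linarith [(h5 hz).2]

end Far

theorem far_row {D : Type*} [NormedAddCommGroup D] [InnerProductSpace ℂ D] (c : Ctx D) [Fact c.tp] :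
    T3 c → FAR c := fun h => Far.far_thm h.grp h.bas

end

end Vale.Agent.P352X
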