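import Vale.Agent.P352X.R.CONT.B
import Vale.Agent.P352X.Api3c

/-!
# P352X, row CONT: the faces (helper34)
-/

set_option linter.all false

open MeasureTheory Filter Topology
open scoped SchwartzMap ComplexConjugate ENNReal ContDiff LineDeriv

namespace Vale.Agent.P352X

open Vale.Agent.P352 Vale.Agent.P352.GF Vale.Agent.P352.BW Vale.Agent.P352.H246
open Vale.Agent.P352.H496 Vale.Agent.P352.H755 Vale.Agent.P352.H15
open UniformSpace (Completion)
open Far

noncomputable section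

namespace Cont

lemma conf_eta : Conf (fun (p : V) m => eta m * p m) 1 :=
  ⟨⟨fun x y => funext fun m => mul_add _ _ _, fun t x => funext fun m => mul_left_comm _ _ _⟩,
    one_pos, fun x y => by simp [mdot_eq, eta, o]⟩

/-- Euclidean coordinates for the Minkowski product -/
def dat : FT.Dat V 4 where
  B := mdL
  symm := md_comm
  e := (EuclideanSpace.equiv (Fin 4) ℝ).symm
  σ := conf_eta.cle.trans (EuclideanSpace.equiv (Fin 4) ℝ).symm
  he := PiLp.volume_preserving_toLp (Fin 4)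
  hσ := (PiLp.volume_preserving_toLp (Fin 4)).comp
    (Sc.mp (A := fun (p : V) m => eta m * p m) (by simpa using conf_eta.sc)
      conf_eta.cont.measurable)
  hB p z := by
    simp only [mdL_apply, GF.mdot, PiLp.inner_apply]
    exact Finset.sum_congr rfl fun m _ => by simp

variable {D : Type*} [NormedAddCommGroup D] [InnerProductSpace ℂ D] {c : Ctx D}

/-- the norm of the trace on the vacuum -/
theorem Th_bd (h : ELL c) : ∃ C : ℝ, 0 ≤ C ∧ ∀ F : Sch,
    ‖c.Th (ev F)‖ ^ 2 ≤ C * ∫ z, ‖(∂_{va} (∂_{vb} F) : Sch) z‖ ^ 2 := by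
  obtain ⟨ell, c0, E⟩ := h
  have h0 := E.nonneg
  refine ⟨36 * c0 * (2 * Real.pi) ^ 4, by positivity, fun F => ?_⟩
  set G : Sch := ∂_{va} (∂_{vb} F)
  have e : ∀ p, FT.gft mdL G p = -((al p * be p : ℝ) : ℂ) * ft (ev F) p := fun p => by
    have h1 := FT.gft_deriv_sch (B := mdL) (∂_{vb} F : Sch) va p
    have h2 := FT.gft_deriv_sch (B := mdL) F vb p
    refine h1.trans ((congrArg _ h2).trans ?_)
    change _ = _ * FT.gft mdL F p
    simp only [mdL_apply, md_va', md_vb']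
    push_cast
    linear_combination (al p * be p * FT.gft mdL F p) * Complex.I_mul_I
  have b : ∀ᵐ p ∂volume.restrict Fc, ‖(mu p : ℂ) * ft (ev F) p‖ ≤ 2 * ‖FT.gft mdL G p‖ := by
    filter_upwards [ae_restrict_mem meas_Fc] with p hp
    have h1 := ((mem_Fc p).1 hp).2
    have h2 : mu p ≤ 2 * (al p * be p) := by linarith [mu_eq p, d2_nonneg (tx p)]
    rw [e, norm_mul, norm_mul, norm_neg, Complex.norm_real, Complex.norm_real, ← mul_assoc,
      Real.norm_of_nonneg h1.le, Real.norm_of_nonneg (by linarith)]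
    exact mul_le_mul_of_nonneg_right h2 (norm_nonneg _)
  have mG : MemLp (FT.gft mdL G) 2 volume := dat.memLp G 2 volume
  have mψ : MemLp (fun p => (mu p : ℂ) * ft (ev F) p) 2 (volume.restrict Fc) :=
    (mG.restrict Fc).of_le_mul (((Complex.continuous_ofReal.comp cont_mu).mul
      (dat.smooth F).continuous).aestronglyMeasurable) b
  have n := E.inn _ _ mψ mψ
  simp only [inner_self_eq_norm_sq_to_K, Complex.conj_mul', ← Complex.ofReal_pow,
    integral_complex_ofReal, ← Complex.ofReal_mul, Complex.coe_algebraMap,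
    Complex.ofReal_inj] at n
  have iG : Integrable fun p => ‖FT.gft mdL G p‖ ^ 2 := mG.integrable_norm_pow two_ne_zero
  have i1 : ∫ p in Fc, ‖(mu p : ℂ) * ft (ev F) p‖ ^ 2 ≤ ∫ p in Fc, 4 * ‖FT.gft mdL G p‖ ^ 2 :=
    integral_mono_ae (mψ.integrable_norm_pow two_ne_zero) (iG.const_mul 4).restrict
      (b.mono fun p hp => (pow_le_pow_left₀ (norm_nonneg _) hp 2).trans_eq (by ring))
  have i2 : ∫ p in Fc, 4 * ‖FT.gft mdL G p‖ ^ 2 ≤ ∫ p, 4 * ‖FT.gft mdL G p‖ ^ 2 :=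
    setIntegral_le_integral (iG.const_mul 4) (.of_forall fun p => by positivity)
  have i3 : ∫ p, ‖FT.gft mdL G p‖ ^ 2 = (2 * Real.pi) ^ 4 * ∫ z, ‖G z‖ ^ 2 :=
    dat.plancherel_norm G
  rw [integral_const_mul (μ := volume), i3] at i2
  rw [E.th _ ⟨F, rfl⟩, norm_smul, mul_pow, n]
  have := mul_le_mul_of_nonneg_left (i1.trans i2) h0
  simp only [norm_neg, Complex.norm_ofNat]
  linarith

lemma fderiv_pr {f : P3 → ℝ} {φ : ℝ → ℝ} (hf : Tst f) (hφ : Tst φ) (z y : V) :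
    fderiv ℝ (pr f φ) z y = ((fderiv ℝ f (pl z) (pl y) * φ (be z) +
      f (pl z) * (deriv φ (be z) * be y) : ℝ) : ℂ) := by
  have h1 := (hf.diff (pl z)).hasFDerivAt.comp z plL.hasFDerivAt
  have h2 := (hφ.diff (be z)).hasDerivAt.hasFDerivAt.comp z beL.hasFDerivAt
  have h3 := Complex.ofRealCLM.hasFDerivAt.comp z (h1.mul h2)
  rw [show fderiv ℝ (pr f φ) z = _ from h3.fderiv]
  simp
  ring

/-- `‖Θ(f φ) Ω‖ ≤ C ‖∂_al f‖ ‖φ'‖` -/
theorem Th_pr (h : ELL c) : ∃ C : ℝ, 0 ≤ C ∧ ∀ (f : P3 → ℝ) (φ : ℝ → ℝ), Tst f → Tst φ →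
    ‖c.Th (pr f φ)‖ ^ 2 ≤ C * ((∫ y, fderiv ℝ f y (1, 0) ^ 2) * ∫ t, deriv φ t ^ 2) := by
  obtain ⟨C, C0, hC⟩ := Th_bd h
  refine ⟨C, C0, fun f φ hf hφ => ?_⟩
  have hd := dc_pr hf hφ
  have hφ' : Tst (deriv φ) := hφ.fd 1
  have e1 : ((∂_{vb} (sch (pr f φ)) : Sch) : V → ℂ) = pr f (deriv φ) := by
    funext z
    rw [SchwartzMap.lineDerivOp_apply_eq_fderiv, sch_coe hd, fderiv_pr hf hφ,
      show pl vb = 0 from Prod.ext al_vb tx_vb]
    simp [pr]
  have := hC (sch (pr f φ))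
  rw [ev, sch_coe hd] at this
  refine this.trans_eq ?_
  rw [← integral_pl_be]
  congr 2 with z
  rw [SchwartzMap.lineDerivOp_apply_eq_fderiv, e1, fderiv_pr hf hφ',
    show pl va = (1, 0) from Prod.ext al_va tx_va, be_va, mul_zero, mul_zero, add_zero,
    Complex.norm_real, Real.norm_eq_abs, sq_abs, mul_pow]

lemma deriv_stp {θ : ℝ → ℝ} (h : Bump θ) (t : ℝ) :
    deriv (stp θ) t = if 0 < t then -deriv θ t else 0 := by
  split_ifs with h0
  · rw [← deriv_const_sub 1]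
    refine EventuallyEq.deriv_eq ?_
    filter_upwards [lt_mem_nhds h0] with s hs
    exact if_pos hs
  · rw [← deriv_const t (0 : ℝ)]
    refine EventuallyEq.deriv_eq ?_
    filter_upwards [gt_mem_nhds ((not_lt.1 h0).trans_lt one_pos)] with s hs
    exact stp_lo h hs.le

lemma deriv_abv {θ1 θ : ℝ → ℝ} (h1 : Tst θ1) (h : Bump θ) {δ : ℝ} (hδ : 0 < δ) (t : ℝ) :
    δ * deriv (abv θ1 θ δ) t =
      δ * (deriv θ1 t * stp θ (t / δ)) + θ1 t * deriv (stp θ) (t / δ) := by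
  have a := (((smooth_stp h).differentiable (by simp)) (t / δ)).hasDerivAt.comp t
    ((hasDerivAt_id t).div_const δ)
  rw [abv_eq _ _ hδ, show deriv (fun t => θ1 t * stp θ (t / δ)) t = _ from
    ((h1.diff t).hasDerivAt.mul a).deriv]
  simp only [Function.comp_apply, id]
  field_simp

lemma bd_stp {θ : ℝ → ℝ} (h : Bump θ) :
    ∃ A B : ℝ, (∀ t, |stp θ t| ≤ A) ∧ ∀ t, |deriv (stp θ) t| ≤ B := by
  have h' : Tst (deriv θ) := h.1.fd 1
  obtain ⟨A, hA⟩ := h.1.cont.bounded_above_of_compact_support h.1.2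
  obtain ⟨B, hB⟩ := h'.cont.bounded_above_of_compact_support h'.2
  refine ⟨1 + A, B, fun t => ?_, fun t => ?_⟩
  · have := hA t
    rw [Real.norm_eq_abs] at this
    unfold stp
    split_ifs
    · exact (abs_sub _ _).trans (by rw [abs_one]; linarith)
    · rw [abs_zero]; linarith [abs_nonneg (θ t)]
  · rw [deriv_stp h]
    split_ifs
    · rw [abs_neg]; exact hB t
    · rw [abs_zero]; exact (norm_nonneg _).trans (hB t)

lemma ev_stp {θ : ℝ → ℝ} (h : Bump θ) (t : ℝ) :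
    ∀ᶠ δ in 𝓝[>] (0 : ℝ), deriv (stp θ) (t / δ) = 0 := by
  have h' : Tst (deriv θ) := h.1.fd 1
  rcases lt_or_ge 0 t with h0 | h0
  · have l3 : Tendsto (fun δ : ℝ => t * δ⁻¹) (𝓝[>] 0) (cocompact ℝ) :=
      (tendsto_inv_nhdsGT_zero.const_mul_atTop h0).mono_right atTop_le_cocompact
    filter_upwards [l3.eventually h'.2.isCompact.compl_mem_cocompact] with δ hδ
    rw [deriv_stp h, div_eq_mul_inv, image_eq_zero_of_notMem_tsupport hδ, neg_zero, ite_self]
  · filter_upwards [self_mem_nhdsWithin] with δ hδ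
    rw [deriv_stp h, if_neg (not_lt.2 (div_nonpos_of_nonpos_of_nonneg h0 (le_of_lt hδ)))]

lemma lim_abv {θ1 θ : ℝ → ℝ} (h1 : Tst θ1) (h : Bump θ) :
    Tendsto (fun δ => ∫ t, (δ * deriv (abv θ1 θ δ) t) ^ 2) (𝓝[>] 0) (𝓝 0) := by
  have h1' : Tst (deriv θ1) := h1.fd 1
  obtain ⟨A, B, a1, a2⟩ := bd_stp h
  have hc : Continuous fun t => (|deriv θ1 t| * A + |θ1 t| * B) ^ 2 :=
    ((h1'.cont.abs.mul continuous_const).add (h1.cont.abs.mul continuous_const)).pow 2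
  have hs : HasCompactSupport fun t => (|deriv θ1 t| * A + |θ1 t| * B) ^ 2 :=
    HasCompactSupport.intro (h1'.2.isCompact.union h1.2.isCompact) fun t ht => by
      rw [image_eq_zero_of_notMem_tsupport fun h => ht (.inl h),
        image_eq_zero_of_notMem_tsupport fun h => ht (.inr h)]
      simp
  have b1 : ∀ᶠ δ in 𝓝[>] (0 : ℝ), ∀ᵐ t, ‖(δ * deriv (abv θ1 θ δ) t) ^ 2‖ ≤
      (|deriv θ1 t| * A + |θ1 t| * B) ^ 2 := by
    filter_upwards [Ioc_mem_nhdsGT one_pos] with δ hδ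
    refine .of_forall fun t => ?_
    rw [Real.norm_of_nonneg (sq_nonneg _), deriv_abv h1 h hδ.1, ← sq_abs]
    refine pow_le_pow_left₀ (abs_nonneg _) ((abs_add_le _ _).trans (add_le_add ?_ ?_)) 2
    · rw [abs_mul, abs_mul, abs_of_pos hδ.1]
      exact (mul_le_of_le_one_left (by positivity) hδ.2).trans
        (mul_le_mul_of_nonneg_left (a1 _) (abs_nonneg _))
    · rw [abs_mul]
      exact mul_le_mul_of_nonneg_left (a2 _) (abs_nonneg _)
  have b2 : ∀ t, Tendsto (fun δ => (δ * deriv (abv θ1 θ δ) t) ^ 2) (𝓝[>] 0) (𝓝 0) := fun t => by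
    have l0 : Tendsto (fun δ : ℝ => δ * (|deriv θ1 t| * A)) (𝓝[>] 0) (𝓝 0) :=
      ((continuous_id.mul continuous_const).tendsto' 0 0 (zero_mul _)).mono_left nhdsWithin_le_nhds
    have l1 : Tendsto (fun δ : ℝ => δ * (deriv θ1 t * stp θ (t / δ))) (𝓝[>] 0) (𝓝 0) := by
      refine squeeze_zero_norm' ?_ l0
      filter_upwards [self_mem_nhdsWithin] with δ hδ
      rw [Real.norm_eq_abs, abs_mul, abs_mul, abs_of_pos hδ]
      exact mul_le_mul_of_nonneg_left (mul_le_mul_of_nonneg_left (a1 _) (abs_nonneg _)) (le_of_lt hδ)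
    have l4 := l1.pow 2
    rw [zero_pow two_ne_zero] at l4
    refine l4.congr' ?_
    filter_upwards [ev_stp h t, self_mem_nhdsWithin] with δ h2 hδ
    rw [deriv_abv h1 h hδ, h2, mul_zero, add_zero]
  have := tendsto_integral_filter_of_dominated_convergence _ (.of_forall fun δ =>
    (((measurable_deriv (abv θ1 θ δ)).const_mul δ).pow_const 2).aestronglyMeasurable) b1
    (hc.integrable_of_hasCompactSupport hs) (.of_forall b2)
  rwa [integral_zero] at this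

theorem small (h : ELL c) {f : P3 → ℝ} {θ1 θ : ℝ → ℝ} (hf : Tst f) (h1 : Tst θ1) (hθ : Bump θ) :
    Tendsto (fun δ : ℝ => (δ : ℂ) • c.Th (pr f (abv θ1 θ δ))) (𝓝[>] 0) (𝓝 0) := by
  obtain ⟨C, C0, hC⟩ := Th_pr h
  have l := ((lim_abv h1 hθ).const_mul (C * ∫ y, fderiv ℝ f y (1, 0) ^ 2)).sqrt
  rw [mul_zero, Real.sqrt_zero] at l
  refine squeeze_zero_norm' ?_ l
  filter_upwards [self_mem_nhdsWithin] with δ hδ
  refine Real.le_sqrt_of_sq_le ?_
  simp only [norm_smul, mul_pow, integral_const_mul, Complex.norm_real, Real.norm_eq_abs, sq_abs]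
  refine (mul_le_mul_of_nonneg_left (hC f _ hf (tst_abv h1 hθ hδ)) (sq_nonneg δ)).trans_eq ?_
  ring

theorem lo2 (h : ELL c) {f g : P3 → ℝ} {θ1 θ φ : ℝ → ℝ} (hf : Tst f) (h1 : Tst θ1) (hθ : Bump θ) :
    Tendsto (fun δ : ℝ => (δ : ℂ) * c.PF (pr f (abv θ1 θ δ)) (pr g φ)) (𝓝[>] 0) (𝓝 0) := by
  have k : ∀ {f : P3 → ℝ}, Tst f → ∀ v : Completion D,
      Tendsto (fun δ : ℝ => (δ : ℂ) * inner ℂ (c.Th (pr f (abv θ1 θ δ))) v) (𝓝[>] 0) (𝓝 0) :=
    fun hf v => by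
      simpa only [inner_smul_left, Complex.conj_ofReal, inner_zero_left] using
        (small h hf h1 hθ).inner (𝕜 := ℂ) (tendsto_const_nhds (x := v))
  simp only [PF_pr, Fin.sum_univ_two, mul_add, mul_sub]
  simpa only [add_zero, sub_zero] using ((k hf _).sub (((k (tst_xi hf 0) _).add (k hf _)).add
    ((k (tst_xi hf 1) _).add (k hf _)))).add ((k (tst_xi hf 0) _).add (k (tst_xi hf 1) _))

end Cont

theorem cont_row {D : Type*} [NormedAddCommGroup D] [InnerProductSpace ℂ D] (c : Ctx D) [Fact c.tp] :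
    T3 c → FAR c → CONM c → CONK c → CONT c := fun h hF hM hK =>
  ⟨fun κ f g ρ θ1 θ φ hκ hf hg hρ hρ' h1 hθ hφ hφ' =>
    ⟨Cont.lo1 hF hM hK hκ hf hg hρ hρ' h1 hθ hφ hφ', Cont.lo2 h.ell hf h1 hθ⟩,
  fun κ f g ρ θ1 θ φ hκ hf hg hρ hρ' h1 hθ hφ hφ' =>
    ⟨Cont.hi1 h.toT2 hF hM hK hκ hf hg hρ hρ' h1 hθ hφ hφ',
      (Cont.lo2 h.ell (Cont.tst_mj hf) (Cont.tst_ng h1) hθ).congr' (by
        filter_upwards [self_mem_nhdsWithin] with δ hδ
        rw [Cont.PF_hi h.toT2 hf hg h1 hθ hφ hφ' hδ])⟩⟩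

end

end Vale.Agent.P352X
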