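import Vale.Agent.P352X.R.GRP.B
import Vale.Agent.P352X.R.GRP.C

/-!
# P352X, row GRP
-/

set_option linter.all false

namespace Vale.Agent.P352X

open Vale.Agent.P352 Vale.Agent.P352.GF Vale.Agent.P352.BW

variable {D : Type*} [NormedAddCommGroup D] [InnerProductSpace ℂ D]

/-- **row GRP** -/
theorem grp_row (c : Ctx D) : GRP c where
  na := Grp.na
  nb := Grp.nb
  nab := Grp.nab
  uni := Grp.uni c.bR
  vac := Grp.vac c.bR
  mul _ _ a _ _ a' := Grp.ug_mul c.bR a a'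
  coe _ _ a v hs hL := Grp.coe hs hL a v
  cont _ _ _ _ _ _ _ _ v := Grp.cont c.bR v
  alg _ _ a O hs hL := Grp.alg c.hN hs hL a O
  lsc _ _ := Grp.lsc
  lga := Grp.lga
  lgb := Grp.lgb
  ut0 := Grp.ut0
  ut := Grp.ut c.bR
  sc1 := Grp.sc1
  sc _ _ _ _ := Grp.sc c.bR
  ga0 := Grp.ga0
  ga := Grp.ga c.bR
  gb0 := Grp.gb0
  gb := Grp.gb c.bR
  sc_ut _ _ := Grp.sc_ut c.bR
  ga_ut := Grp.ga_ut c.bR
  gb_ut := Grp.gb_ut c.bR
  sc_ga _ _ := Grp.sc_ga c.bR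
  sc_gb _ _ := Grp.sc_gb c.bR
  sc_S _ _ := Grp.sc_S c.hS.toGrp0
  ga_S := Grp.ga_S c.hS.toGrp0
  pa_S := Grp.pa_S c.hS
  S_ut := Grp.S_ut c.bR c.hS
  S_uni _ t ha := Grp.S_uni c.hS.toGrp0 ha t
  ten _ _ a h k _ v := Grp.ten c.hT a h k v
  th _ _ a _ v := Grp.th c.hT a v
  pot _ _ a _ := Grp.pot c.bR c.hl a
  perp m n _ := Grp.perp c.hT m n
  perpl _ := Grp.perpl c.hl
  cons h _ v := Grp.cons c.hT h v
  trace _ v := Grp.trace c.hT v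
  afft _ _ := Grp.afft c.hN c.hT
  affh _ _ := Grp.affh c.hN c.hT
  affa _ _ _ := Grp.affa c.hN
  rs _ := c.hN.cyc
  md _ := Grp.md c.hN c.hS.toGrp0
  geo _ _ := Grp.geo c.hS.toGrp0

end Vale.Agent.P352X
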