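import Vale.Agent.P352X.R.CONM.E
import Vale.Agent.P352X.R.GRP.C
import Vale.Agent.P352X.Api2c

/-!
# P352X, row CONM: the first moments (helper90)
-/

set_option linter.all false

open MeasureTheory Filter Topology Set
open scoped SchwartzMap ComplexConjugate ContDiff

namespace Vale.Agent.P352X

open Vale.Agent.P352 Vale.Agent.P352.GF Vale.Agent.P352.BW Vale.Agent.P352.H246
open Vale.Agent.P352.H496 Vale.Agent.P352.H755 Vale.Agent.P352.H15
open UniformSpace (Completion)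
open Complex (I)

noncomputable section

namespace Conm

/-- primitives, cut off far above -/
lemma prim {ρ : ℝ → ℝ} (h : Tst ρ) {b : ℝ} (hb : tsupport ρ ⊆ Ici b) (b0 : ℝ) :
    ∃ A A1 : ℝ → ℝ, Tst A ∧ Tst A1 ∧ (deriv A = fun t => ρ t + A1 t) ∧ tsupport A ⊆ Ici b ∧
      tsupport A1 ⊆ Ioi b0 := by
  have hc := h.1.continuous
  set Ψ : ℝ → ℝ := fun t => ∫ s in b..t, ρ s with hΨ
  have d1 : ∀ t, HasDerivAt Ψ (ρ t) t := fun t => (hc.integral_hasStrictDerivAt b t).hasDerivAt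
  have s1 : ContDiff ℝ ∞ Ψ := contDiff_infty_iff_deriv.2 ⟨fun t => (d1 t).differentiableAt, by
    rw [show deriv Ψ = ρ from funext fun t => (d1 t).deriv]
    exact h.1⟩
  have z1 : ∀ t ≤ b, ρ t = 0 := fun t ht =>
    closure_minimal (s := Iio b) (t := {t | ρ t = 0})
      (fun s hs => image_eq_zero_of_notMem_tsupport fun h' => not_le.2 (mem_Iio.1 hs) (mem_Ici.1 (hb h')))
      (isClosed_eq hc continuous_const) (by rwa [closure_Iio])
  have z2 : ∀ t ≤ b, Ψ t = 0 := fun t ht => intervalIntegral.integral_zero_ae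
    (ae_of_all _ fun s hs => z1 s (by rw [uIoc_of_ge ht] at hs; exact hs.2))
  set R := |b| + |b0| + 1 with hR
  obtain ⟨η, e1, -, e3, -⟩ := Ap.ex_chi (isCompact_Icc (a := -R) (b := R)) isOpen_univ
    (subset_univ _)
  refine ⟨fun t => η t * Ψ t, fun t => deriv η t * Ψ t + (η t - 1) * ρ t, tst_mul_r e1 s1,
    tst_add (tst_mul_r (tst_deriv e1) s1) (tst_mul_l (e1.1.sub contDiff_const) h), ?_, ?_, ?_⟩
  · funext t
    rw [((tst_diff e1 t).hasDerivAt.fun_mul (d1 t)).deriv]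
    ring
  · refine closure_minimal (fun t ht => ?_) isClosed_Ici
    by_contra h'
    exact right_ne_zero_of_mul ht (z2 t (not_le.1 h').le)
  · refine (closure_minimal (fun t ht => ?_) (isClosed_Ici (a := R))).trans
      (Ici_subset_Ioi.2 (by linarith [le_abs_self b0, abs_nonneg b]))
    by_contra h'
    refine ht ?_
    rcases le_total t b with h1 | h1
    · simp [z1 t h1, z2 t h1]
    · have h2 := e3 t ⟨by linarith [neg_abs_le b, abs_nonneg b0], (not_le.1 h').le⟩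
      have h3 : η =ᶠ[𝓝 t] fun _ => 1 := h2
      simp [h3.deriv_eq, h2.self_of_nhds]

lemma tst_bd {E : Type*} [NormedAddCommGroup E] [NormedSpace ℝ E] {g : E → ℝ} (h : Tst g) :
    ∃ M, 0 ≤ M ∧ ∀ x, |g x| ≤ M := by
  obtain ⟨M, hM⟩ := h.1.continuous.bounded_above_of_compact_support h.2
  exact ⟨M, (norm_nonneg _).trans (hM 0), hM⟩

lemma l1_le {F : V → ℝ} {f : P3 → ℝ} {φ : ℝ → ℝ} (hf : Tst f) (hφ : Tst φ) {M : ℝ}
    (h : ∀ z, |F z| ≤ M * |rp f φ z|) : ∫ z, |F z| ≤ M * ((∫ y, |f y|) * ∫ t, |φ t|) := by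
  have h1 := tst_rp hf hφ
  rw [← integral_pl_be, ← integral_const_mul]
  refine integral_mono_of_nonneg (ae_of_all _ fun _ => abs_nonneg _) ?_
    (ae_of_all _ fun z => (h z).trans_eq (by simp only [rp, abs_mul]))
  simpa only [rp, abs_mul] using
    (h1.1.continuous.integrable_of_hasCompactSupport h1.2).abs.const_mul M

variable {D : Type*} [NormedAddCommGroup D] [InnerProductSpace ℂ D] {c : Ctx D}

/-- the two point function of the trace is bounded by the `L¹` norm -/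
lemma th_bd (hg : GRP c) (hp : POLY c) {f : Fn} (hf : IsTest f) : ∃ C : ℝ, 0 ≤ C ∧
    ∀ g : V → ℝ, Tst g → ‖inner ℂ (c.Th (cx g)) (c.Th f)‖ ≤ C * ∫ z, |g z| := by
  obtain ⟨f, rfl⟩ := hf
  let O : Sch →L[ℂ] Completion D := ∑ j, (eta j : ℂ) •
    (Completion.toComplL (𝕜 := ℂ) (E := D)).comp (Grp.fC (T_fld c j j) c.Q.vac)
  have eO : ∀ g, O g = c.Th (ev g) := fun g => by
    simp only [O, ContinuousLinearMap.sum_apply, ContinuousLinearMap.smul_apply,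
      ContinuousLinearMap.comp_apply, Grp.fC_apply, Ctx.Th, Thf_eq, coe_sum', Completion.coe_smul]
    rfl
  have hO : CovM c.Q 0 ((4 : ℤ) : ℝ) fun _ => O := ⟨fun μ s L a f g hs hL e => ⟨0, by
    have e' : ev g = fun x => ev f (sim s L a x) := funext e
    have := hg.th s L a _ c.Q.vac hs hL ⟨f, rfl⟩
    rw [c.Q.U_vac _ _ _ hs hL] at this
    simp only [eO, Ctx.Th, ← Ug_apply c.Q hs hL, hg.coe _ _ _ _ hs hL, e', this]
    simp⟩⟩
  obtain ⟨q, hq⟩ := ex_ov hp hO (by decide)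
  obtain ⟨C, h0, hC⟩ := hq.bd f
  refine ⟨C, h0, fun g h => ?_⟩
  have := hC default (sr g)
  rw [eO, ev_sr h] at this
  rw [norm_inner_symm]
  refine this.trans_eq ?_
  congr 2
  funext z
  rw [show sr g z = cx g z from congrFun (ev_sr h) z]
  simp [cx]

variable {w : I2 → I2 → S2 →L[ℂ] Completion D}

/-- `w(T_aa((x1 - x2)_i g φ), Θ(u))` -/
def XX (w : I2 → I2 → S2 →L[ℂ] Completion D) (i : Fin 2) (g : P3 → ℝ) (φ : ℝ → ℝ) (u : V → ℝ) :
    Completion D := wT w va va (PP (rp (xm i g) φ) u) - wT w va va (PP (rp g φ) (xv i u))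

lemma pair_eq {κ f : P3 → ℝ} {ρ θ1 θ : ℝ → ℝ} (i : Fin 2) (hκ : Tst κ) (hf : Tst f) (hρ : Tst ρ)
    (h1 : Tst θ1) (hθ : Bump θ) {δ L : ℝ} (hδ : 0 < δ) (hL : 0 < L) :
    w0 w (pairF (fun x => x i) κ f ρ θ1 δ L) =
      XX w i (kL κ L) (dlt δ ρ) (rp f (abv θ1 θ δ)) + XX w i (kL κ L) (dlt δ ρ) (rp f (blw θ1 θ δ)) +
        XX w i (kL κ L) (dlt δ ρ) (rp f fun t => θ1 t * dil δ θ t) := by
  have k1 := Far.tst_kL hκ hL
  have k2 := Ap.tst_dlt hρ hδ.ne'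
  have u1 := tst_rp hf (Ap.tst_abv h1 hθ hδ)
  have u2 := tst_rp hf (Ap.tst_blw h1 hθ hδ)
  have u3 := tst_rp hf (tst_mul_r h1 (Ap.smooth_dil hθ.1.1 δ))
  simp only [XX, w0_eq, ← map_sub, ← map_add]
  congr 1
  ext z
  simp only [SchwartzMap.add_apply, SchwartzMap.sub_apply,
    Ap.pairF_apply (W := fun x => x i) (by fun_prop) hκ hf hρ h1 hδ.ne' hL,
    PP_ap (tst_rp (tst_xm i k1) k2) u1, PP_ap (tst_rp (tst_xm i k1) k2) u2,
    PP_ap (tst_rp (tst_xm i k1) k2) u3, PP_ap (tst_rp k1 k2) (tst_xv i u1),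
    PP_ap (tst_rp k1 k2) (tst_xv i u2), PP_ap (tst_rp k1 k2) (tst_xv i u3)]
  simp only [rp, xm, xv, dil, pl_2, Pi.sub_apply, ← Complex.ofReal_sub, ← Complex.ofReal_add]
  congr 1
  linear_combination (tx z.1 i - tx z.2 i) * (kL κ L (pl z.1) * dlt δ ρ (be z.1)) * f (pl z.2) *
    Ap.abv_split hθ θ1 δ (be z.2)

/-- the part above the plane -/
lemma above (hpw : PW c) (hw : TP2 c.Q c.T false w) {κ : P3 → ℝ} {ρ : ℝ → ℝ} {u : V → ℝ} {f : Fn}
    (i : Fin 2) (hκ : Cut κ) (hρ : Tst ρ) (hu : Tst u) {u0 : ℝ} (hf : In {z | be z < -u0} f)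
    (s1 : tsupport ρ ⊆ Ioo (-u0) u0) (s2 : tsupport u ⊆ {z | u0 < be z}) :
    Tendsto (fun L => inner ℂ (XX w i (kL κ L) ρ u) (c.Th f)) atTop
      (𝓝 ((∫ t, ρ t : ℝ) * inner ℂ (c.Th (cx u)) (gen (Mi c.Q i) (c.Th f)) -
        (∫ t, t * ρ t : ℝ) * inner ℂ (c.Th (cx u)) (gen (fun t => Ut c.Q (t • ex i)) (c.Th f)) -
        (∫ t, ρ t : ℝ) * inner ℂ (c.Th (cx (xv i u))) (gen (Pa c.Q) (c.Th f)))) := by
  have hu' := tst_xv i hu
  have s3 : tsupport (xv i u) ⊆ {z | u0 < be z} := tsupport_mul_subset_right.trans s2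
  have t1 := (hpw u0 _ f κ ρ (in_cx hu s2) hf hκ hρ s1).2 i
  have t2 := (hpw u0 _ f κ ρ (in_cx hu' s3) hf hκ hρ s1).1
  rw [bar_cx] at t1 t2
  refine (t1.sub t2).congr' ?_
  filter_upwards [eventually_gt_atTop 0] with L hL
  have k1 := Far.tst_kL hκ.1 hL
  have l : ∀ (g : P3 → ℝ) (v : V → ℝ), tsupport v ⊆ {z | u0 < be z} →
      Late (tsupport v) (tsupport (rp g ρ)) := fun g v hv =>
    late_be fun x hx y hy => (s1 (supp_rp hy).2).2.trans (hv hx)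
  rw [XX, inner_sub_left, Ctx.Th, Ctx.Th, Ctx.Th,
    facB hw va va (tst_rp (tst_xm i k1) hρ) hu (l _ _ s2),
    facB hw va va (tst_rp k1 hρ) hu' (l _ _ s3), Completion.inner_coe, Completion.inner_coe]
  rfl

/-- the part below the plane -/
lemma below (hg : GRP c) (hw : TP2 c.Q c.T false w) {κ : P3 → ℝ} {ρ : ℝ → ℝ} {u : V → ℝ} {f : Fn}
    (i : Fin 2) (hκ : Tst κ) (hρ : Tst ρ) (hu : Tst u) (hf : IsTest f) {b : ℝ}
    (s1 : tsupport ρ ⊆ Ioi b) (s2 : tsupport u ⊆ {z | be z ≤ b}) :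
    Tendsto (fun L => inner ℂ (XX w i (kL κ L) ρ u) (c.Th f)) atTop (𝓝 0) := by
  have t1 := errU hg hw wt_a wt_a (p := 0 + 1) (by norm_num) (tst_xm i hκ) hρ hu hf s1 s2
  have t2 := errU hg hw wt_a wt_a (p := 0) (by norm_num) hκ hρ (tst_xv i hu) hf s1
    (tsupport_mul_subset_right.trans s2)
  have t := t1.sub t2
  rw [sub_zero] at t
  refine t.congr' ?_
  filter_upwards [eventually_gt_atTop 0] with L hL
  rw [XX, inner_sub_left, ← gz_xm hL, ← gz_0]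

/-- the thin part -/
lemma thin (hg : GRP c) (hs : STRUCT c) (hp : POLY c) (hw : TP2 c.Q c.T false w) {κ f : P3 → ℝ}
    {ρ θ1 θ : ℝ → ℝ} {f3 : Fn} (i : Fin 2) (hκ : Cut κ) (hf : Tst f) (hρ : Tst ρ)
    (sρ : tsupport ρ ⊆ Ici (-1)) (h1 : Tst θ1) (hθ : Tst θ) (h3 : IsTest f3) :
    ∃ C : ℝ, ∀ δ ∈ Ioc (0 : ℝ) 1, In {z | be z < -δ} f3 → ∀ η > 0, ∀ᶠ L in atTop,
      ‖inner ℂ (XX w i (kL κ L) (dlt δ ρ) (rp f fun t => θ1 t * dil δ θ t)) (c.Th f3)‖ ≤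
        C * δ + η := by
  obtain ⟨C, hC0, hC⟩ := contact hg hs hp hw i h3
  obtain ⟨R, hR⟩ := hθ.2.isCompact.isBounded.exists_norm_le
  obtain ⟨A, A1, a1, a2, a3, a4, a5⟩ := prim hρ sρ R
  obtain ⟨B, B1, b1, b2, b3, b4, b5⟩ := prim a1 a4 R
  obtain ⟨MA, m1, hMA⟩ := tst_bd a1
  obtain ⟨MB, m2, hMB⟩ := tst_bd b1
  obtain ⟨M1, m3, hM1⟩ := tst_bd h1
  refine ⟨C * ((MA + MB) * M1 * ((∫ y, |f y|) * ∫ t, |θ t|)), fun δ ⟨hδ, hδ1⟩ hf3 η hη => ?_⟩
  have hδ' := hδ.ne'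
  have u0 := tst_rp hf (tst_mul_r h1 (Ap.smooth_dil hθ.1 δ))
  set u := rp f fun t => θ1 t * dil δ θ t with hu
  have c1 : ∀ {φ : ℝ → ℝ}, tsupport φ ⊆ Ici (-1) → tsupport (dil δ φ) ⊆ Ici (-δ) :=
    fun h t ht => by
      have : -1 ≤ t / δ := h (Ap.tsupport_dil δ _ ht)
      rw [le_div_iff₀ hδ] at this
      show -δ ≤ t
      linarith
  have c2 : ∀ {φ : ℝ → ℝ}, tsupport φ ⊆ Ioi R → tsupport (dil δ φ) ⊆ Ioi (R * δ) :=
    fun h t ht => (lt_div_iff₀ hδ).1 (h (Ap.tsupport_dil δ _ ht))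
  have su : tsupport u ⊆ {z | be z ≤ R * δ} := fun z hz => by
    have := hR _ (Ap.tsupport_dil δ _ (tsupport_mul_subset_right (supp_rp hz).2))
    exact (div_le_iff₀ hδ).1 ((le_abs_self _).trans this)
  have hB : Tst fun t => δ * dil δ B t := tst_mul_l contDiff_const (Ap.tst_dil b1 hδ')
  have eB : deriv (fun t => δ * dil δ B t) = fun t => dil δ A t + dil δ B1 t := by
    funext t
    rw [deriv_const_mul_field, Ap.deriv_dil, b3, mul_div_cancel₀ _ hδ']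
    rfl
  have t := thin_lim hg hw hκ i (Ap.tst_dlt hρ hδ') (Ap.tst_dil a1 hδ') (Ap.tst_dlt a2 hδ') hB
    (Ap.tst_dil b2 hδ') u0 hf3 (funext fun t => by rw [Ap.deriv_dil, a3, add_div]; rfl) eB
    (c1 a4) (tsupport_mul_subset_right.trans (c1 b4))
    (by rw [Ap.dlt_eq]; exact tsupport_mul_subset_right.trans (c2 a5)) (c2 b5) su
  have j0 : ∫ t, |dil δ θ t| = δ * ∫ t, |θ t| := Ap.integral_dil hδ fun t => |θ t|
  have j1 : ∀ (φ : ℝ → ℝ) (M : ℝ), 0 ≤ M → (∀ t, |φ t| ≤ M) → ∫ z, |φ (be z) * u z| ≤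
      M * M1 * ((∫ y, |f y|) * (δ * ∫ t, |θ t|)) := fun φ M hM h => by
    rw [← j0]
    refine l1_le hf (Ap.tst_dil hθ hδ') fun z => ?_
    simp only [hu, rp, abs_mul]
    calc _ = |φ (be z)| * |θ1 (be z)| * (|f (pl z)| * |dil δ θ (be z)|) := by ring
      _ ≤ _ := by gcongr; exacts [h _, hM1 _]
  have j2 := j1 (dil δ A) MA m1 fun t => hMA _
  have j3 := j1 (fun t => δ * dil δ B t) MB m2 fun t => by
    rw [abs_mul, abs_of_pos hδ]
    exact (mul_le_of_le_one_left (abs_nonneg _) hδ1).trans (hMB _)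
  filter_upwards [eventually_gt_atTop 0, Ap.kL_one_on hκ hf.2.isCompact.isBounded,
    (tendsto_zero_iff_norm_tendsto_zero.1 t).eventually (eventually_le_nhds hη)] with L hL h4 h5
  have h6 := hC (kL κ L) _ _ u (Far.tst_kL hκ.1 hL) (Ap.tst_dil a1 hδ') hB u0
    (fun z hz => h4 _ (supp_rp hz).1) fun z => by
      rw [eB, add_mul, add_eq_left]
      by_cases hz : z ∈ tsupport u
      · rw [image_eq_zero_of_notMem_tsupport (f := dil δ B1) fun h =>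
          not_lt.2 (show be z ≤ R * δ from su hz) (mem_Ioi.1 (c2 b5 h)), zero_mul]
      · rw [image_eq_zero_of_notMem_tsupport hz, mul_zero]
  refine (norm_le_insert _ _).trans (add_le_add (h6.trans ?_) h5)
  rw [mul_assoc]
  gcongr
  linarith

lemma small (hg : GRP c) (hp : POLY c) {g : Fn} (h3 : IsTest g) {f : P3 → ℝ} {θ1 θ : ℝ → ℝ}
    (hf : Tst f) (h1 : Tst θ1) (hθ : Bump θ) (m : ℝ) : ∃ C : ℝ, ∀ δ : ℝ, 0 < δ →
      ‖((δ * m : ℝ) : ℂ) * inner ℂ (c.Th (cx (rp f (abv θ1 θ δ)))) (I • c.Th g)‖ ≤ C * δ := by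
  obtain ⟨C, p2, hC⟩ := th_bd hg hp h3
  obtain ⟨M, pM, hM⟩ := tst_bd hθ.1
  refine ⟨|m| * (C * ((1 + M) * ((∫ y, |f y|) * ∫ t, |θ1 t|))), fun δ hδ => ?_⟩
  have b : ∫ z, |rp f (abv θ1 θ δ) z| ≤ (1 + M) * ((∫ y, |f y|) * ∫ t, |θ1 t|) := by
    refine l1_le hf h1 fun z => ?_
    simp only [rp, abv, abs_mul]
    split_ifs
    · have : |1 - θ (be z / δ)| ≤ 1 + M :=
        (abs_sub _ _).trans (by rw [abs_one]; linarith [hM (be z / δ)])
      rw [abs_mul]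
      calc _ = |1 - θ (be z / δ)| * (|f (pl z)| * |θ1 (be z)|) := by ring
        _ ≤ _ := by gcongr
    · rw [abs_zero, mul_zero]
      positivity
  have b' := (hC _ (tst_rp hf (Ap.tst_abv h1 hθ hδ))).trans (mul_le_mul_of_nonneg_left b p2)
  rw [inner_smul_right, norm_mul, norm_mul, Complex.norm_I, one_mul, Complex.norm_real,
    Real.norm_eq_abs, abs_mul, abs_of_pos hδ, mul_assoc, mul_comm δ]
  exact mul_le_mul_of_nonneg_right (mul_le_mul_of_nonneg_left b' (abs_nonneg m)) hδ.le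

end Conm

open Conm in
theorem conm_row {D : Type*} [NormedAddCommGroup D] [InnerProductSpace ℂ D] (c : Ctx D) :
    T3 c → CONM c := by
  intro h w κ f ρ θ1 θ f3 i hw hκ hf hρ sρ h1 hθ h3 η hη
  have hg := h.grp
  obtain ⟨C1, hC1⟩ := thin hg h.struct h.poly hw i hκ hf hρ
    (fun t ht => le_trans (by norm_num) (sρ ht).1) h1 hθ.1 h3.1
  obtain ⟨C3, hC3⟩ := small hg h.poly (Ap.test_dv (ex i) h3.1) hf h1 hθ (∫ t, t * ρ t)
  obtain ⟨r, hr, hr'⟩ := h3.2.1.isCompact.exists_forall_le' (f := fun z => -be z) (a := 0)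
    cont_be.neg.continuousOn fun z hz => neg_pos.2 (h3.2.2 hz)
  have t0 : Tendsto (fun δ : ℝ => (C1 + C3) * δ) (𝓝[>] 0) (𝓝 0) :=
    (Continuous.tendsto' (by fun_prop) 0 0 (by simp)).mono_left nhdsWithin_le_nhds
  filter_upwards [Ioo_mem_nhdsGT (lt_min hr one_pos), t0.eventually
    (eventually_le_nhds (by positivity : 0 < η / 4))] with δ ⟨hδ, hδ'⟩ hδη
  have hδr := (lt_min_iff.1 hδ').1
  have k2 := Ap.tst_dlt hρ hδ.ne'
  have s2 := Ap.tsupport_dlt_Icc sρ hδ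
  have u1 := tst_rp hf (Ap.tst_abv h1 hθ hδ)
  have u2 := tst_rp hf (Ap.tst_blw h1 hθ hδ)
  have i3 : ∀ s, s ≤ δ → In {z | be z < -s} f3 := fun s hs =>
    ⟨h3.1, h3.2.1, fun z hz => show be z < -s by linarith [hr' z hz]⟩
  have ta := above h.pw hw i hκ k2 u1 (i3 (3 / 4 * δ) (by linarith))
    (fun t ht => ⟨by linarith [(s2 ht).1], by linarith [(s2 ht).2]⟩) fun z hz =>
      show 3 / 4 * δ < be z by
        linarith [show δ ≤ be z from (Ap.tsupport_abv h1 hθ hδ (supp_rp hz).2).1]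
  have tb := below hg hw i hκ.1 k2 u2 h3.1 (b := -δ)
    (fun t ht => show -δ < t by linarith [(s2 ht).1])
    fun z hz => (Ap.tsupport_blw h1 hθ hδ (supp_rp hz).2).1
  have e1 : ∫ t, t * dlt δ ρ t = δ * ∫ t, t * ρ t := by
    rw [← Ap.integral_dlt hδ fun t => t * ρ t, ← integral_const_mul]
    congr 1
    funext t
    simpa using Ap.pow_dlt hδ.ne' 1 ρ t
  have e2 : xv i (rp f (abv θ1 θ δ)) = rp (fun y => y.2 i * f y) (abv θ1 θ δ) := by
    funext z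
    simp only [xv, rp, pl_2, mul_assoc]
  rw [Ap.integral_dlt hδ, e1, e2, (h.gen.uth (ex i) f3 h3.1).gen_eq'] at ta
  have b1 := hC3 δ hδ
  have hη4 : 0 < η / 4 := by positivity
  filter_upwards [eventually_gt_atTop 0, hC1 δ ⟨hδ, (lt_min_iff.1 hδ').2.le⟩ (i3 δ le_rfl) _ hη4,
    (tendsto_iff_norm_sub_tendsto_zero.1 ta).eventually (eventually_le_nhds hη4),
    (tendsto_zero_iff_norm_tendsto_zero.1 tb).eventually (eventually_le_nhds hη4)]
    with L hL q1 q2 q3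
  rw [pair_eq i hκ.1 hf hρ h1 hθ hδ hL, inner_add_left, inner_add_left]
  have key : ∀ x y z a b d m : ℂ, x + y + z - m * (a - d) = x - (m * a - b - m * d) + y + z - b :=
    fun _ _ _ _ _ _ _ => by ring
  rw [Conm.pr_eq, Conm.pr_eq, key]
  refine (norm_sub_le _ _).trans ((add_le_add ((norm_add_le _ _).trans (add_le_add
    ((norm_add_le _ _).trans (add_le_add q2 q3)) q1)) b1).trans ?_)
  linarith

end

end Vale.Agent.P352X
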