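import Vale.Agent.P352X.Main0
import Mathlib.RingTheory.MvPolynomial.EulerIdentity
import Mathlib.Algebra.MvPolynomial.Division

/-!
# P352X: row NULL
-/

set_option linter.all false

namespace Vale.Agent.P352X

open Vale.Agent.P352 Vale.Agent.P352.GF MvPolynomial

namespace Nul

theorem eta_ne (m : Ix) : (eta m : ℂ) ≠ 0 := by
  unfold eta; split_ifs <;> norm_num

theorem eta_sq (m : Ix) : (eta m : ℂ) * eta m = 1 := by
  unfold eta; split_ifs <;> norm_num

theorem not_dvd : ¬ (X 0 : MvPolynomial Ix ℂ) ∣ mup := by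
  rintro ⟨g, h⟩
  have := congrArg (eval (Pi.single 1 1 : Ix → ℂ)) h
  simp [mup, Fin.sum_univ_four] at this
  exact eta_ne 1 (by simp [this])

theorem mup_ne : mup ≠ 0 := fun h => not_dvd (h ▸ dvd_zero _)

theorem pderiv_mup (s : Ix) : pderiv s mup = 2 * (C (eta s : ℂ) * X s) := by
  simp only [mup, map_sum, pderiv_C_mul, pderiv_pow, pderiv_X, Pi.single_apply]
  rw [Finset.sum_eq_single s (fun b _ h => by simp [h]) (by simp)]
  simp
  ring

theorem dvd_of (f : MvPolynomial Ix ℂ) (h : mup ∣ f * X 0) : mup ∣ f := by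
  obtain ⟨g, h⟩ := h
  obtain ⟨c, rfl⟩ := ((X_prime (i := (0 : Ix))).dvd_or_dvd (h ▸ dvd_mul_left (X 0) f)).resolve_left
    not_dvd
  exact ⟨c, mul_right_cancel₀ (X_ne_zero 0) (by rw [h]; ring)⟩

theorem trick {U : Ix → MvPolynomial Ix ℂ} {e : ℕ} {ν : MvPolynomial Ix ℂ}
    (hU : ∀ k, (U k).IsHomogeneous e) (hd : ∑ s, C (eta s : ℂ) * X s * U s = mup * ν)
    (hS : ∀ s k, mup ∣ U s * X k - U k * X s) (k : Ix) :
    mup ∣ (∑ s, pderiv s (U s) - 2 * ν) * X k - C ((e : ℂ) + 1) * U k := by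
  choose S hS using hS
  have h1 : ∑ s, C (eta s : ℂ) * X s * S s k = ν * X k - U k := by
    refine mul_left_cancel₀ mup_ne ?_
    rw [Finset.mul_sum, mul_sub, ← mul_assoc, ← hd, Finset.sum_mul]
    conv_rhs => rw [mup, Finset.sum_mul, ← Finset.sum_sub_distrib]
    exact Finset.sum_congr rfl fun s _ => by linear_combination (-(C (eta s : ℂ) * X s)) * hS s k
  have h2 : ∀ s, pderiv s (U s) * X k + U s * pderiv s (X k) - (X s * pderiv s (U k) + U k) =
      2 * (C (eta s : ℂ) * X s * S s k) + mup * pderiv s (S s k) := fun s => by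
    have := congrArg (pderiv s) (hS s k)
    rw [map_sub, pderiv_mul, pderiv_mul, pderiv_mul, pderiv_X_self, pderiv_mup] at this
    linear_combination this
  have h3 := Finset.sum_congr rfl fun s (_ : s ∈ Finset.univ) => h2 s
  have h4 : ∑ s, U s * pderiv s (X k) = U k := by
    rw [Finset.sum_eq_single k (fun b _ h => by rw [pderiv_X_of_ne h.symm, mul_zero]) (by simp),
      pderiv_X_self, mul_one]
  simp only [Finset.sum_sub_distrib, Finset.sum_add_distrib, ← Finset.sum_mul, ← Finset.mul_sum,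
    h1, h4, (hU k).sum_X_mul_pderiv, Finset.sum_const, Finset.card_univ, Fintype.card_fin,
    nsmul_eq_mul] at h3
  refine ⟨∑ s, pderiv s (S s k), ?_⟩
  rw [map_add, map_natCast, map_one]
  push_cast at h3
  linear_combination h3

theorem exists_sigma {d : ℕ} {π : Ix → Ix → MvPolynomial Ix ℂ}
    (h1 : ∀ r s, (π r s).IsHomogeneous d) (h2 : ∀ r s, π r s = π s r)
    (h3 : ∀ s, ∑ r, C (eta r : ℂ) * X r * π r s = 0)
    (h4 : ∀ r s k, mup ∣ π r s * X k - π k s * X r) :
    ∃ σ : MvPolynomial Ix ℂ, ∀ r s, mup ∣ π r s - X r * (X s * σ) := by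
  have c : ∀ (n : ℕ) {f g : MvPolynomial Ix ℂ}, mup ∣ f - C ((n : ℂ) + 1) * g →
      mup ∣ g - C ((n : ℂ) + 1)⁻¹ * f := fun n f g h => by
    have e : C ((n : ℂ) + 1)⁻¹ * C ((n : ℂ) + 1) = (1 : MvPolynomial Ix ℂ) := by
      rw [← map_mul, inv_mul_cancel₀ (Nat.cast_add_one_ne_zero n), map_one]
    convert h.mul_left (-C ((n : ℂ) + 1)⁻¹) using 1
    linear_combination (-g) * e
  have k1 : ∀ s k, mup ∣ (∑ r, pderiv r (π r s)) * X k - C ((d : ℂ) + 1) * π k s := fun s k => by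
    simpa using trick (ν := 0) (fun k => h1 k s) (by rw [h3, mul_zero]) (fun r k => h4 r s k) k
  generalize hV : (fun s => ∑ r, pderiv r (π r s)) = V
  replace k1 : ∀ s k, mup ∣ V s * X k - C ((d : ℂ) + 1) * π k s := hV ▸ k1
  rcases d with _ | e
  · refine ⟨0, fun r s => ?_⟩
    have : V s = 0 := hV ▸ Finset.sum_eq_zero fun r _ => by
      rw [totalDegree_eq_zero_iff_eq_C.1 ((totalDegree_zero_iff_isHomogeneous _).2 (h1 r s)), pderiv_C]
    simpa [this] using c 0 (k1 s r)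
  have k2 : ∀ k, (V k).IsHomogeneous e := fun k =>
    hV ▸ IsHomogeneous.sum _ _ _ fun r _ => (h1 r k).pderiv
  obtain ⟨ν, k3⟩ : mup ∣ ∑ s, C (eta s : ℂ) * X s * V s := dvd_of _ (by
    have := Finset.dvd_sum fun s (_ : s ∈ Finset.univ) => (k1 s 0).mul_left (C (eta s : ℂ) * X s)
    simp only [mul_sub, Finset.sum_sub_distrib, mul_left_comm _ (C (((e + 1 : ℕ) : ℂ) + 1)),
      ← Finset.mul_sum, h2 0, h3, mul_zero, sub_zero] at this
    simpa only [← mul_assoc, ← Finset.sum_mul] using this)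
  have k4 := fun k => c e (trick k2 k3 (fun s k => by
    convert (k1 s k).sub (k1 k s) using 1
    rw [h2 k s]; ring) k)
  refine ⟨C (((e + 1 : ℕ) : ℂ) + 1)⁻¹ * (C ((e : ℂ) + 1)⁻¹ * (∑ s, pderiv s (V s) - 2 * ν)),
    fun r s => ?_⟩
  convert (c (e + 1) (k1 s r)).add ((k4 s).mul_left (C (((e + 1 : ℕ) : ℂ) + 1)⁻¹ * X r)) using 1
  ring

end Nul

theorem null_row : NULL := by
  intro Λ d π w F h1 h2 h3 h4 _ _ h7 h8
  obtain ⟨σ, hσ⟩ := Nul.exists_sigma h1 h2 h3 h4
  choose g hg using hσ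
  have k1 : ∀ r s, Λ (mup * g r s) (w r s) = 0 := fun r s => by
    have := congrArg (Λ (g r s)) (h7 r s)
    rw [map_sum, map_zero] at this
    rw [mup, Finset.sum_mul, map_sum, LinearMap.sum_apply, ← this]
    refine Finset.sum_congr rfl fun i _ => ?_
    rw [mul_assoc, C_mul', C_mul', map_smul, map_smul, LinearMap.smul_apply, pow_two, mul_assoc,
      F.adj1, F.adj1, ← mul_assoc, Nul.eta_sq, one_mul]
  have := congrArg (Λ σ) h8
  rw [map_zero, Finset.sum_comm, map_sum] at this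
  rw [← this, Finset.sum_comm]
  refine Finset.sum_congr rfl fun s _ => ?_
  rw [map_sum]
  refine Finset.sum_congr rfl fun r _ => ?_
  rw [eq_add_of_sub_eq (hg r s), map_add, LinearMap.add_apply, k1, zero_add, mul_left_comm, F.adj1,
    F.adj1, C_mul', map_smul, smul_eq_mul]
  ring

end Vale.Agent.P352X
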