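import Vale.Agent.P352X.R.D1.Sm
import Vale.Agent.P352X.R.G1.A

/-!
# P352X, row D1: the trace of the defect of locality on the null plane vanishes
-/

set_option linter.all false

open MeasureTheory Filter Topology Set
open scoped SchwartzMap ComplexConjugate ContDiff

namespace Vale.Agent.P352X

open Vale.Agent.P352 Vale.Agent.P352.GF Vale.Agent.P352.H755 Vale.Agent.P352.H246
  Vale.Agent.P352.H496
open Th Ap Ib
open UniformSpace (Completion)
open Complex (I)

noncomputable section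

namespace D1

variable {g : P3 → ℂ} {φ : ℝ → ℝ}

lemma dc_da (hg : Dc g) : Dc (da g) := cs_fderiv _ hg

lemma dc_pf (hg : Dc g) (hφ : Tst φ) : Dc (pf g (cx φ)) :=
  cs_hom plE.toHomeomorph plE.contDiff (cs_prod hg (dc_cx hφ))

lemma supp_pf (g : P3 → ℂ) (φ : ℝ → ℝ) :
    tsupport (pf g (cx φ)) ⊆ {z | pl z ∈ tsupport g ∧ be z ∈ tsupport φ} :=
  tsupp_sub (((isClosed_tsupport g).preimage cont_pl).inter ((isClosed_tsupport φ).preimage cont_be))
    fun z h => ⟨subset_tsupport _ (left_ne_zero_of_mul h),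
      subset_tsupport _ (Complex.ofReal_ne_zero.1 (right_ne_zero_of_mul h))⟩

lemma dv_pf (hg : Dc g) (hφ : Tst φ) : dv va (pf g (cx φ)) = pf (da g) (cx φ) := by
  funext z
  have d := fun y => (hg.1.differentiable (by simp) y)
  rw [G1.dv_eq ((dc_pf hg hφ).1.differentiable (by simp) z),
    ← ((dc_pf hg hφ).1.differentiable (by simp) z).lineDeriv_eq_fderiv, pf, da,
    ← (d _).lineDeriv_eq_fderiv, lineDeriv, lineDeriv, ← deriv_mul_const_field]
  simp [pf, pl]

lemma bar_pf (hg : Dc g) (φ : ℝ → ℝ) :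
    bar (pf (da g) (cx φ)) = pf (da fun y => conj (g y)) (cx φ) := by
  funext z
  have h := (Complex.conjCLE : ℂ →L[ℝ] ℂ).hasFDerivAt.comp (pl z)
    (hg.1.differentiable (by simp) (pl z)).hasFDerivAt
  rw [bar, pf, pf, da, da, show fderiv ℝ (fun y => conj (g y)) (pl z) = _ from h.fderiv]
  simp [cx]

/-- the parabolic shift -/
def sf (r : ℝ) : P3 ≃ₜ P3 where
  toFun y := (y.1 + r * d2 y.2 y.2, y.2)
  invFun y := (y.1 - r * d2 y.2 y.2, y.2)
  left_inv y := by simp
  right_inv y := by simp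
  continuous_toFun := by fun_prop
  continuous_invFun := by fun_prop

lemma dc_sf (hg : Dc g) (r : ℝ) : Dc fun y => g (sf r y) :=
  cs_hom (sf r) (show ContDiff ℝ ∞ fun y : P3 => (y.1 + r * d2 y.2 y.2, y.2) by fun_prop) hg

lemma da_sf (hg : Dc g) (r : ℝ) (y : P3) : da (fun y => g (sf r y)) y = da g (sf r y) := by
  rw [da, da, ← ((dc_sf hg r).1.differentiable (by simp) _).lineDeriv_eq_fderiv,
    ← (hg.1.differentiable (by simp) _).lineDeriv_eq_fderiv, lineDeriv, lineDeriv]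
  simp [sf, add_right_comm]

variable {D : Type*} [NormedAddCommGroup D] [InnerProductSpace ℂ D] {c : Ctx D}

lemma wed (z : V) : (z ∈ Wed GF.one 0 1 ↔ z ∈ Wdg va vb 0) ∧
    (z ∈ Wed GF.one 0 (-1) ↔ z ∈ Wdg vb va 0) := by
  simp only [Wed, Wdg, sim_ut, add_zero, mem_setOf_eq, exists_eq_right', sub_zero, md_va, md_vb,
    al_eq, be_eq, abs_lt]
  constructor <;> constructor <;> rintro ⟨a, b⟩ <;> constructor <;> linarith

lemma pr_wdg (jc : JC c) {f : Fn} (hf : In (Wdg va vb 0) f) :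
    Pr (c.N (Rc 0 0)) c.Om (c.l f) (c.l (bar f)) := by
  have e : Rc 0 0 = Wdg va vb 0 := by
    ext z
    simp [Rc, HM.Rg, Wdg]
  rw [e]
  refine jc.core va vb 0 _ _ null_va null_vb (by rw [md_ab]; exact one_pos) fun X X' hX =>
    c.wl GF.one 0 f X X' H496.isLor_one ?_ ?_
  · rwa [Set.ext fun z => (wed z).1]
  · rwa [Set.ext fun z => (wed z).2]

lemma key (t : T3 c) (hs : SCH c) (hy : YZ c) {r : ℝ} (hr : 0 ≤ r) (hg : Dc g) :
    Tendsto (fun n => c.l (pf (da g) (cx (Ph n))) -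
      c.SK r (c.l (pf (da fun y => g (sf r y)) (cx (Ph n))))) atTop (𝓝 0) := by
  obtain ⟨ell, c0, h⟩ := t.ell
  have := haar3
  obtain ⟨cc, dd, S⟩ := hs ell c0 h
  have m : ∀ {g : P3 → ℂ}, Dc g → MemLp (ft3 (da g)) 2 mP := fun hg =>
    (l2 (sw_ft3 (dc_sw (dc_da hg)))).restrict _
  have nr : ∀ {g : P3 → ℂ} (hg : Dc g), Tendsto (fun n => La h (m hg) (S1 (Ph n)) -
      c.l (pf (da g) (cx (Ph n)))) atTop (𝓝 0) := fun hg => by
    obtain ⟨C, hC⟩ := near h (dc_sw hg) (m hg)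
    have := (Ph_sq.const_mul C).sqrt
    rw [mul_zero, Real.sqrt_zero] at this
    exact squeeze_zero_norm (fun n => Real.le_sqrt_of_sq_le
      (hC _ (Ph_tst n) (dc_sw (dc_pf (dc_da hg) (Ph_tst n))))) this
  have hγ : MemLp (ft3 g) 2 m3 := mem_m3.2 ⟨(sw_cont (sw_ft3 (dc_sw hg))).aestronglyMeasurable, by
    refine ((m hg).const_mul I).ae_eq (.of_forall fun k => ?_)
    simp only [ft3_da (dc_sw hg)]
    linear_combination (-(k.1 * ft3 g k)) * Complex.I_mul_I⟩
  have h1 := small t.kt S hγ h (m hg) (ft3_da (dc_sw hg)) (hy ell c0 cc dd h S th th_bump) hr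
  have h2 : ∀ n, c.S0 r (La h (m (dc_sf hg r)) (S1 (Ph n))) = La h (m hg) (S1 (Ph n)) := fun n => by
    have := h.s0 r (sch (da fun y => g (sf r y))) (sch (da g))
      (fun b u => ft1 (S1 (Ph n)) (u / (2 * b)))
      ((sw_cont (sw_ft1 (sw_coe _))).measurable.comp (by fun_prop))
      (fun y => by rw [sch_dc (dc_da hg), sch_dc (dc_da (dc_sf hg r)), da_sf hg]; simp [sf])
    rw [coe_sch (dc_sw (dc_da hg)), coe_sch (dc_sw (dc_da (dc_sf hg r)))] at this
    rw [La_apply, La_apply]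
    exact (this (mem_prod (m (dc_sf hg r)) ((l2 (sw_ft1 (sw_coe _))).restrict _))).2
  have := (((c.SK r).continuous.tendsto 0).comp (nr (dc_sf hg r))).sub (nr hg) |>.sub h1
  rw [map_zero, sub_zero, sub_zero] at this
  refine this.congr fun n => ?_
  rw [Function.comp, map_sub, (t.kt.comm 0 r).2, ContinuousLinearMap.mul_apply, h2]
  abel

end D1

open D1

variable {D : Type*} [NormedAddCommGroup D] [InnerProductSpace ℂ D]

/-- row D1 -/
theorem d1_row (c : Ctx D) : T3 c → SCH c → YZ c → D1 c := by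
  intro t hs hy
  refine ⟨Ph, ∫ t, |et t|, fun n => ⟨Ph_tst n, Ph_supp n, Ph_int n, Ph_abs n⟩, Ph_sq,
    fun r hr Z hZ g hg sg => ?_⟩
  have h1 := (tendsto_const_nhds (x := star Z c.Om)).inner (𝕜 := ℂ) (key t hs hy hr hg)
  have h2 := (key t hs hy hr (dc_conj hg)).inner (𝕜 := ℂ) (tendsto_const_nhds (x := Z c.Om))
  have h3 := h1.sub h2
  rw [inner_zero_right, inner_zero_left, sub_zero] at h3
  refine h3.congr fun n => ?_
  have d := dc_pf (dc_da (dc_sf hg r)) (Ph_tst n)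
  have p := t.kd.b 0 r _ _ le_rfl hr (pr_wdg t.jc ⟨dc_sw d, d.2, fun z hz => by
    obtain ⟨a, b⟩ := supp_pf _ _ hz
    have := sg (tsupport_comp_subset_preimage g (sf r).continuous
      (tsupport_fderiv_apply_subset ℝ _ a))
    exact ⟨by simpa [md_va] using (Ph_supp n b).2, by simpa [sf, md_vb] using this⟩⟩) Z hZ
  rw [sub_zero, bar_pf (dc_sf hg r)] at p
  rw [Ctx.bb, dv_pf hg (Ph_tst n), bar_pf hg, inner_sub_right, inner_sub_left, p]
  ring

end

end Vale.Agent.P352X
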