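import Vale.Agent.P352X.R.DD.An
import Vale.Agent.P352X.R.D1.ThA
import Vale.Agent.P352X.R.JC.A2
import Vale.Agent.P352X.Api1C
import Vale.Agent.P352X.Main0

/-!
# P352X, row DD: the potential is local in forward cut cones (helper24)
-/

set_option linter.all false

noncomputable section

open MeasureTheory Filter Topology Set
open scoped ContDiff ComplexConjugate

namespace Vale.Agent.P352X

open Vale.Agent.P352 Vale.Agent.P352.GF Vale.Agent.P352.BW Vale.Agent.P352.H496
open Vale.Agent.P352.H246 (In box)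
open Vale.Agent.P352.H755 Vale.Agent.P352X.Ap
open UniformSpace (Completion)

variable {D : Type*} [NormedAddCommGroup D] [InnerProductSpace ℂ D] {c : Ctx D}

namespace Dd

lemma ex_l (h : ELL c) (v : Completion D) :
    ∃ b : Fn, MemLp b 2 ∧ ∀ f, IsTest f → inner ℂ v (c.l f) = ∫ z, b z * f z := by
  obtain ⟨ell, c0, E⟩ := h
  obtain ⟨b, m, hb⟩ := Th.riesz E v
  obtain ⟨b', m', -, hb'⟩ := ft_l2_dual (b := Fc.indicator fun p => conj (b p))
    ((memLp_indicator_iff_restrict meas_Fc).2 m.star)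
  refine ⟨b', m', fun f hf => ?_⟩
  rw [← hb' f hf, ← inner_conj_symm, ← E.pot f hf, hb _ (memLp_ft hf _), ← integral_conj,
    ← integral_indicator meas_Fc]
  refine integral_congr_ae (.of_forall fun p => ?_)
  by_cases k : p ∈ Fc <;> simp [k, mul_comm]

/-- the defect is a square integrable function -/
lemma ex_b (h : ELL c) (Z : Completion D →L[ℂ] Completion D) :
    ∃ b : Fn, MemLp b 2 ∧ ∀ f, IsTest f → c.bb Z f = ∫ z, b z * f z := by
  obtain ⟨b1, m1, h1⟩ := ex_l h (star Z c.Om)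
  obtain ⟨b2, m2, h2⟩ := ex_l h (Z c.Om)
  refine ⟨fun z => b1 z - conj (b2 z), m1.sub m2.star, fun f hf => ?_⟩
  rw [Ctx.bb, h1 f hf, ← inner_conj_symm, h2 _ (test_bar hf), ← integral_conj]
  simp only [sub_mul, bar, map_mul, RCLike.star_def, Complex.conj_conj]
  exact (integral_sub (m1.integrable_mul (test_memLp hf 2))
    (m2.star.integrable_mul (test_memLp hf 2))).symm

lemma box_bar {f : Fn} (hf : ContDiff ℝ ∞ f) : box (bar f) = bar (box f) := by
  have k : ∀ {f : Fn}, ContDiff ℝ ∞ f → ∀ h, dv h (bar f) = bar (dv h f) := fun hf h =>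
    funext fun z => dv_bar (hf.differentiable (by simp) z) h
  funext z
  rw [box_eq (f := bar f) (Complex.conjCLE.contDiff.comp hf)]
  simp only [k hf, k (smooth_dv hf _)]
  simp [bar, box_eq hf]

lemma pr_box (G : GRP c) {O : Set V} {f : Fn} (hf : In O f) :
    Pr (c.N O) c.Om (c.l (box f)) (c.l (bar (box f))) := by
  have e : ∀ f, IsTest f → c.l (box f) = ((3⁻¹ : ℝ) : ℂ) • c.Th f := fun f hf => by
    rw [show c.Th f = (3 : ℂ) • c.l (box f) from (c.hl.trace f hf).symm, smul_smul]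
    simp
  rw [← box_bar (in_dc hf).1, e _ hf.1, e _ (test_bar hf.1)]
  exact (G.pr_Th hf).csmul _

theorem std (T : T3 c) (d1 : D1 c) {r : ℝ} (hr : 0 < r) {f : Fn} (hf : In (Rc r 0) f) :
    Pr (c.N (Rc r 0)) c.Om (c.l f) (c.l (bar f)) := fun Z hZ => by
  obtain ⟨Φ, C, h1, h2, h3⟩ := d1
  obtain ⟨b, hb, e⟩ := ex_b T.ell Z
  refine sub_eq_zero.1 ((e f hf.1).trans (core T.uq hb hr (fun u hu => ?_) h1 h2
    (fun g hg hs => ?_) hf))
  · exact (e _ (test_box hu.1)).symm.trans (sub_eq_zero.2 (pr_box T.grp hu Z hZ))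
  · exact (h3 r hr.le Z hZ g hg hs).congr fun n =>
      e _ (test_dv _ (test_pf hg (dc_cx (h1 n).1)))

end Dd

/-- **Row DD.** -/
theorem dd_row (c : Ctx D) : T3 c → D1 c → DD c := fun T d1 a b r y f ha hb hab hr hf => by
  obtain ⟨L, s, t, hL, hs, ht, h1, h2⟩ := JCa.rl ha hb (hab ▸ one_pos)
  have h3 : s * t = 1 := by
    have := md_LL hL va vb
    rwa [h1, h2, md_smul, md_smul_l, hab, md_ab, mul_one, mul_comm] at this
  have h4 := HM.Rg_img (b := vb) (c := r / s) one_pos hs hL h1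
  rw [h2, smul_smul, h3, one_smul, div_one, mul_div_cancel₀ _ hs.ne'] at h4
  have h5 : ∀ x, x ∈ Rc (r / s) 0 ↔ sim 1 L y x - y ∈ HM.Rg a b r := fun x => by
    rw [HM.sim_at 1 L y, add_sub_cancel_right, ← h4, Rc, mem_setOf_eq, sub_zero]
    exact (Function.Injective.mem_set_image fun u v k => by
      rw [← linv_sim u hL, k, linv_sim v hL]).symm
  have h6 := T.grp.pr_ug (O' := {z | z - y ∈ HM.Rg a b r}) (Dd.std T d1 (div_pos hr hs)
    (in_mono (in_sim one_pos hL y hf) fun x hx => (h5 x).2 hx)) y one_pos hL fun x hx => (h5 x).1 hx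
  have h7 := fun g hg => T.grp.pot 1 L y g one_pos hL hg
  simp only [one_pow, inv_one, one_smul] at h7
  exact h6.cast (h7 f hf.1).symm (h7 _ (test_bar hf.1)).symm

end Vale.Agent.P352X

end
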