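import Vale.Agent.P352X.R.EE.F
import Vale.Agent.P352X.R.CONK.Kp
import Vale.Agent.P352X.R.CONK.Smv

/-!
# P352X, row EE: the operators `K_y` are quadratic along `b`
-/

set_option linter.all false

open MeasureTheory Filter Topology Set
open scoped SchwartzMap ComplexConjugate ContDiff

namespace Vale.Agent.P352X

open Vale.Agent.P352 Vale.Agent.P352.GF Vale.Agent.P352.BW Vale.Agent.P352.H246
open Vale.Agent.P352.H496 Vale.Agent.P352.H755 Vale.Agent.P352.H15
open Vale.Agent.P132 (jconj)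
open UniformSpace (Completion)

noncomputable section

namespace EE

/-- a smooth version of the positive part of `t ^ 2 / 2` -/
def N3 (t : ℝ) : ℝ := kp (2 - t) * (t ^ 2 / 2)

lemma sm_N3 : ContDiff ℝ ∞ N3 := by
  unfold N3
  fun_prop

lemma N3l {t : ℝ} (h : t ≤ 0) : N3 t = 0 := by rw [N3, kp0 (by linarith), zero_mul]

lemma N3r {t : ℝ} (h : 1 ≤ t) : N3 t = t ^ 2 / 2 := by rw [N3, kp1 (by linarith), one_mul]

lemma d2l {t : ℝ} (h : t < 0) : deriv (deriv N3) t = 0 :=
  der0 ((eventually_lt_nhds h).mono fun _ k => der0 ((eventually_lt_nhds k).mono fun _ k => N3l k.le))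

lemma d2r {t : ℝ} (h : 1 < t) : deriv (deriv N3) t = 1 := by
  have e : deriv N3 =ᶠ[𝓝 t] id := (eventually_gt_nhds h).mono fun s k => by
    have e : N3 =ᶠ[𝓝 s] fun t => t ^ 2 / 2 := (eventually_gt_nhds k).mono fun _ k => N3r k.le
    rw [e.deriv_eq, (((hasDerivAt_id' s).fun_pow 2).div_const 2).deriv]
    simp
  rw [e.deriv_eq, deriv_id]

lemma d3 {t : ℝ} (h : deriv (deriv (deriv N3)) t ≠ 0) : t ∈ Icc (0 : ℝ) 1 :=
  ⟨not_lt.1 fun k => h (der0 ((eventually_lt_nhds k).mono fun _ => d2l)),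
    not_lt.1 fun k => h (der0 ((eventually_gt_nhds k).mono fun _ => d2r))⟩

lemma d_sum {f : ℝ → ℝ} (hf : ContDiff ℝ ∞ f) (a u : Fin 3 → ℝ) (ε : ℝ) :
    deriv (fun t => ∑ i, a i * f ((t - u i) / ε)) =
      fun t => ∑ i, a i / ε * deriv f ((t - u i) / ε) := by
  funext t
  refine HasDerivAt.deriv (HasDerivAt.fun_sum fun i _ => ?_)
  exact (((hf.differentiable (by simp) _).hasDerivAt.comp t
    (((hasDerivAt_id' t).sub_const (u i)).div_const ε)).const_mul (a i)).congr_deriv (by ring)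

/-- from third derivatives of steps to second divided differences -/
lemma three {F : ℝ → ℂ} {p : ℂ} {u0 : ℝ} (hF : ContinuousOn F (Icc (-u0) u0))
    (h : ∀ R : ℝ → ℝ, ContDiff ℝ ∞ R → (∀ t ≤ -u0, R t = 0) → (∀ t ≥ u0, R t = 1) →
      ∫ u, ((deriv (deriv (deriv R)) u : ℝ) : ℂ) * F u = p) {a u : Fin 3 → ℝ}
    (hu : ∀ i, u i ∈ Ioo (-u0) u0) (h0 : ∑ i, a i = 0) (h1 : ∑ i, a i * u i = 0)
    (h2 : ∑ i, a i * u i ^ 2 = 2) : ∑ i, (a i : ℂ) * F (u i) = p := by
  have k0 : -u0 ≤ u0 := ((hu 0).1.trans (hu 0).2).le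
  set g := deriv (deriv (deriv N3))
  have cg : Continuous g := (sm_d (sm_d (sm_d sm_N3))).continuous
  set F' := fun t => F (max (-u0) (min u0 t))
  have cF : Continuous F' := hF.comp_continuous (by fun_prop) fun t =>
    ⟨le_max_left _ _, max_le k0 (min_le_left _ _)⟩
  have eF : ∀ t ∈ Icc (-u0) u0, F' t = F t := fun t ht => by
    simp only [F', min_eq_right ht.2, max_eq_right ht.1]
  set G := fun ε : ℝ => ∑ i, (a i : ℂ) * ∫ v in (-1 : ℝ)..2, (g v : ℂ) * F' (u i + ε * v)
  have cG : Continuous G := continuous_finsetSum _ fun i _ => continuous_const.mul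
    (intervalIntegral.continuous_parametric_intervalIntegral_of_continuous' (by
      unfold Function.uncurry
      fun_prop) _ _)
  have G0 : G 0 = ∑ i, (a i : ℂ) * F (u i) := Finset.sum_congr rfl fun i _ => by
    simp only [zero_mul, add_zero]
    rw [intervalIntegral.integral_mul_const, intervalIntegral.integral_ofReal,
      intervalIntegral.integral_deriv_eq_sub (fun t _ => (sm_d (sm_d sm_N3)).differentiable
        (by simp) t) (cg.intervalIntegrable _ _), d2r one_lt_two, d2l (by norm_num),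
      eF _ (Ioo_subset_Icc_self (hu i))]
    simp
  have ev : ∀ᶠ ε in 𝓝[>] (0 : ℝ), ∀ i, u i + ε < u0 := eventually_all.2 fun i =>
    ((Continuous.tendsto' (by fun_prop) 0 (u i) (add_zero _)).eventually
      (eventually_lt_nhds (hu i).2)).filter_mono nhdsWithin_le_nhds
  rw [← G0]
  refine tendsto_nhds_unique (cG.continuousAt.mono_left (nhdsWithin_le_nhds (s := Ioi 0)))
    (tendsto_const_nhds.congr' ?_)
  filter_upwards [ev, self_mem_nhdsWithin] with ε k (e0 : 0 < ε)
  have := h (fun t => ∑ i, a i * ε ^ 2 * N3 ((t - u i) / ε)) (ContDiff.sum fun i _ =>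
    contDiff_const.mul (sm_N3.comp (by fun_prop))) (fun t ht => Finset.sum_eq_zero fun i _ => by
      rw [N3l (div_nonpos_of_nonpos_of_nonneg (by linarith [(hu i).1]) e0.le), mul_zero])
    fun t ht => by
      rw [Finset.sum_congr rfl fun i _ => by rw [N3r ((one_le_div e0).2 (by linarith [k i]))]]
      simp only [Fin.sum_univ_three] at *
      field_simp
      linear_combination t ^ 2 * h0 - 2 * t * h1 + h2
  rw [d_sum sm_N3, d_sum (sm_d sm_N3), d_sum (sm_d (sm_d sm_N3))] at this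
  rw [← this]
  set H := fun (i : Fin 3) (v : ℝ) => (g v : ℂ) * F' (u i + ε * v)
  have sH : ∀ i, Function.support (H i) ⊆ Ioc (-1) 2 := fun i v hv => by
    have := d3 (t := v) fun k => hv (by simp only [H, g, k, Complex.ofReal_zero, zero_mul])
    exact ⟨by linarith [this.1], by linarith [this.2]⟩
  have iH : ∀ i, Integrable (H i) := fun i => (integrableOn_iff_integrable_of_support_subset
    (sH i)).1 (Continuous.intervalIntegrable (by fun_prop) _ _).1
  have e : ∀ t, ((∑ i, a i * ε ^ 2 / ε / ε / ε * g ((t - u i) / ε) : ℝ) : ℂ) * F t =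
      ∑ i, (a i / ε : ℂ) * H i ((t - u i) / ε) := fun t => by
    rw [Complex.ofReal_sum, Finset.sum_mul]
    refine Finset.sum_congr rfl fun i _ => ?_
    by_cases k1 : g ((t - u i) / ε) = 0
    · simp [H, k1]
    · have k2 := d3 k1
      have k3 := (div_le_one e0).1 k2.2
      have k4 := (div_nonneg_iff.1 k2.1).elim (·.1) fun k => absurd k.2 (not_le.2 e0)
      simp only [H, mul_div_cancel₀ _ e0.ne', add_sub_cancel]
      rw [eF t ⟨by linarith [(hu i).1], by linarith [k i]⟩]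
      have : (ε : ℂ) ≠ 0 := Complex.ofReal_ne_zero.2 e0.ne'
      push_cast
      field_simp
  refine (congrArg _ (funext e)).trans ?_
  rw [integral_finsetSum _ fun i _ => (((iH i).comp_div e0.ne').comp_sub_right _).const_mul _]
  refine Finset.sum_congr rfl fun i _ => ?_
  rw [integral_const_mul, integral_sub_right_eq_self (fun t => H i (t / ε)),
    Measure.integral_comp_div, intervalIntegral.integral_eq_integral_of_support_subset (sH i),
    abs_of_pos e0, Complex.real_smul, ← mul_assoc,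
    div_mul_cancel₀ _ (Complex.ofReal_ne_zero.2 e0.ne')]

variable {D : Type*} [NormedAddCommGroup D] [InnerProductSpace ℂ D] {c : Ctx D}

lemma tri (t : T3 c) (bb : BB c) (dd : DD c) {u0 : ℝ} {a u : Fin 3 → ℝ}
    (hu : ∀ i, u i ∈ Ioo (-u0) u0) (h0 : ∑ i, a i = 0) (h1 : ∑ i, a i * u i = 0)
    (h2 : ∑ i, a i * u i ^ 2 = 2) {ψ : Completion D} (hK : ∀ i, Dm (c.Ky (u i • vb)) ψ)
    (hP : Dm (Pb c.Q) ψ) :
    ∑ i, (a i : ℂ) • gen (c.Ky (u i • vb)) ψ = (4 : ℂ) • gen (Pb c.Q) ψ := by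
  have g := t.grp
  have s := CK.smv_row c t
  have k0 : 0 < u0 := by linarith [(hu 0).1, (hu 0).2]
  set A := 2 * u0 + 10
  have sub : dc (pt (3 * A) (-A) 0) 1 ⊆ {z | be z < -(u0 + 1) ∧ 1 < al z} := fun z hz => by
    obtain ⟨b1, b2, -⟩ := dc_Bx' hz
    exact ⟨by linarith [(abs_le.1 b2).2], by linarith [(abs_le.1 b1).1]⟩
  refine (t.good.dense (pt (3 * A) (-A) 0) 1 one_pos).eq_of_inner_right ℂ ?_
  rintro _ ⟨X, hX, gX, rfl⟩
  obtain ⟨v1, v2, -⟩ := s.dom _ (s.app X _ gX s.vac)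
  have dk : ∀ i, Dm (c.Ky (u i • vb)) (X c.Om) := fun i => by
    obtain ⟨r0, p, q⟩ := CK.Kp.ex_cone one_pos sub 0
    obtain ⟨C, hC⟩ := t.kd.a r0 p
    simpa using (g.dm_Ky _).2 (hC _ _ (g.pr_ut (.of_mem hX) _ (q (u i) ⟨by linarith [(hu i).1],
      by linarith [(hu i).2]⟩)) (CK.Kp.gn_split g 0 (u i) v2.gn v1.gn).dm).1
  have e : ∑ i, (a i : ℂ) • gen (c.Ky (u i • vb)) (X c.Om) = (4 : ℂ) • gen (Pb c.Q) (X c.Om) := by
    refine c.J.injective ((t.good.dense (pt A (-A) 0) 1 one_pos).eq_of_inner_left ℂ ?_)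
    rintro _ ⟨Y, hY, gY, rfl⟩
    have cn := (CK.Kp.shift t s 0 (by linarith) one_pos sub hX gX).1
    simp only [tv_zero, zero_add] at cn
    have := three (continuousOn_const.inner (cn.mono (Icc_subset_Ioo (by linarith) (by linarith))))
      (fun R => key t.toT2 bb dd k0.le le_rfl hX gX (star_mem hY) (s.adj _ gY) v2.gn) hu h0 h1 h2
    rw [jconj_star c.J c.J_J, star_star, P132.jconj_apply, c.J_Om] at this
    rw [J_left c.J c.J_J, J_left c.J c.J_J (_ • _), inner_sum, inner_smul_right, ← this]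
    simp only [inner_smul_right]
  rw [inner_sum, inner_smul_right, g.ugPb.symm v2.gn hP.gn, ← map_ofNat conj 4,
    ← inner_smul_left, ← e, sum_inner]
  refine Finset.sum_congr rfl fun i _ => ?_
  rw [inner_smul_right, inner_smul_left, Complex.conj_ofReal, (g.ugKy _).symm (dk i).gn (hK i).gn]

end EE

variable {D : Type*} [NormedAddCommGroup D] [InnerProductSpace ℂ D]

/-- **row EE** -/
theorem ee_row (c : Ctx D) : T3 c → BB c → DD c → EE c := fun t bb dd lo hi ψ hK hP => by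
  rcases le_or_gt hi lo with h | h
  · exact ⟨0, 0, fun u hu => absurd (hu.1.trans hu.2) (not_lt.2 h)⟩
  obtain ⟨u1, a1, b1⟩ := exists_between h
  obtain ⟨u2, a2, b2⟩ := exists_between b1
  set E := fun u : ℝ => gen (c.Ky (u • vb)) ψ
  set P := gen (Pb c.Q) ψ
  have n0 : (u2 - u1 : ℂ) ≠ 0 := by exact_mod_cast (sub_pos.2 a2).ne'
  refine ⟨(u2 - u1 : ℂ)⁻¹ • ((u2 : ℂ) • E u1 - (u1 : ℂ) • E u2) + (2 * u1 * u2 : ℂ) • P,
    (u2 - u1 : ℂ)⁻¹ • (E u2 - E u1) - (2 * (u1 + u2) : ℂ) • P, fun u hu => ?_⟩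
  show E u = _
  by_cases e1 : u = u1
  · subst e1
    match_scalars <;> field_simp <;> ring
  by_cases e2 : u = u2
  · subst e2
    match_scalars <;> field_simp <;> ring
  have n0' := (sub_pos.2 a2).ne'
  have n1 := sub_ne_zero.2 e1
  have n2 := sub_ne_zero.2 e2
  have m : ∀ i, ![u, u1, u2] i ∈ Ioo lo hi := fun i => by
    fin_cases i
    exacts [hu, ⟨a1, b1⟩, ⟨a1.trans a2, b2⟩]
  have := EE.tri t bb dd (u0 := |lo| + |hi|) (u := ![u, u1, u2])
    (a := ![2 / ((u - u1) * (u - u2)), 2 / ((u - u1) * (u2 - u1)), -2 / ((u - u2) * (u2 - u1))])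
    (fun i => ⟨by linarith [(m i).1, neg_abs_le lo, abs_nonneg hi],
      by linarith [(m i).2, le_abs_self hi, abs_nonneg lo]⟩)
    (by simp only [Fin.sum_univ_three, Matrix.cons_val]; field_simp; ring)
    (by simp only [Fin.sum_univ_three, Matrix.cons_val]; field_simp; ring)
    (by simp only [Fin.sum_univ_three, Matrix.cons_val]; field_simp; ring) (fun i => hK _ (m i)) hP
  simp only [Fin.sum_univ_three, Matrix.cons_val] at this
  have n1' : (u - u1 : ℂ) ≠ 0 := by exact_mod_cast n1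
  have n2' : (u - u2 : ℂ) ≠ 0 := by exact_mod_cast n2
  linear_combination (norm := match_scalars <;> field_simp <;> ring)
    ((u - u1) * (u - u2) / 2 : ℂ) • this

end

end Vale.Agent.P352X
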