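import Vale.Agent.P352X.R.ELL.B
import Vale.Agent.P352X.R.ZC

/-!
# P352X, row ELL
-/

namespace Vale.Agent.P352X

variable {D : Type*} [NormedAddCommGroup D] [InnerProductSpace ℂ D]

theorem ell_row (c : Ctx D) (t : T1 c) : ELL c := ell_of t.lie t.grp (zc_row c t)

end Vale.Agent.P352X
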