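import Vale.Agent.P352X.R.G1.C
import Vale.Agent.P352.HM.R

/-!
# P352X: the row G1
-/

noncomputable section

open Set Filter Topology
open scoped SchwartzMap ContDiff

namespace Vale.Agent.P352X

open Vale.Agent.P352 Vale.Agent.P352.GF Vale.Agent.P352.H246 Vale.Agent.P352.H755
open Vale.Agent.P352.H15
open UniformSpace (Completion)
open Complex (I)

namespace G1

variable {D : Type*} [NormedAddCommGroup D] [InnerProductSpace ℂ D] {c : Ctx D}
  {Φ Φ' ν ν' : Fn →ₗ[ℂ] Completion D} {f g : Fn} {u u' : ℝ}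

theorem ev_adm (hf : In univ f) : ∀ᶠ u in atTop, In (Hs u) f :=
  (ex_hs hf.2.1).mono fun _ h => ⟨hf.1, hf.2.1, h⟩

theorem cov_of {ψ : Fn → Completion D} {F : ℝ → Fn → Completion D} {x y : ℝ}
    (e : ∀ u f, In (Hs u) f → ψ f = F u f)
    (lin : ∀ u f g (a : ℂ), In (Hs u) f → In (Hs u) g → F u (f + a • g) = F u f + a • F u g)
    (bd : ∀ u K, IsCompact K → K ⊆ Hs u → BD K fun f => ‖F u f‖)
    (tra : ∀ u a f, In (Hs u) f → Ut c.Q a (F (u - be a) (tr a f)) = F u f)
    (rot : ∀ u w f, In (Hs u) f → Ga c.Q w (F u fun z => f (gap w z)) = F u f)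
    (sca : ∀ u r s f, 0 < r → 0 < s → In (Hs (s * u)) f →
      Usc c.Q r s (F u fun z => f (scp r s z)) = ((r ^ x * s ^ y : ℝ) : ℂ) • ψ f)
    (perp : ∀ u f, In (Hs u) f → inner ℂ c.Om (F u f) = 0) : c.Cov2 ψ x y where
  lin f g a hf hg := by
    obtain ⟨u, h1, h2⟩ := ((ev_adm hf).and (ev_adm hg)).exists
    rw [e u f h1, e u g h2, ← lin u f g a h1 h2]
    exact e u _ (in_add h1 h2 a)
  bd K hK := by
    obtain ⟨u, h⟩ := (ex_hs hK).exists
    exact (bd u K hK h).le (N' := fun f => ‖ψ f‖) hK 1 fun f hf => by simp [e u f (mono hf h)]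
  tra a f hf := by
    obtain ⟨u, h⟩ := (ev_adm hf).exists
    rw [e u f h, ← tra u a f h]
    exact congrArg _ (e _ _ (hs_tr h a (by simp)))
  rot w f hf := by
    obtain ⟨u, h⟩ := (ev_adm hf).exists
    rw [e u f h, e u _ (in_gap h w fun z hz => by simpa [Hs] using hz), rot u w f h]
  sca r s f hr hs hf := by
    obtain ⟨u, h⟩ := (ev_adm hf).exists
    rw [← mul_div_cancel₀ u hs.ne'] at h
    rw [e _ _ (in_scp h hr hs fun z hz => lt_of_mul_lt_mul_left (by simpa [Hs] using hz) hs.le),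
      sca _ r s f hr hs h]
  perp f hf := by
    obtain ⟨u, h⟩ := (ev_adm hf).exists
    rw [e u f h, perp u f h]

theorem hs_le (hf : In (Hs u) f) (h : u ≤ u') : In (Hs u') f := mono hf fun _ hz => hz.trans_le h

omit [InnerProductSpace ℂ D] in
theorem bd_sub {A B : Fn → Completion D} {K : Set V} (hK : IsCompact K) (h : BD K fun f => ‖A f‖)
    (h' : BD K fun f => ‖B f‖) : BD K fun f => ‖A f - B f‖ :=
  (h.add h').le hK 1 fun f _ => by simpa using norm_sub_le _ _

theorem bm_tr (a : V) (f : Fn) : bm (tr a f) = tr a (bm f - (be a : ℂ) • f) := by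
  funext z
  simp [bm, tr]
  ring

theorem in_bm {O : Set V} (hf : In O f) (a : ℂ) : In O (bm f - a • f) := by
  simpa only [neg_smul, ← sub_eq_add_neg] using in_add (lo_bm.mem hf) hf (-a)

variable (t : T2 c) (E : EE c)
include t E

theorem slope (h : C2 c Φ Φ') : ∃ ν : Fn →ₗ[ℂ] Completion D, c.Cov2 ν (-1) (-1) ∧ ∀ u u' f,
    In (Hs u) f → In (Hs u') f → R c Φ u f - R c Φ u' f = ((u' : ℂ) - u) • ν f := by
  choose! w hw using fun f (hf : In univ f) => (ev_adm hf).exists
  have A : ∀ u u' f, In (Hs u) f → In (Hs u') f →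
      R c Φ u f - R c Φ u' f = ((u' : ℂ) - u) • (R c Φ (w f) f - R c Φ (w f + 1) f) :=
    fun u u' f h1 h2 => by
      have h3 : tsupport f ⊆ Hs (min (min u u') (w f)) := fun z hz => show be z < _ from
        lt_min (lt_min (h1.2.2 hz) (h2.2.2 hz)) ((hw f (all h1)).2.2 hz)
      obtain ⟨lo, l1, l2⟩ := (((ev_hs h1.2.1 h3).filter_mono nhdsWithin_le_nhds).and
        (self_mem_nhdsWithin (s := Iio (min (min u u') (w f))))).exists
      simp only [lt_min_iff] at l2
      obtain ⟨A, B, e⟩ := r_aff t h E ⟨h1.1, h1.2.1, l1⟩ (max (max u u') (w f + 1) + 1)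
      have m : ∀ v, lo < v → v ≤ max (max u u') (w f + 1) → _ := fun v a b =>
        e v ⟨a, b.trans_lt (lt_add_one _)⟩
      rw [m u l2.1.1 (by simp), m u' l2.1.2 (by simp), m (w f) l2.2 (by simp),
        m (w f + 1) (by linarith [l2.2]) (by simp)]
      push_cast
      module
  have C : c.Cov2 (fun f => R c Φ (w f) f - R c Φ (w f + 1) f) (-1) (-1) :=
    cov_of (F := fun u f => R c Φ u f - R c Φ (u + 1) f)
      (fun u f hf => by simp [A u (u + 1) f hf (hs_le hf (by simp))])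
      (fun u f g a hf hg => by
        rw [r_lin t h hf hg, r_lin t h (hs_le hf (by simp)) (hs_le hg (by simp))]
        module)
      (fun u K hK k => bd_sub hK (r_bd t h hK k) (r_bd t h hK fun z hz => (k hz).trans (lt_add_one u)))
      (fun u a f hf => by
        rw [map_sub, r_tra t h hf, sub_add_eq_add_sub, r_tra t h (hs_le hf (by simp))])
      (fun u a f hf => by rw [map_sub, r_rot t h hf, r_rot t h (hs_le hf (by simp))])
      (fun u r s f hr hs hf => by
        have k := hs_le hf (u' := s * (u + 1)) (by linarith)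
        have s1 : (s : ℂ) ≠ 0 := Complex.ofReal_ne_zero.2 hs.ne'
        rw [map_sub, r_sca t h hr hs hf, r_sca t h hr hs k, ← smul_sub, A _ _ f hf k, smul_smul, w1]
        congr 1
        push_cast
        field_simp
        ring)
      fun u f hf => by
        rw [inner_sub_right, r_perp t h hf, r_perp t h (hs_le hf (by simp)), sub_zero]
  obtain ⟨ν, e⟩ := ext_lin (φ := fun f => R c Φ (w f) f - R c Φ (w f + 1) f) C.lin
  exact ⟨ν, cov_congr C e, fun u u' f h1 h2 => by rw [A u u' f h1 h2, e f (all h1)]⟩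

theorem step (h : C2 c Φ Φ') : ∃ ν : Fn →ₗ[ℂ] Completion D, c.Cov2 ν (-1) (-1) ∧
    ∀ f, In (Hs 0) f → R0 c Φ f = ν (bm f) := by
  obtain ⟨ν, n, A⟩ := slope t E h
  choose! w hw using fun f (hf : In univ f) => (ev_adm hf).exists
  have e : ∀ u f, In (Hs u) f → R c Φ (w f) f - (ν (bm f) - (w f : ℂ) • ν f) =
      R c Φ u f - (ν (bm f) - (u : ℂ) • ν f) := fun u f hf => by
    rw [eq_add_of_sub_eq (A _ _ f (hw f (all hf)) hf)]
    module
  have C : c.Cov2 (fun f => R c Φ (w f) f - (ν (bm f) - (w f : ℂ) • ν f)) (-1) (-2) :=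
    cov_of e
      (fun u f g a hf hg => by
        rw [r_lin t h hf hg, show bm (f + a • g) = bm f + a • bm g from funext fun z => by
          simp [bm]; ring]
        simp only [map_add, map_smul]
        module)
      (fun u K hK k => bd_sub hK (r_bd t h hK k) (bd_sub hK ((cbd n hK).lo lo_bm)
        ((cbd n hK).le hK u fun f _ => by simp [norm_smul])))
      (fun u a f hf => by
        rw [map_sub, map_sub, map_smul, r_tra t h hf, bm_tr, show Ut c.Q a (ν (tr a f)) = _ from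
          n.tra a f (all hf), show Ut c.Q a (ν (tr a _)) = _ from n.tra a _ (in_bm (all hf) _),
          map_sub, map_smul]
        push_cast
        module)
      (fun u a f hf => by
        rw [map_sub, map_sub, map_smul, r_rot t h hf, n.rot a f (all hf),
          ← n.rot a _ (lo_bm.mem (all hf)), show (bm fun z => f (gap a z)) =
            fun z => bm f (gap a z) from funext fun z => by simp [bm]])
      (fun u r s f hr hs hf => by
        have s1 : (s : ℂ) ≠ 0 := Complex.ofReal_ne_zero.2 hs.ne'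
        rw [e _ f hf, map_sub, map_sub, map_smul, r_sca t h hr hs hf, n.sca r s f hr hs (all hf),
          show (bm fun z => f (scp r s z)) = (s : ℂ)⁻¹ • fun z => bm f (scp r s z) from
            funext fun z => by simp [bm]; field_simp, map_smul, map_smul,
          n.sca r s _ hr hs (lo_bm.mem (all hf)), w1, Real.rpow_neg_one, Real.rpow_neg hs.le,
          Real.rpow_two]
        push_cast
        match_scalars <;> field_simp)
      fun u f hf => by
        rw [inner_sub_right, inner_sub_right, inner_smul_right, r_perp t h hf, n.perp f (all hf),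
          n.perp _ (lo_bm.mem (all hf))]
        simp
  refine ⟨ν, n, fun f hf => ?_⟩
  have z := t.zc.zer _ _ _ C (by norm_num) f (all hf)
  rw [e 0 f hf, R, RY, zero_smul, tr_zero, t.grp.ut0] at z
  simpa [sub_eq_zero] using z

omit E in
theorem next (h : C2 c Φ Φ') (n : c.Cov2 ν (-1) (-1)) (n' : c.Cov2 ν' (-1) (-1))
    (e : ∀ f, In (Hs 0) f → R0 c Φ f = ν (bm f)) (e' : ∀ f, In (Hs 0) f → R0 c Φ' f = ν' (bm f)) :
    C2 c ν ν' := by
  refine ⟨n, n', fun r hr f hf => ?_⟩
  obtain ⟨g, hg, rfl⟩ := in_div hf fun z hz => (mem_Rc.1 hz).1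
  obtain ⟨r', r1, k⟩ := ex_rc hg.2.1 hg.2.2
  have k0 : In (Hs 0) g := mono hg fun z hz => (mem_Rc.1 hz).1
  rw [← e g k0, show bar (bm g) = bm (bar g) from funext fun z => by simp [bar, bm], ← e' _ k0.bar,
    R0, R0, Kc_bar (diff hg)]
  exact pr_sub (t.kd.a2 r' r _ _ hr.le r1 (h.pr r' (hr.trans r1) g ⟨hg.1, hg.2.1, k⟩)
    (gn_bo h.cov (all hg)).dm (gn_bo h.cov' (all hg.bar)).dm).1 (h.pr r hr _ ((lo_Kc 2).mem hg))

omit E in
theorem orth {Ψ Ψ' μ : Fn →ₗ[ℂ] Completion D} (h : C2 c Φ Φ') (h' : C2 c Ψ Ψ')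
    (n : c.Cov2 ν (-1) (-1)) (n' : c.Cov2 μ (-1) (-1))
    (e : ∀ f, In (Hs 0) f → R0 c Φ f = ν (bm f)) (e' : ∀ f, In (Hs 0) f → R0 c Ψ f = μ (bm f))
    (hf : In univ f) (hg : In univ g) : inner ℂ (Φ f) (μ g) = 0 := by
  obtain ⟨κ, a⟩ := t.zc.cls _ _ h.cov h'.cov
  obtain ⟨κ2, a2⟩ := t.zc.cls _ _ h.cov n'
  have S : ∀ f g, In (Hs 0) f → In (Hs 0) g →
      inner ℂ (ν (bm f)) (Ψ g) + inner ℂ (Φ f) (μ (bm g)) = 0 := fun f g hf hg => by
    have b := (ug_sk t).symm (h.dm t hf).gn (h'.dm t hg).gn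
    have d := t.sym.sym f g (all hf) (all hg)
    rw [← e f hf, ← e' g hg, R0, R0, inner_sub_left, inner_sub_right, inner_smul_left,
      inner_smul_right, b, a _ _ (all ((lo_Kc 2).mem hf)) (all hg),
      a _ _ (all hf) (all ((lo_Kc 2).mem hg)), Complex.conj_I]
    linear_combination -κ * d
  have q : ∀ {A B : Fn →ₗ[ℂ] Completion D} {f g}, c.Cov2 A (-1) (-1) → c.Cov2 B (-1) (-1) →
      In univ f → In univ g → inner ℂ (A (tr vb f)) (B (tr vb g)) = inner ℂ (A f) (B g) :=
    fun p p' hf hg => by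
      rw [← p.tra vb _ hf, ← p'.tra vb _ hg, Ut, inner_unitary (t.grp.uni _ _ _)]
      rfl
  obtain ⟨f0, h0, ne⟩ := t.sym.ne
  have h1 := lo_bm.mem h0
  have b1 := S _ _ (hs_tr h1 vb (by simp)) (hs_tr h0 vb (by simp))
  rw [bm_tr, bm_tr, q n h'.cov (in_bm (all h1) _) (all h0), q h.cov n' (all h1) (in_bm (all h0) _),
    map_sub, map_sub, map_smul, map_smul, be_vb, Complex.ofReal_one, one_smul, one_smul,
    inner_sub_left, inner_sub_right, a2 _ f0 (all h1) (all h0)] at b1
  have b2 := S _ _ h0 h0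
  rw [a2 _ _ (all h0) (all h1)] at b2
  rw [show (fun z => (be z : ℂ) * f0 z) = bm f0 from rfl] at ne
  rw [a2 f g hf hg, (mul_eq_zero.1 (show κ2 * (_ - _) = 0 by
    linear_combination b1 + b2 - S _ _ h1 h0)).resolve_right (sub_ne_zero.2 ne), zero_mul]

omit E in
theorem cov_l : c.Cov2 c.l (-1) (-1) where
  lin f g a hf hg := c.hl.lin f g a hf.1 hg.1
  bd K _ := by
    have k : ∀ (F G : Sch) (a : ℂ), c.l (ev (F + a • G)) = c.l (ev F) + a • c.l (ev G) :=
      fun F G a => c.hl.lin _ _ a ⟨F, rfl⟩ ⟨G, rfl⟩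
    have k0 : c.l (ev 0) = 0 := by simpa using k 0 0 1
    let L : Sch →ₗ[ℂ] Completion D := ⟨⟨fun F => c.l (ev F), fun F G => by
      simpa only [one_smul] using k F G 1⟩, fun a F => by simpa only [k0, zero_add, RingHom.id_apply] using k 0 F a⟩
    obtain ⟨m, C, -, h⟩ := Lie.clm ((normSeminorm ℂ (Completion D)).comp L) c.hl.cont.norm
    exact ⟨m, C, fun g _ => h g⟩
  tra a f hf := by simpa [HM.sim_tr, Ut] using t.grp.pot 1 _ a f one_pos H496.isLor_one hf.1
  rot w f hf := by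
    simpa only [(t.grp.lga w).2, one_pow, inv_one, one_smul, Ga] using
      t.grp.pot 1 _ 0 f one_pos (t.grp.lga w).1 hf.1
  sca r s f hr hs hf := by
    have k := t.grp.pot _ _ 0 f (Real.sqrt_pos.2 (mul_pos hr hs)) (t.grp.lsc r s hr hs).1 hf.1
    simp only [(t.grp.lsc r s hr hs).2, Real.sq_sqrt (mul_pos hr hs).le] at k
    rw [Usc, k, Real.rpow_neg_one, Real.rpow_neg_one, mul_inv, Complex.coe_smul]
  perp f hf := t.grp.perpl f hf.1

theorem main (d : DD c) (hf : In (Hs 0) f) : Gn c.SK (c.l f) (-I • c.l (Kc 2 f)) := by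
  obtain ⟨Φ, e⟩ := ext_lin (cov_l t).lin
  have h : C2 c Φ Φ := ⟨cov_congr (cov_l t) e, cov_congr (cov_l t) e, fun r hr f hf => by
    rw [e f (all hf), e _ (all hf.bar)]
    exact d va vb r 0 f null_va null_vb md_ab hr hf⟩
  obtain ⟨ν, n, a⟩ := step t E h
  have h' := next t h n n a a
  obtain ⟨μ, m, b⟩ := step t E h'
  have k := all (lo_bm.mem hf)
  have z := (a f hf).trans (inner_self_eq_zero.1 (orth t h' h m n b a k k))
  rw [← e f (all hf), ← e _ (all ((lo_Kc 2).mem hf)), ← sub_eq_zero.1 z, neg_I_I]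
  exact (h.dm t hf).gn

end G1

open G1

theorem g1_row {D : Type*} [NormedAddCommGroup D] [InnerProductSpace ℂ D] (c : Ctx D) (t : T3 c)
    (d : DD c) (E : EE c) : G1 c where
  pot _ hf := main t.toT2 E d hf
  th g hg := by
    have k := lo_box.mem hg
    refine ((main t.toT2 E d k).smul 3).cast (c.hl.trace g hg.1).symm ?_
    rw [show c.Th (Kc 4 g) = _ from (c.hl.trace _ ((lo_Kc 4).mem hg).1).symm, t.sym.box g hg.1,
      c.hl.lin _ _ 4 ((lo_Kc 2).mem k).1 ((lo_dv va).mem hg).1]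
    module

end Vale.Agent.P352X
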