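import Vale.Agent.P352X.R.G2.Geo

/-!
# P352X, row G2: the gradient of the potential is weakly local (helper24)
-/

set_option linter.all false

noncomputable section

open Filter Topology
open scoped ComplexConjugate

namespace Vale.Agent.P352X

open Vale.Agent.P352 Vale.Agent.P352.GF Vale.Agent.P352.BW Vale.Agent.P352.H496
open Vale.Agent.P352.H246 (In Al Gen bar_bar)
open UniformSpace (Completion)

variable {D : Type*} [NormedAddCommGroup D] [InnerProductSpace ℂ D] {c : Ctx D}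

namespace G2

lemma al_cpt {Q : Theory D} {W : Set V} {X X' : D → D} (h : Al Q W X X') :
    ∃ K, IsCompact K ∧ K ⊆ W ∧ Al Q K X X' := by
  induction h with
  | one => exact ⟨∅, isCompact_empty, Set.empty_subset _, Al.one⟩
  | add X X' Y Y' _ _ h1 h2 =>
    obtain ⟨K, a1, a2, a3⟩ := h1
    obtain ⟨K', b1, b2, b3⟩ := h2
    exact ⟨K ∪ K', a1.union b1, Set.union_subset a2 b2,
      Al.add _ _ _ _ (a3.mono Set.subset_union_left) (b3.mono Set.subset_union_right)⟩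
  | smul t X X' _ h1 =>
    obtain ⟨K, a1, a2, a3⟩ := h1
    exact ⟨K, a1, a2, Al.smul _ _ _ a3⟩
  | fld A B g X X' hA hB hadj hg _ h1 =>
    obtain ⟨K, a1, a2, a3⟩ := h1
    exact ⟨K ∪ tsupport g, a1.union hg.2.1, Set.union_subset a2 hg.2.2, Al.fld A B g _ _ hA hB hadj
      ⟨hg.1, hg.2.1, Set.subset_union_right⟩ (a3.mono Set.subset_union_left)⟩

lemma gen_cpt {Q : Theory D} {v : D} (h : Gen Q Set.univ v) : ∃ K, IsCompact K ∧ Gen Q K v := by
  obtain ⟨X, X', hX, rfl⟩ := h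
  obtain ⟨K, a1, -, a3⟩ := al_cpt hX
  exact ⟨K, a1, _, _, a3, rfl⟩

lemma gen_vac {Q : Theory D} {W : Set V} : Gen Q W Q.vac := ⟨_, _, Al.one, rfl⟩

lemma l_zero : c.l (fun _ => 0) = 0 := by
  have h := c.hl.lin (fun _ => 0) (fun _ => 0) 1 ⟨0, rfl⟩ ⟨0, rfl⟩
  simpa using h

lemma l_lin {f g : Fn} (hf : GF.IsTest f) (hg : GF.IsTest g) (s t : ℂ) :
    c.l (fun x => s * f x + t * g x) = s • c.l f + t • c.l g := by
  have h1 := c.hl.lin (fun _ => 0) f s ⟨0, rfl⟩ hf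
  have h2 : GF.IsTest fun x => s * f x := by
    obtain ⟨F, rfl⟩ := hf
    exact ⟨s • F, rfl⟩
  simp only [zero_add, l_zero] at h1
  rw [c.hl.lin _ g t h2 hg, h1]

/-- operators that commute with the cut cones -/
def Ok (c : Ctx D) (R R' : Set V) (X X' : D → D) : Prop :=
  T.Afs (c.N R').commutant X X' ∧ ∀ f, In R f → ∀ u, X (c.Thf f u) = c.Thf f (X u)

lemma Ok.comp {R R' : Set V} {X X' Y Y' : D → D} (h : Ok c R R' X X') (h' : Ok c R R' Y Y') :
    Ok c R R' (fun v => X (Y v)) fun v => Y' (X' v) :=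
  ⟨Grp.afs_comp h.1 h'.1, fun f hf u => by rw [← h.2 f hf, ← h'.2 f hf]⟩

lemma ok_wdg (T : T3 c) {a b v : V} (ha : IsNull a) (hb : IsNull b) (hab : 0 < mdot a b)
    {R R' : Set V} (h1 : R ⊆ R') (h2 : R' ⊆ Wdg a b v) {X X' : D → D}
    (hX : Al c.Q (Wdg b a v) X X') : Ok c R R' X X' := by
  have h := T.grp.affa _ X X' hX
  refine ⟨⟨h.1, fun Y hY => h.2 Y ?_⟩, fun f hf u => th_comm hX (In.mono' hf (Set.subset_univ _))
    (fun g hg x hx y hy => wdg_opp ha hb (h2 (h1 (hf.2.2 hx))) (hg.2.2 hy)) u⟩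
  rw [VonNeumannAlgebra.commutant_commutant] at hY
  rw [T.jc.dual b a v hb ha (by rwa [H755.md_comm])]
  exact c.hN.mono _ _ h2 Y hY

/-- `F` is the form `v ↦ ⟨ψ, N(g) v⟩` of the gradient of the potential -/
def Is (c : Ctx D) (g : Fn) (h : V) (ψ : D) (F : D → ℂ) : Prop :=
  Cl c.Q F ∧ ∀ᶠ n in atTop, ∀ X X', Al c.Q (On n) X X' →
    F (X c.Q.vac) = inner ℂ ((X' ψ : D) : Completion D) (c.l (dv h g))

lemma Is.uniq {g : Fn} {h : V} {ψ : D} {F F' : D → ℂ} (h1 : Is c g h ψ F) (h2 : Is c g h ψ F')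
    {v : D} (hv : Gen c.Q Set.univ v) : F v = F' v := by
  obtain ⟨n, ⟨a1, a2⟩, a3⟩ := ((h1.2.and h2.2).and (eventually_ge_atTop 1)).exists
  refine sub_eq_zero.1 (rs c.hN.toRep (open_On n) (On_ne a3) (h1.1.sub h2.1) ?_ hv)
  rintro _ ⟨X, X', hX, rfl⟩
  rw [a1 X X' hX, a2 X X' hX, sub_self]

lemma Is.lin {g : Fn} (hg : GF.IsTest g) {h k : V} {ψ : D} {F F' : D → ℂ} (h1 : Is c g h ψ F)
    (h2 : Is c g k ψ F') (s t : ℝ) : Is c g (s • h + t • k) ψ fun v => s * F v + t * F' v := by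
  refine ⟨(h1.1.mul s).sum (h2.1.mul t), ?_⟩
  filter_upwards [h1.2, h2.2] with n a1 a2 X X' hX
  rw [a1 X X' hX, a2 X X' hX, dv_lin, l_lin (Grp.test_dv h hg) (Grp.test_dv k hg),
    inner_add_right, inner_smul_right, inner_smul_right]

lemma fr_key (T : T3 c) {h : V} {R R' : Set V} {S κ} (F : Fr c h R R' S κ) {g : Fn} (hg : In R g)
    {ψ : D} (hψ : Gen c.Q R ψ) {X X' : D → D} (hX : Ok c R R' X X') :
    12⁻¹ * Lam c S κ g ψ (X c.Q.vac) = inner ℂ ((X' ψ : D) : Completion D) (c.l (dv h g)) := by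
  rw [F.key T.grp hg hψ hX.1 fun f hf => hX.2 f hf _, ← mul_assoc, inv_mul_cancel₀ (by norm_num),
    one_mul]

lemma ok_On (T : T3 c) (w : R2) (y : V) {r r' : ℝ} (h0 : 0 < r') (h : r' < r) :
    ∀ᶠ n in atTop, ∀ X X', Al c.Q (On n) X X' → Ok c (Rw w y r) (Rw w y r') X X' := by
  filter_upwards [On_sub w y] with n hn X X' hX
  exact ok_wdg T (null_aw w) null_vb (by rw [aw_vb]; exact one_pos) (Rw_mono w y h0.le h.le)
    (Rw_sub w y h0.le) (hX.mono hn)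

lemma fr_is (T : T3 c) {w : R2} {y : V} {r r' : ℝ} (h0 : 0 < r') (h : r' < r) {S κ}
    (F : Fr c (aw w) (Rw w y r) (Rw w y r') S κ) {g : Fn} (hg : In (Rw w y r) g) {ψ : D}
    (hψ : Gen c.Q (Rw w y r) ψ) : Is c g (aw w) ψ fun v => 12⁻¹ * Lam c S κ g ψ v := by
  refine ⟨(cl_Lam S κ (In.mono' hg (Set.subset_univ _)) ψ).mul _, ?_⟩
  filter_upwards [ok_On T w y h0 h] with n hn X X' hX
  exact fr_key T F hg hψ (hn X X' hX)

/-- the form -/
def Lf (c : Ctx D) (g : Fn) (h : V) (ψ : D) : D → ℂ := Classical.epsilon (Is c g h ψ)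

variable (T : T3 c) (g1 : G1 c)
include T g1

lemma ex_big {g : Fn} (hg : In Set.univ g) {ψ v : D} (hψ : Gen c.Q Set.univ ψ)
    (hv : Gen c.Q Set.univ v) (w : R2) : ∃ y r S κ, 0 < r ∧
      Fr c (aw w) (Rw w y r) (Rw w y (r / 2)) S κ ∧ In (Rw w y r) g ∧ Gen c.Q (Rw w y r) ψ ∧
      Gen c.Q (Rw w y r) v := by
  obtain ⟨K, a1, a2⟩ := gen_cpt hψ
  obtain ⟨K', b1, b2⟩ := gen_cpt hv
  obtain ⟨y, r, hr, h⟩ := ex_high ((a1.union b1).union hg.2.1) w
  obtain ⟨S, κ, F⟩ := ex_fr T g1 w y (half_pos hr) (half_lt_self hr)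
  exact ⟨y, r, S, κ, hr, F, ⟨hg.1, hg.2.1, fun _ p => h (Or.inr p)⟩,
    gen_mono (fun _ p => h (Or.inl (Or.inl p))) a2, gen_mono (fun _ p => h (Or.inl (Or.inr p))) b2⟩

lemma lf_is {g : Fn} (hg : In Set.univ g) (h : V) {ψ : D} (hψ : Gen c.Q Set.univ ψ) :
    Is c g h ψ (Lf c g h ψ) := by
  have h1 : ∀ w, ∃ F, Is c g (aw w) ψ F := fun w => by
    obtain ⟨y, r, S, κ, hr, F, a1, a2, -⟩ := ex_big T g1 hg hψ hψ w
    exact ⟨_, fr_is T (half_pos hr) (half_lt_self hr) F a1 a2⟩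
  exact Classical.epsilon_spec (span4 (P := fun h => ∃ F, Is c g h ψ F)
    (fun s t h k ⟨_, a⟩ ⟨_, b⟩ => ⟨_, a.lin hg.1 b s t⟩) 0 one_ne_zero (h1 _) (h1 _) (h1 _) (h1 _) h)

lemma lf_lin {g : Fn} (hg : In Set.univ g) (s t : ℝ) (h k : V) {ψ v : D}
    (hψ : Gen c.Q Set.univ ψ) (hv : Gen c.Q Set.univ v) :
    Lf c g (s • h + t • k) ψ v = s * Lf c g h ψ v + t * Lf c g k ψ v :=
  (lf_is T g1 hg _ hψ).uniq ((lf_is T g1 hg h hψ).lin hg.1 (lf_is T g1 hg k hψ) s t) hv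

lemma lf_herm {g : Fn} (hg : In Set.univ g) (h : V) {ψ v : D} (hψ : Gen c.Q Set.univ ψ)
    (hv : Gen c.Q Set.univ v) : Lf c g h ψ v = conj (Lf c (bar g) h v ψ) := by
  have h1 : ∀ w, Lf c g (aw w) ψ v = conj (Lf c (bar g) (aw w) v ψ) := fun w => by
    obtain ⟨y, r, S, κ, hr, F, a1, a2, a3⟩ := ex_big T g1 hg hψ hv w
    rw [(lf_is T g1 hg _ hψ).uniq (fr_is T (half_pos hr) (half_lt_self hr) F a1 a2) hv,
      (lf_is T g1 hg.bar _ hv).uniq (fr_is T (half_pos hr) (half_lt_self hr) F a1.bar a3) hψ,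
      F.herm T.grp a1 a2 a3, map_mul, map_inv₀, map_ofNat]
  refine span4 (P := fun h => Lf c g h ψ v = conj (Lf c (bar g) h v ψ)) (fun s t h k a b => ?_) 0
    one_ne_zero (h1 _) (h1 _) (h1 _) (h1 _) h
  show Lf c g _ ψ v = conj (Lf c (bar g) _ v ψ)
  rw [lf_lin T g1 hg s t h k hψ hv, lf_lin T g1 hg.bar s t h k hv hψ, a, b]
  simp

lemma lf_vac {g : Fn} (hg : In Set.univ g) (h : V) {ψ : D} (hψ : Gen c.Q Set.univ ψ) :
    Lf c g h ψ c.Q.vac = inner ℂ (ψ : Completion D) (c.l (dv h g)) :=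
  (lf_is T g1 hg h hψ).2.exists.choose_spec _ _ Al.one

omit T g1 in
/-- `X` commutes with the gradient of the potential smeared with `g` -/
def Cm (c : Ctx D) (g : Fn) (X X' : D → D) : Prop := ∀ h ψ v, Gen c.Q Set.univ ψ →
  Gen c.Q Set.univ v → Lf c g h ψ (X v) = Lf c g h (X' ψ) v

lemma cm_loc {x x1 : V} (hx : mu (x1 - x) < 0) : ∃ U U1, IsOpen U ∧ x ∈ U ∧ IsOpen U1 ∧ x1 ∈ U1 ∧
    ∀ g, In U g → ∀ X X', Al c.Q U1 X X' → Cm c g X X' := by
  obtain ⟨U, U1, a1, a2, a3, a4, a5⟩ := ex_low4 hx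
  refine ⟨U, U1, a1, a2, a3, a4, fun g hg X X' hX h => ?_⟩
  have hg' : In Set.univ g := In.mono' hg (Set.subset_univ _)
  have hX' := hX.mono (Set.subset_univ _)
  refine a5 (fun h => ∀ ψ v, Gen c.Q Set.univ ψ → Gen c.Q Set.univ v →
    Lf c g h ψ (X v) = Lf c g h (X' ψ) v) (fun s t h k p q ψ v hψ hv => ?_) ?_ h
  · rw [lf_lin T g1 hg' s t h k hψ (gen_al hX' hv), lf_lin T g1 hg' s t h k (gen_al hX'.star hψ) hv,
      p ψ v hψ hv, q ψ v hψ hv]
  rintro w ⟨y, r, r', b, z, b1, b2, b3, b4, b5, b6, b7⟩ ψ v hψ hv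
  obtain ⟨S, κ, F⟩ := ex_fr T g1 w y b1 b2
  have ok := ok_wdg T (null_aw w) b4 b5 (Rw_mono w y b1.le b2.le) b6 (hX.mono b7)
  have s1 : ∀ ψ, Gen c.Q U ψ → Lf c g (aw w) ψ (X v) = Lf c g (aw w) (X' ψ) v := by
    intro ψ hψ
    have hψ' := gen_mono (Set.subset_univ _) hψ
    have i1 := lf_is T g1 hg' (aw w) hψ'
    have i2 := lf_is T g1 hg' (aw w) (gen_al hX'.star hψ')
    obtain ⟨n, ⟨d1, d2⟩, d3⟩ :=
      ((i2.2.and (ok_On T w y b1 b2)).and (eventually_ge_atTop 1)).exists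
    refine sub_eq_zero.1 (rs c.hN.toRep (open_On n) (On_ne d3) ((i1.1.comp hX').sub i2.1) ?_ hv)
    rintro _ ⟨Z, Z', hZ, rfl⟩
    rw [d1 Z Z' hZ, i1.uniq (fr_is T b1 b2 F (In.mono' hg b3) (gen_mono b3 hψ))
      (gen_al hX' (gen_al (hZ.mono (Set.subset_univ _)) gen_vac)), sub_eq_zero]
    have e := fr_key T F (In.mono' hg b3) (gen_mono b3 hψ) (ok.comp (d2 Z Z' hZ))
    exact e
  have s2 : ∀ ψ, Gen c.Q Set.univ ψ → Lf c g (aw w) ψ (X v) - Lf c g (aw w) (X' ψ) v =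
      conj (Lf c (bar g) (aw w) (X v) ψ - Lf c (bar g) (aw w) v (X' ψ)) := fun ψ hψ => by
    rw [map_sub, ← lf_herm T g1 hg' _ hψ (gen_al hX' hv),
      ← lf_herm T g1 hg' _ (gen_al hX'.star hψ) hv]
  rw [← sub_eq_zero, s2 ψ hψ, map_eq_zero]
  refine rs c.hN.toRep a1 ⟨x, a2⟩ ((lf_is T g1 hg'.bar _ (gen_al hX' hv)).1.sub
    ((lf_is T g1 hg'.bar _ hv).1.comp hX'.star)) (fun ψ hψ => ?_) hψ
  rw [← map_eq_zero (starRingEnd ℂ), ← s2 ψ (gen_mono (Set.subset_univ _) hψ), s1 ψ hψ, sub_self]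

lemma Cm.add {g : Fn} (hg : In Set.univ g) {X X' Y Y' : D → D} (hX : Al c.Q Set.univ X X')
    (hY : Al c.Q Set.univ Y Y') (h1 : Cm c g X X') (h2 : Cm c g Y Y') :
    Cm c g (fun v => X v + Y v) fun v => X' v + Y' v := fun h ψ v hψ hv => by
  rw [(lf_is T g1 hg h hψ).1.add, h1 h ψ v hψ hv, h2 h ψ v hψ hv,
    lf_herm T g1 hg h (gen_al (Al.add _ _ _ _ hX.star hY.star) hψ) hv,
    (lf_is T g1 hg.bar h hv).1.add, map_add, ← lf_herm T g1 hg h (gen_al hX.star hψ) hv,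
    ← lf_herm T g1 hg h (gen_al hY.star hψ) hv]

lemma Cm.smul {g : Fn} (hg : In Set.univ g) {X X' : D → D} (hX : Al c.Q Set.univ X X')
    (h1 : Cm c g X X') (t : ℂ) : Cm c g (fun v => t • X v) fun v => star t • X' v :=
  fun h ψ v hψ hv => by
  rw [(lf_is T g1 hg h hψ).1.smul, h1 h ψ v hψ hv,
    lf_herm T g1 hg h (gen_al (Al.smul t _ _ hX).star hψ) hv, (lf_is T g1 hg.bar h hv).1.smul,
    map_mul, ← lf_herm T g1 hg h (gen_al hX.star hψ) hv]
  simp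

lemma cm_cpt {x : V} {K : Set V} (hK : IsCompact K) (hx : ∀ y ∈ K, mu (y - x) < 0) :
    ∃ U, IsOpen U ∧ x ∈ U ∧ ∀ g, In U g → ∀ X X', Al c.Q K X X' → Cm c g X X' := by
  obtain ⟨U, a1, a2, a3⟩ : ∃ U, IsOpen U ∧ x ∈ U ∧ ∀ y ∈ K, ∃ U1, IsOpen U1 ∧ y ∈ U1 ∧
      ∀ g, In U g → ∀ X X', Al c.Q U1 X X' → Cm c g X X' := by
    refine hK.induction_on (p := fun s => ∃ U, IsOpen U ∧ x ∈ U ∧ ∀ y ∈ s, ∃ U1, IsOpen U1 ∧
      y ∈ U1 ∧ ∀ g, In U g → ∀ X X', Al c.Q U1 X X' → Cm c g X X') ?_ ?_ ?_ ?_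
    · exact ⟨Set.univ, isOpen_univ, trivial, fun _ h => h.elim⟩
    · rintro s t hst ⟨U, a1, a2, a3⟩
      exact ⟨U, a1, a2, fun y hy => a3 y (hst hy)⟩
    · rintro s t ⟨U, a1, a2, a3⟩ ⟨U', b1, b2, b3⟩
      refine ⟨U ∩ U', a1.inter b1, ⟨a2, b2⟩, ?_⟩
      rintro y (hy | hy)
      · obtain ⟨U1, d1, d2, d3⟩ := a3 y hy
        exact ⟨U1, d1, d2, fun g hg => d3 g (In.mono' hg Set.inter_subset_left)⟩
      · obtain ⟨U1, d1, d2, d3⟩ := b3 y hy
        exact ⟨U1, d1, d2, fun g hg => d3 g (In.mono' hg Set.inter_subset_right)⟩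
    · intro y hy
      obtain ⟨U, U1, a1, a2, a3, a4, a5⟩ := cm_loc T g1 (hx y hy)
      exact ⟨U1, mem_nhdsWithin_of_mem_nhds (a3.mem_nhds a4), U, a1, a2,
        fun z hz => ⟨U1, a3, hz, a5⟩⟩
  refine ⟨U, a1, a2, fun g hg X X' hX => ?_⟩
  have hg' : In Set.univ g := In.mono' hg (Set.subset_univ _)
  induction hX with
  | one => exact fun _ _ _ _ _ => rfl
  | add X X' Y Y' hX hY h1 h2 =>
    exact h1.add T g1 hg' (hX.mono (Set.subset_univ _)) (hY.mono (Set.subset_univ _)) h2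
  | smul t X X' hX h1 => exact h1.smul T g1 hg' (hX.mono (Set.subset_univ _)) t
  | fld A B f X X' hA hB hadj hf hX ih =>
    have al : ∀ {W f}, In W f → Al c.Q W (A f) (B (bar f)) := fun hf =>
      Al.fld A B _ _ _ hA hB hadj hf Al.one
    have ad : ∀ {C}, c.Q.fld C → ∀ f f' v, GF.IsTest f → GF.IsTest f' →
        C (fun x => f x + f' x) v = C f v + C f' v := fun hC f f' v p q => by
      simpa only [one_mul, one_smul] using c.Q.lin _ f f' 1 v hC p q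
    have ze : ∀ {C}, c.Q.fld C → C (fun _ => 0) = fun v => (0 : ℂ) • v := fun hC =>
      funext fun v => by simpa using ad hC (fun _ => 0) (fun _ => 0) v ⟨0, rfl⟩ ⟨0, rfl⟩
    obtain ⟨W, -, b2, b3⟩ := in_induct (P := fun f => Cm c g (A f) (B (bar f))) (K := K) (by
        have := Cm.smul T g1 hg' Al.one (fun _ _ _ _ _ => rfl) 0
        rw [star_zero] at this
        show Cm c g (A fun _ => 0) (B (bar fun _ => 0))
        rwa [show (bar fun _ => 0) = fun _ => 0 from funext fun _ => star_zero _, ze hA, ze hB])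
      (fun f f' p q h1 h2 => by
        have := h1.add T g1 hg' (al p) (al q) h2
        show Cm c g (A fun x => f x + f' x) (B (bar fun x => f x + f' x))
        rwa [show (bar fun x => f x + f' x) = fun x => bar f x + bar f' x from
          funext fun _ => star_add _ _, show A _ = _ from funext fun v => ad hA f f' v p.1 q.1,
          show B _ = _ from funext fun v => ad hB _ _ v p.bar.1 q.bar.1]) hK fun y hy => by
        obtain ⟨U1, d1, d2, d3⟩ := a3 y hy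
        exact ⟨U1, d1, d2, fun f hf => d3 g hg _ _ (al hf)⟩
    intro h ψ v hψ hv
    have hX' := hX.mono (Set.subset_univ _)
    exact (b3 f (In.mono' hf b2) h ψ _ hψ (gen_al hX' hv)).trans
      (ih h _ v (gen_al (al (In.mono' hf (Set.subset_univ _))).star hψ) hv)

theorem main (h : V) : N86.WeakLoc c.Q fun f => c.l (dv h f) := by
  intro f X X' hf hX
  obtain ⟨K, a1, a2, a3⟩ := al_cpt hX
  have hX' := hX.mono (Set.subset_univ _)
  have ad : ∀ f f', GF.IsTest f → GF.IsTest f' →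
      c.l (dv h fun x => f x + f' x) = c.l (dv h f) + c.l (dv h f') := fun f f' p q => by
    have e := l_lin (c := c) (Grp.test_dv h p) (Grp.test_dv h q) 1 1
    simp only [one_mul, one_smul] at e
    rw [← e]
    congr 1
    funext x
    obtain ⟨F, rfl⟩ := p
    obtain ⟨F', rfl⟩ := q
    rw [dv_eq (f := fun x => ev F x + ev F' x) ⟨F + F', rfl⟩, dv_eq ⟨F, rfl⟩, dv_eq ⟨F', rfl⟩]
    exact DFunLike.congr_fun (fderiv_add F.differentiableAt F'.differentiableAt) h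
  have ze : c.l (dv h fun _ => 0) = 0 := by
    simpa using ad (fun _ => 0) (fun _ => 0) ⟨0, rfl⟩ ⟨0, rfl⟩
  obtain ⟨U, -, b2, b3⟩ := in_induct (P := fun g => inner ℂ ((X' c.Q.vac : D) : Completion D)
    (c.l (dv h g)) = inner ℂ (c.l (dv h (bar g))) ((X c.Q.vac : D) : Completion D))
    (K := tsupport f) (by
      rw [show (bar fun _ => 0) = fun _ => 0 from funext fun _ => star_zero _, ze]
      simp) (fun f f' p q h1 h2 => by
      rw [show (bar fun x => f x + f' x) = fun x => bar f x + bar f' x from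
        funext fun _ => star_add _ _, ad _ _ p.1 q.1, ad _ _ p.bar.1 q.bar.1, inner_add_left,
        inner_add_right, h1, h2]) hf.2.1 fun x hx => by
      obtain ⟨U, d1, d2, d3⟩ := cm_cpt T g1 (x := x) a1 fun y hy => by
        rw [← neg_sub, mu_neg]
        exact a2 hy x hx
      refine ⟨U, d1, d2, fun g hg => ?_⟩
      have hg' : In Set.univ g := In.mono' hg (Set.subset_univ _)
      have := d3 g hg X X' a3 h _ _ gen_vac gen_vac
      rw [lf_herm T g1 hg' h gen_vac (gen_al hX' gen_vac), lf_vac T g1 hg'.bar h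
        (gen_al hX' gen_vac), lf_vac T g1 hg' h (gen_al hX'.star gen_vac), inner_conj_symm] at this
      exact this.symm
  exact b3 f ⟨hf.1, hf.2.1, b2⟩

end G2

theorem g2_row (c : Ctx D) : T3 c → G1 c → G2 c := fun T g1 ν => by
  simpa only [G2.dv_bas] using G2.main T g1 (bas ν 1)

end Vale.Agent.P352X

end
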