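import Vale.Agent.P352X.Api1C
import Vale.Agent.P352X.Api2b
import Vale.Agent.P352X.R.GRP.C
import Vale.Agent.P352X.ST.Syn
import Vale.Agent.P352X.TR

/-!
# P352X, row G3: the virial current without curl
-/

set_option linter.all false

noncomputable section

open scoped SchwartzMap LineDeriv

namespace Vale.Agent.P352X

open Vale.Agent.P352 Vale.Agent.P352.GF Vale.Agent.P352.BW Vale.Agent.P352.H246
open Vale.Agent.P352.H496 Vale.Agent.P352.H755 Vale.Agent.P352.H15
open UniformSpace (Completion)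

namespace G3p

variable {D : Type*} [NormedAddCommGroup D] [InnerProductSpace ℂ D] {c : Ctx D}

/-- compact sets lie in wedges -/
lemma ex_wdg {K : Set V} (hK : IsCompact K) : ∃ y, K ⊆ Wdg va vb y := by
  obtain ⟨R, hR⟩ := hK.isBounded.exists_norm_le
  refine ⟨pt (-(R + 1)) (2 * R + 1) 0, fun z hz => ⟨?_, ?_⟩⟩
  · have h1 := abs_le.1 ((abs_be_le z).trans (mul_le_mul_of_nonneg_left (hR z hz) zero_le_two))
    rw [md_va, be_sub, be_pt]
    linarith [h1.2]
  · have h1 := abs_le.1 ((abs_al_le z).trans (hR z hz))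
    rw [md_vb, al_sub, al_pt]
    linarith [h1.1]

lemma wdg_cc {K : Set V} {y : V} (h : K ⊆ Wdg va vb y) : Wdg vb va y ⊆ cc K := by
  intro z hz x hx
  obtain ⟨h1, h2⟩ := h hx
  obtain ⟨h3, h4⟩ := hz
  rw [md_va, be_sub] at h1 h4
  rw [md_vb, al_sub] at h2 h3
  have h5 := d2_nonneg (tx (x - z))
  have h6 : al (x - z) * be (x - z) < 0 := by
    rw [al_sub, be_sub]
    exact mul_neg_of_pos_of_neg (by linarith) (by linarith)
  rw [mdot_null]
  linarith

/-- the vacuum separates the operators that are affiliated to the algebra of a wedge -/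
lemma sepr (j : JC c) (g : GRP c) {y : V} {X Y : D → D} (hX : Aff (c.N (Wdg va vb y)) X)
    (hY : Aff (c.N (Wdg va vb y)) Y) (h : X c.Q.vac = Y c.Q.vac) (v : D) : X v = Y v := by
  obtain ⟨X', a1, a2⟩ := hX
  obtain ⟨Y', b1, b2⟩ := hY
  have e : ∀ w, X' w = Y' w := fun w => by
    refine Completion.coe_injective D ?_
    refine (j.cyc' g null_va null_vb (by rw [md_ab]; exact one_pos) y).eq_of_inner_left ℂ ?_
    rintro _ ⟨Z, hZ, rfl⟩
    have h1 := a2 Z hZ c.Q.vac w
    have h2 := b2 Z hZ c.Q.vac w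
    rw [h] at h1
    exact h1.trans h2.symm
  exact ext_inner_right ℂ fun w => by rw [a1, b1, e]

lemma aff_of {M : VonNeumannAlgebra (Completion D)} {X X' : D → D} (h : T.Afs M X X') : Aff M X :=
  ⟨X', h.1, h.2⟩

lemma aff_sum {M : VonNeumannAlgebra (Completion D)} {X : Ix → D → D} (a : Ix → ℂ)
    (h : ∀ k, Aff M (X k)) : Aff M fun v => ∑ k, a k • X k v := by
  choose X' h1 h2 using h
  exact aff_of (Grp.afs_sum _ fun k => Grp.afs_smul (a k) ⟨h1 k, h2 k⟩)

/-- conjugation with a similitude -/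
lemma aff_conj (g : GRP c) {s : ℝ} {L : Ix → V} (a : V) (hs : 0 < s) (hL : IsLor L) {O O' : Set V}
    (e : sim s L a '' O ⊆ O') {X : D → D} (h : Aff (c.N O) X) :
    Aff (c.N O') fun v => c.Q.U s L a
      (X (c.Q.U s⁻¹ (linv L) (-(sim s⁻¹ (linv L) 0 a)) v)) := by
  obtain ⟨X', h1, h2⟩ := h
  have R := c.hN.toRep
  have i1 := ue_inv R hs hL a
  refine ⟨fun w => c.Q.U s L a (X' (c.Q.U s⁻¹ (linv L) (-(sim s⁻¹ (linv L) 0 a)) w)),
    fun v w => ?_, fun Z hZ v w => ?_⟩
  · conv_lhs => rw [← i1 w]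
    conv_rhs => rw [← i1 v]
    rw [c.Q.U_inner _ _ _ _ _ hs hL, c.Q.U_inner _ _ _ _ _ hs hL, h1]
  · have hZ' := conj_comm (g.uni s L a)
      (fun X hX => c.N_mono e _ ((g.alg s L a O hs hL X).1 hX)) hZ
    have h3 := h2 _ hZ' (c.Q.U s⁻¹ (linv L) (-(sim s⁻¹ (linv L) 0 a)) v)
      (c.Q.U s⁻¹ (linv L) (-(sim s⁻¹ (linv L) 0 a)) w)
    simp only [ContinuousLinearMap.mul_apply, inner_star, g.coe s L a _ hs hL, i1] at h3
    exact h3

lemma pd_lin (m : Ix) {f f' : Fn} (a : ℂ) (hf : IsTest f) (hf' : IsTest f') :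
    (pd m fun x => f x + a * f' x) = fun x => pd m f x + a * pd m f' x := by
  funext x
  rw [← Ap.dv_bas, Ap.dv_add (Ap.sw_diff hf x) ((Ap.sw_diff hf' x).const_mul a), Ap.dv_cmul,
    Ap.dv_bas, Ap.dv_bas]

lemma pd_sim (k : Ix) {s : ℝ} {L : Ix → V} (a : V) (hs : 0 < s) (hL : IsLor L) {f : Fn}
    (hf : IsTest f) : (pd k fun x => f (sim s L a x)) =
      fun x => ∑ j, ((s * L k j : ℝ) : ℂ) * pd j f (sim s L a x) := by
  funext x
  let A : V →L[ℝ] V := (H755.simE s L hs hL).toContinuousLinearEquiv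
  have e : ∀ x, sim s L a x = A x + a := fun x => by
    show _ = H755.simE s L hs hL x + a
    rw [H755.simE_apply, HM.sim_at s L a]
  have e2 : ∀ j, A (bas k 1) j = s * L k j := fun j => by
    show H755.simE s L hs hL (bas k 1) j = _
    rw [H755.simE_apply]
    simp [sim, bas]
  simp only [e]
  rw [← Ap.dv_bas, Ap.dv_aff A a (Ap.sw_diff hf _), dv]
  simp only [e2]

/-- the potential as a continuous linear map -/
def lC (c : Ctx D) : Sch →L[ℂ] Completion D := Grp.toC c.l c.hl.lin c.hl.cont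

lemma l_sum {ι : Type*} (t : Finset ι) (a : ι → ℂ) {f : ι → Fn} (hf : ∀ i, IsTest (f i)) :
    c.l (fun x => ∑ i ∈ t, a i * f i x) = ∑ i ∈ t, a i • c.l (f i) := by
  choose g hg using hf
  have h1 : lC c (∑ i ∈ t, a i • g i) = ∑ i ∈ t, a i • lC c (g i) := by
    simp only [map_sum, map_smul]
  have h2 : ∀ g, lC c g = c.l (ev g) := fun _ => rfl
  simpa only [h2, Grp.ev_sum, hg] using h1

/-- the gradient of the potential -/
def gr (c : Ctx D) (μ : Fin 1 → Ix) (f : Fn) : Completion D :=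
  ((-3 * eta (μ 0) : ℝ) : ℂ) • c.l (pd (μ 0) f)

lemma sum1 {M : Type*} [AddCommMonoid M] (F : (Fin 1 → Ix) → M) :
    ∑ ν, F ν = ∑ k, F fun _ => k :=
  ((Equiv.funUnique (Fin 1) Ix).symm.sum_comp F).symm

lemma mult (g : GRP c) : Mult c.Q 1 3 (gr c) where
  lin μ f f' a hf hf' := by
    rw [gr, gr, gr, pd_lin _ a hf hf', c.hl.lin _ _ a (Ap.test_pd _ hf) (Ap.test_pd _ hf'),
      smul_add, smul_comm a]
  cont μ := by
    simp only [gr, Grp.pd_ev]
    exact (c.hl.cont.comp (LineDeriv.lineDerivOpCLM ℂ Sch (bas (μ 0) 1 : V)).continuous).const_smul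
      ((-3 * eta (μ 0) : ℝ) : ℂ)
  cov μ s L a f hs hL hf := by
    have h1 : ∀ k, Ue c.Q s L a (gr c (fun _ => k) fun x => f (sim s L a x)) =
        ∑ j, ((-3 * eta k * (s * L k j) * (s ^ 2)⁻¹ : ℝ) : ℂ) • c.l (pd j f) := fun k => by
      rw [← Ug_apply c.Q hs hL, gr, pd_sim k a hs hL hf,
        l_sum _ _ fun j => Grp.test_sim hs hL a (Ap.test_pd j hf), map_smul, map_sum,
        Finset.smul_sum]
      refine Finset.sum_congr rfl fun j _ => ?_
      rw [map_smul, g.pot s L a _ hs hL (Ap.test_pd j hf), ← Complex.coe_smul, smul_smul,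
        smul_smul]
      congr 1
      push_cast
      ring
    rw [sum1]
    simp only [h1, Finset.smul_sum, smul_smul]
    rw [Finset.sum_comm]
    simp only [← Finset.sum_smul, ← Complex.ofReal_mul, ← Complex.ofReal_sum]
    have h2 : ∀ j, ∑ k, s ^ ((4 : ℝ) - 3) * (∏ i : Fin 1, L k (μ i)) *
        (-3 * eta k * (s * L k j) * (s ^ 2)⁻¹) = -3 * bas (μ 0) (eta (μ 0)) j := fun j => by
      rw [← lor_transpose hL, Finset.mul_sum]
      refine Finset.sum_congr rfl fun k _ => ?_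
      rw [show (4 : ℝ) - 3 = 1 by norm_num, Real.rpow_one, Fin.prod_univ_one]
      field_simp
    simp only [h2]
    rw [Finset.sum_eq_single (μ 0) (fun j _ hj => by simp [bas, hj]) (by simp)]
    simp [gr, bas]

lemma weak (h : G2 c) (μ : Fin 1 → Ix) : N86.WeakLoc c.Q (gr c μ) := fun f X X' hf hX => by
  rw [gr, gr, inner_smul_right, inner_smul_left, Complex.conj_ofReal, h (μ 0) f X X' hf hX]

end G3p

open G3p

theorem g3_row {D : Type*} [NormedAddCommGroup D] [InnerProductSpace ℂ D] (c : Ctx D) (t : T3 c)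
    (h2 : G2 c) (hR : Rec c.Q) : G3 c := by
  have g := t.grp
  have j := t.jc
  have R := c.hN.toRep
  have hab : 0 < mdot va vb := by rw [md_ab]; exact one_pos
  obtain ⟨Φ, hΦ⟩ := hR 1 3 _ (mult g) (weak h2)
  have hF : ∀ m, c.Q.fld (Φ fun _ => m) := fun m => c.Q.bose_fld _ (hΦ _).1
  have hv : ∀ m f, IsTest f → ((Φ (fun _ => m) f c.Q.vac : D) : Completion D) =
      ((-3 * eta m : ℝ) : ℂ) • c.l (pd m f) := fun m f hf => (hΦ _).2 f hf
  refine ⟨fun m => Φ fun _ => m, ⟨fun m => (hΦ _).1, fun m f v w hf => ?_,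
    fun m s L a f v hs hL hf => ?_, fun f v hf => ?_⟩, fun m n f hf => ?_⟩
  · obtain ⟨B, hB, hadj⟩ := c.Q.adj _ (hF m)
    rw [hadj f v w hf]
    congr 1
    obtain ⟨G, hG⟩ := Ap.test_bar hf
    rw [← hG]
    refine sub_eq_zero.1 (ST.vanish_of_compact (Grp.fC hB w - Grp.fC (hF m) w) G fun u hu _ => ?_)
    obtain ⟨y, hy⟩ := ex_wdg hu
    have hi : In (Wdg va vb y) (ev u) := ⟨⟨u, rfl⟩, hu, hy⟩
    have hi' := Ap.in_bar hi
    refine sub_eq_zero.2 (sepr j g (c.hN.fld _ _ _ hB hi) (c.hN.fld _ _ _ (hF m) hi) ?_ w)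
    have p1 := Pr.of_afs (afs_of_aff (fun v w => hadj _ v w hi'.1) (c.hN.fld _ _ _ (hF m) hi'))
      c.Q.vac
    have p2 := j.core va vb y _ _ null_va null_vb hab fun X X' hX =>
      weak h2 (fun _ => m) _ X X' ⟨hi'.1, hi'.2.1, Set.subset_univ _⟩ (hX.mono (wdg_cc hi'.2.2))
    rw [← (hΦ _).2 _ hi'.1, ← (hΦ _).2 _ (Ap.test_bar hi'.1)] at p2
    have p3 := p1.unique p2 (j.cyc' g null_va null_vb hab y)
    rw [Ap.bar_bar] at p3
    exact Completion.coe_injective D p3
  · obtain ⟨G, rfl⟩ := hf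
    have key : ∀ u : Sch, (Grp.fC (hF m) (c.Q.U s L a v) - ∑ k, (s * L k m : ℂ) •
        ((ueI c.Q hs hL a).toContinuousLinearMap ∘L Grp.fC (hF k) v ∘L Grp.simS hs hL a)) u =
        Φ (fun _ => m) (ev u) (c.Q.U s L a v) - ∑ k, (s * L k m : ℂ) •
          c.Q.U s L a (Φ (fun _ => k) (fun x => ev u (sim s L a x)) v) := fun u => by
      have e : ev (Grp.simS hs hL a u) = fun x => ev u (sim s L a x) :=
        funext (Grp.simS_apply hs hL a u)
      simp only [ContinuousLinearMap.sub_apply, ContinuousLinearMap.sum_apply,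
        ContinuousLinearMap.smul_apply, ContinuousLinearMap.comp_apply, Grp.fC_apply, e]
      rfl
    refine sub_eq_zero.1 ((key G).symm.trans (ST.vanish_of_compact _ G fun u hu _ => ?_))
    obtain ⟨y, hy⟩ := ex_wdg hu
    have hi : In (Wdg va vb y) (ev u) := ⟨⟨u, rfl⟩, hu, hy⟩
    have i1 := ue_inv R hs hL a
    have i2 : ∀ v, c.Q.U s⁻¹ (linv L) (-(sim s⁻¹ (linv L) 0 a)) (c.Q.U s L a v) = v := fun v =>
      (ueI c.Q hs hL a).injective (i1 _)
    have h3 := sepr j g (c.hN.fld _ _ _ (hF m) hi) (aff_sum (fun k => (s * L k m : ℂ)) fun k =>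
      aff_conj g a hs hL (Set.image_preimage_subset _ _)
        (c.hN.fld _ _ _ (hF k) (Ap.in_sim hs hL a hi))) ?_ (c.Q.U s L a v)
    · rw [key, h3]
      simp only [i2, sub_self]
    · refine Completion.coe_injective D ?_
      have h4 := (mult g).cov (fun _ => m) s L a _ hs hL hi.1
      rw [sum1] at h4
      rw [(hΦ _).2 _ hi.1, h4, c.Q.U_vac _ _ _ (inv_pos.2 hs) (isLor_linv hL),
        ← Completion.coe_toComplL (𝕜 := ℂ), map_sum]
      refine Finset.sum_congr rfl fun k _ => ?_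
      rw [map_smul, Completion.coe_toComplL, ← ue_coe hs hL,
        (hΦ _).2 _ (Grp.test_sim hs hL a hi.1), show (4 : ℝ) - 3 = 1 by norm_num, Real.rpow_one,
        Fin.prod_univ_one, Complex.ofReal_mul]
  · obtain ⟨G, rfl⟩ := hf
    have key : ∀ u : Sch, (∑ m, (eta m : ℂ) • Grp.fC (Grp.T_fld c.hT m m) v +
        ∑ m, Grp.fC (hF m) v ∘L LineDeriv.lineDerivOpCLM ℂ Sch (bas m 1 : V)) u =
        GF.tr c.T (ev u) v + ∑ m, Φ (fun _ => m) (pd m (ev u)) v := fun u => by
      simp only [ContinuousLinearMap.add_apply, ContinuousLinearMap.sum_apply,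
        ContinuousLinearMap.smul_apply, ContinuousLinearMap.comp_apply, Grp.fC_apply, Grp.pd_ev]
      rfl
    refine eq_neg_of_add_eq_zero_left
      ((key G).symm.trans (ST.vanish_of_compact _ G fun u hu _ => ?_))
    obtain ⟨y, hy⟩ := ex_wdg hu
    have hi : In (Wdg va vb y) (ev u) := ⟨⟨u, rfl⟩, hu, hy⟩
    have h3 := sepr j g (aff_of (g.affh _ _ hi)) (aff_sum (fun _ => (-1 : ℂ)) fun k =>
      c.hN.fld _ _ _ (hF k) (Ap.in_pd k hi)) ?_ v
    · rw [key]
      simp only [neg_one_smul, Finset.sum_neg_distrib] at h3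
      exact add_eq_zero_iff_eq_neg.2 h3
    · refine Completion.coe_injective D ?_
      rw [Ctx.Thf, ← c.hl.trace _ hi.1, ← Completion.coe_toComplL (𝕜 := ℂ), map_sum]
      have e : box (ev u) = fun x => ∑ m, (eta m : ℂ) * pd m (pd m (ev u)) x := rfl
      rw [e, l_sum _ _ fun m => Ap.test_pd m (Ap.test_pd m hi.1), Finset.smul_sum]
      refine Finset.sum_congr rfl fun k _ => ?_
      rw [map_smul, Completion.coe_toComplL, hv _ _ (Ap.test_pd k hi.1), smul_smul, smul_smul]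
      congr 1
      push_cast
      ring
  · refine Completion.coe_injective D ?_
    have e : pd n (pd m f) = pd m (pd n f) := by
      funext x
      simpa only [Ap.dv_bas] using Ap.dv_comm (Ap.sw_smooth hf) (bas n 1) (bas m 1) x
    have e2 : ∀ k, (eta k : ℂ) * ((-3 * eta k : ℝ) : ℂ) = -3 := fun k => by
      rw [← Complex.ofReal_mul, mul_left_comm, eta_sq]
      norm_num
    rw [Completion.coe_smul, Completion.coe_smul, hv _ _ (Ap.test_pd m hf),
      hv _ _ (Ap.test_pd n hf), smul_smul, smul_smul, e2, e2, e]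

end Vale.Agent.P352X
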