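import Vale.Agent.P352X.R.GOOD.B
import Vale.Agent.P352X.R.GEN
import Vale.Agent.P352X.Api3a
import Vale.Agent.P352X.Api4
import Vale.Agent.P352X.TR

/-!
# P352X: the row GOOD
-/

set_option linter.all false

noncomputable section

open Filter Topology Metric Set MeasureTheory
open scoped SchwartzMap ContDiff

namespace Vale.Agent.P352X

open Vale.Agent.P352 Vale.Agent.P352.GF Vale.Agent.P352.BW Vale.Agent.P352.H246
open Vale.Agent.P352.H496 Vale.Agent.P352.H755 Vale.Agent.P352.H15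
open UniformSpace (Completion)

namespace Gd

/-- the point map of the group -/
def sg (p : Q3) (z : V) : V := pt (Real.exp p.1 * al z)
  (Real.exp (-p.1) * (be z + p.2.2 * tx z 0 + p.2.2 ^ 2 * al z / 2 + p.2.1))
  (tx z + (p.2.2 * al z) • e2 0)

theorem sg_zero (z : V) : sg 0 z = z := by simp [sg]

theorem sg_iv (p : Q3) (z : V) : sg (iv p) (sg p z) = z := by
  have := Real.exp_ne_zero p.1
  refine null_ext ?_ ?_ (funext fun i => ?_) <;> simp [sg, iv, Real.exp_neg, -tx_0] <;> field_simp <;>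
    ring

theorem sm_sg : ContDiff ℝ ∞ fun q : Q3 × V => sg q.1 q.2 := by
  unfold sg
  fun_prop

theorem fam (f : Sch) (cf : HasCompactSupport f) : Api4.Fam univ fun p z => f (sg p z) :=
  ⟨isOpen_univ, ((f.smooth ⊤).comp sm_sg).contDiffOn, fun y _ =>
    ⟨_, ((isCompact_closedBall y 1).prod cf).image
      (sm_sg.continuous.comp (ct_iv.prodMap continuous_id)), by
      filter_upwards [closedBall_mem_nhds y one_pos] with p hp z hz
      exact image_eq_zero_of_notMem_tsupport fun h => hz ⟨(p, _), ⟨hp, h⟩, sg_iv p z⟩⟩⟩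

/-- the transformed test function -/
def fs (f : Sch) (p : Q3) : Sch := sch fun z => f (sg p z)

theorem fs_apply {f : Sch} (cf : HasCompactSupport f) (p z) : fs f p z = f (sg p z) :=
  Api4.sch_apply ((fam f cf).dc (mem_univ p)) z

theorem ct_fs {f : Sch} (cf : HasCompactSupport f) : Continuous (fs f) :=
  continuousOn_univ.1 (fam f cf).continuousOn

theorem sint {f : Sch} (cf : HasCompactSupport f) {h : Q3 → ℝ} (sh : Continuous h)
    (ch : HasCompactSupport h) : ST.SInt (fun p => h p • fs f (iv p)) volume :=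
  have k := sh.fun_smul ((ct_fs cf).comp ct_iv)
  .of_continuous k fun a b => ⟨_, (((schwartz_withSeminorms ℝ V ℂ).continuous_seminorm
    (a, b)).comp k).integrable_of_hasCompactSupport
      (ch.smul_right.comp_left (g := SchwartzMap.seminorm ℝ a b) (map_zero _)), fun _ => le_rfl⟩

theorem near {K O : Set V} (hK : IsCompact K) (hO : IsOpen O) (h : K ⊆ O) :
    ∀ᶠ p in 𝓝 (0 : Q3), ∀ z ∈ K, sg p z ∈ O :=
  hK.eventually_forall_of_forall_eventually fun z hz => sm_sg.continuous.continuousAt.eventually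
    (hO.mem_nhds (by simpa [sg_zero] using h hz))

theorem open_dc (y : V) (r : ℝ) : IsOpen (dc y r) :=
  (isOpen_Fc.preimage (by fun_prop)).inter (isOpen_Fc.preimage (by fun_prop))

theorem mem_dc (y : V) {r : ℝ} (h : 0 < r) : y ∈ dc y r := by
  have : bas o r ∈ Fc := ⟨by simpa [mdot_eq, bas, o] using h.ne', by simpa [bas] using h⟩
  exact ⟨by simpa using this, by simpa using this⟩

variable {D : Type*} [NormedAddCommGroup D] [InnerProductSpace ℂ D] {c : Ctx D}

theorem trunc {M : VonNeumannAlgebra (Completion D)} {X X' : D → D} (h : T.Afs M X X') :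
    ∃ Z A B : ℕ → Completion D →L[ℂ] Completion D, (∀ n, Z n ∈ M) ∧
      ((∀ n (v : D), Z n v = A n (X v : D)) ∧ (∀ n, ‖A n‖ ≤ 1) ∧
        ∀ x, Tendsto (fun n => A n x) atTop (𝓝 x)) ∧
      (∀ n (v : D), star (Z n) v = B n (X' v : D)) ∧ (∀ n, ‖B n‖ ≤ 1) ∧
        ∀ x, Tendsto (fun n => B n x) atTop (𝓝 x) := by
  choose Z hZ A B hA hB h1 h2 h3 h4 using fun n : ℕ => TR.trunc_t M (fun v : D => (v : Completion D))
    (fun v => (X v : D)) (fun v => (X' v : D)) h.2 (1 / ((n : ℝ) + 1)) (by positivity)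
  have key : ∀ (C : ℕ → Completion D →L[ℂ] Completion D) (b : D → ℝ), (∀ n x, ‖C n x‖ ≤ ‖x‖) →
      (∀ n (v : D), ‖C n v - v‖ ≤ 1 / ((n : ℝ) + 1) * b v) →
      (∀ n, ‖C n‖ ≤ 1) ∧ ∀ x, Tendsto (fun n => C n x) atTop (𝓝 x) := fun C b k hb =>
    ⟨fun n => ContinuousLinearMap.opNorm_le_bound _ zero_le_one (by simpa using k n),
      TR.tendsto_of_dense _ Completion.denseRange_coe C k fun v =>
        tendsto_iff_norm_sub_tendsto_zero.2 (squeeze_zero (fun _ => norm_nonneg _) (hb · v) (by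
          simpa using (tendsto_one_div_add_atTop_nhds_zero_nat (𝕜 := ℝ)).mul_const (b v)))⟩
  exact ⟨Z, A, B, hZ, ⟨h1, key A _ hA h3⟩, h2, key B _ hB h4⟩

/-- `U` implements the point map `τ` -/
structure Cv (c : Ctx D) (U : Completion D →L[ℂ] Completion D) (τ : V → V) : Prop where
  uni : U ∈ unitary (Completion D →L[ℂ] Completion D)
  vac : U c.Om = c.Om
  alg : ∀ O, ∀ X ∈ c.N O, U * X * star U ∈ c.N (τ '' O)
  test : ∀ f, GF.IsTest f → GF.IsTest fun x => f (τ x)
  fld : ∃ u : D → D, ∀ v : D, U v = u v ∧ ∀ f, GF.IsTest f →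
    u (c.Thf (fun x => f (τ x)) v) = c.Thf f (u v)

theorem Cv.mul {U U' τ τ'} (h : Cv c U τ) (h' : Cv c U' τ') : Cv c (U * U') fun x => τ (τ' x) := by
  obtain ⟨u, hu⟩ := h.fld
  obtain ⟨u', hu'⟩ := h'.fld
  refine ⟨mul_mem h.uni h'.uni, by simp [h.vac, h'.vac], fun O X hX => ?_,
    fun f hf => h'.test _ (h.test f hf), fun v => u (u' v), fun v => ⟨by
      simp [(hu _).1, (hu' _).1], fun f hf =>
      (congrArg u ((hu' v).2 _ (h.test f hf))).trans ((hu _).2 f hf)⟩⟩
  simpa only [star_mul, mul_assoc, image_image] using h.alg _ _ (h'.alg O X hX)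

theorem cv_ug (g : GRP c) {L a τ} (h : IsLor L ∧ ∀ z, sim 1 L a z = τ z) :
    Cv c (Ug c.Q 1 L a) τ := by
  obtain rfl : sim 1 L a = τ := funext h.2
  refine ⟨g.uni _ _ _, g.vac _ _ _, fun O X => (g.alg _ _ _ O one_pos h.1 X).1, fun f hf => ?_,
    _, fun v => ⟨g.coe _ _ _ v one_pos h.1, fun f => g.th _ _ _ f v one_pos h.1⟩⟩
  obtain ⟨F, rfl⟩ := exists_fl hf
  exact (funext fun x => simS_apply 1 one_pos h.1 a F (WithLp.toLp 2 x) : fl _ = _) ▸ isTest_fl _

theorem cv (g : GRP c) (p : Q3) : Cv c (c.gq p) (sg p) := by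
  have a := g.lsc _ _ (Real.exp_pos p.1) (Real.exp_pos (-p.1))
  rw [Gen.sq1] at a
  have b := ((cv_ug g a).mul (cv_ug g (a := p.2.1 • vb) (τ := fun z => z + p.2.1 • vb)
    ⟨H496.isLor_one, fun z => (sim_one _ z).trans (add_comm _ _)⟩)).mul (cv_ug g (g.lgb p.2.2))
  convert b using 1
  · rw [Ctx.gq, Bo, Usc, Gen.sq1]
    rfl
  · exact funext fun z => null_ext (by simp [sg]) (by simp [sg]) (by simp [sg, Gen.sq1])

theorem rp (g : GRP c) : Rp c.gq := by
  refine ⟨Gen.gq_mul g, ?_, fun q => (cv g q).uni, fun z => ?_⟩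
  · simp [Ctx.gq, Bo, Pb, g.sc1, g.ut0, g.gb0]
  · exact (continuous_prod_of_dense_continuous_lipschitzWith
      (fun y : Completion D × Q3 => c.gq y.2 y.1) 1 Completion.denseRange_coe
      (by rintro _ ⟨v, rfl⟩; exact (Gen.sm g v).continuous) fun q =>
        LipschitzWith.of_dist_le_mul fun x y => by
          simp [dist_eq_norm, ← map_sub, ContinuousLinearMap.norm_map_of_mem_unitary (cv g q).uni]).comp
      (continuous_const.prodMk continuous_id)

theorem good (g : GRP c) {X} (h : ContDiff ℝ ∞ fun q => c.gq q * X * star (c.gq q)) :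
    c.Good X := by
  have r := rp g
  unfold Ctx.Good
  convert h using 2 with q
  have e : c.gq (0, 0, -q.2.2) * c.gq (0, -q.2.1, 0) * c.gq (-q.1, 0, 0) = c.gq (iv q) := by
    rw [r.mul, r.mul]
    simp [ml, iv]
    rfl
  rw [r.star_eq, ← e]
  simp [Ctx.gq, Bo, Pb, g.sc1, g.ut0, g.gb0, mul_assoc]

/-- the action on `D` -/
def ud (g : GRP c) (p : Q3) : D → D := (cv g p).fld.choose

theorem ud_coe (g : GRP c) (p : Q3) (v : D) : c.gq p v = ud g p v := ((cv g p).fld.choose_spec v).1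

/-- the field as a continuous linear map -/
def tf (c : Ctx D) (v : D) : Sch →L[ℂ] Completion D := (Gen.tt c v).comp ofSch

theorem tf_apply (v : D) (f : Sch) : tf c v f = (c.Thf (ev f) v : D) := Gen.tt_apply _ _

theorem orb (g : GRP c) {f : Sch} (cf : HasCompactSupport f) (v : D) (p : Q3) :
    ((c.Thf (ev f) (ud g p v) : D) : Completion D) = c.gq p (tf c v (fs f p)) := by
  rw [tf_apply, ud_coe g, show ev (fs f p) = fun x => ev f (sg p x) from funext (fs_apply cf p)]
  exact congrArg _ (((cv g p).fld.choose_spec v).2 _ ⟨f, rfl⟩).symm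

section half

variable (g : GRP c) {f : Sch} (cf : HasCompactSupport f)
  {Z A X : ℕ → Completion D →L[ℂ] Completion D}
  (hZ : (∀ n (v : D), Z n v = A n (c.Thf (ev f) v : D)) ∧ (∀ n, ‖A n‖ ≤ 1) ∧
    ∀ x, Tendsto (fun n => A n x) atTop (𝓝 x))
include g cf hZ

theorem sm_orb (v : D) :
    ContDiff ℝ ∞ fun p => ((c.Thf (ev f) (ud g p v) : D) : Completion D) := by
  let π : Fin 3 → Q3 →L[ℝ] ℝ := ![.fst ℝ _ _, (ContinuousLinearMap.fst ℝ ℝ ℝ).comp (.snd ℝ _ _),
    (ContinuousLinearMap.snd ℝ ℝ ℝ).comp (.snd ℝ _ _)]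
  refine sm_of (e := fun (v : D) p => c.gq p v) (W := fun v p => (c.Thf (ev f) (ud g p v) : D))
    (c := fun j r => (π j).comp (fderiv ℝ (ml (iv r)) r)) (Z := fun n => (Z n).restrictScalars ℝ)
    (A := fun n => (A n).restrictScalars ℝ) (fun j => contDiff_const.clm_comp
      (ContDiff.fderiv (m := ∞) (sm_ml (sm_iv contDiff_fst) contDiff_snd) contDiff_id le_rfl))
    (fun v => ?_) (fun v => ?_) (fun n v r => ?_) hZ.2.1 hZ.2.2 v
  · simp only [orb g cf]
    exact (rp g).st.app ((tf c v).continuous.comp (ct_fs cf))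
  · obtain ⟨w, B, d, e⟩ := Gen.gq_der g v
    refine ⟨w, fun r => ((rp g).der d r).congr_fderiv (ContinuousLinearMap.ext fun y => ?_)⟩
    simp [e, π, Fin.sum_univ_three]
  · rw [ud_coe g]
    exact hZ.1 n _

theorem half {h : Q3 → ℝ} (sh : ContDiff ℝ ∞ h) (ch : HasCompactSupport h) {f' : Sch}
    (e : ∀ z, f' z = ∫ p, h p • f (sg (iv p) z))
    (m : ∀ n, Sm h (fun p => c.gq p * Z n * star (c.gq p)) (X n)) (v : D) (k : ℕ) :
    TendstoLocallyUniformly (fun n => iteratedFDeriv ℝ k fun q => c.gq q (X n v))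
      (iteratedFDeriv ℝ k fun q => c.gq q (c.Thf (ev f') v : D)) atTop := by
  have r := rp g
  have a : ∀ n, X n v = ∫ p, (h p : ℂ) • c.gq p (A n (c.Thf (ev f) (ud g (iv p) v) : D)) :=
    fun n => by simp only [m n v, r.star_eq, ContinuousLinearMap.mul_apply, ud_coe g, hZ.1]
  have b : ((c.Thf (ev f') v : D) : Completion D) =
      ∫ p, (h p : ℂ) • c.gq p (c.Thf (ev f) (ud g (iv p) v) : D) := by
    rw [← tf_apply, ((sint cf sh.continuous ch).clm (g := f')
      (by simp [e, fs_apply cf]) (tf c v)).2]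
    simp only [orb g cf, ← ContinuousLinearMap.mul_apply, r.mul, ml_iv, r.one,
      ContinuousLinearMap.one_apply, Complex.coe_smul, ContinuousLinearMap.map_smul_of_tower]
  simp only [a, b]
  exact r.conv sh ch hZ.2.1 hZ.2.2 ((sm_orb g cf hZ v).comp (sm_iv contDiff_id)) k

end half

theorem smear (g : GRP c) {h : Q3 → ℝ} (sh : ContDiff ℝ ∞ h) (ch : HasCompactSupport h)
    {K O : Set V} (k : ∀ p ∈ tsupport h, ∀ z ∈ K, sg p z ∈ O) {Z} (hZ : Z ∈ c.N K) :
    ∃ X, Sm h (fun p => c.gq p * Z * star (c.gq p)) X ∧ X ∈ c.N O ∧ c.Good X :=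
  have s := (rp g).ad Z
  (s.ex sh.continuous ch).imp fun X m => ⟨m, m.mem sh.continuous ch s fun p hp =>
    c.hN.mono _ _ (image_subset_iff.2 (k p hp)) _ ((cv g p).alg K Z hZ),
    good g ((rp g).good sh ch m)⟩

end Gd

open Gd

theorem good_row {D : Type*} [NormedAddCommGroup D] [InnerProductSpace ℂ D] (c : Ctx D)
    (t : T1 c) : GOOD c := by
  have g := t.grp
  have R := rp g
  refine ⟨fun y r r0 => ?_, fun y r f m η hf η0 => ?_⟩
  · obtain ⟨ρ, ρ0, hρ⟩ := nhds_basis_closedBall.mem_iff.1 ((open_dc y r).mem_nhds (mem_dc y r0))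
    refine ((g.rs _ isOpen_ball ⟨y, mem_ball_self ρ0⟩).mono ?_).of_closure
    rintro _ ⟨Z, hZ, rfl⟩
    refine Metric.mem_closure_iff.2 fun ε ε0 => ?_
    obtain ⟨h, sh, ch, th, h0, h1⟩ := bump ((near (isCompact_closedBall y ρ) (open_dc y r) hρ).and
      ((R.ct (Z c.Om)).continuousAt.eventually (closedBall_mem_nhds _ (half_pos ε0))))
    obtain ⟨X, m, k⟩ := smear g sh ch (fun p hp => (th hp).1)
      (c.hN.mono _ _ ball_subset_closedBall _ hZ)
    refine ⟨_, ⟨X, k.1, k.2, rfl⟩, ?_⟩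
    rw [dist_comm, dist_eq_norm, m]
    simp only [ContinuousLinearMap.mul_apply, R.star_eq, (cv g _).vac, Complex.coe_smul]
    exact (approx sh.continuous ch h0 h1 (R.ct _) fun p hp => by
      simpa [R.one, dist_eq_norm] using (th hp).2).trans_lt (half_lt_self ε0)
  · have cf : HasCompactSupport f := hf.2.1
    have a : Continuous fun p => sn m (fs f (iv p) - f) := by
      simp only [Api4.sn_eq]
      exact (ST.continuous_sn m).comp (((ct_fs cf).comp ct_iv).sub continuous_const)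
    obtain ⟨h, sh, ch, th, h0, h1⟩ := bump ((near cf (open_dc y r) hf.2.2).and
      (a.continuousAt.eventually_lt continuousAt_const (g := fun _ => η / 2) (by
        rw [iv_zero, show fs f 0 = f from SchwartzMap.ext fun z => by rw [fs_apply cf, sg_zero],
          sub_self, sn, map_zero]
        exact half_pos η0)))
    have s := sint cf sh.continuous ch
    have e : ∀ z, s.int z = ∫ p, h p • f (sg (iv p) z) := fun z => by
      simp [s.int_apply, fs_apply cf]
    have hK := (ch.prod cf).image sm_sg.continuous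
    have z0 : ∀ z ∉ (fun q : Q3 × V => sg q.1 q.2) '' tsupport h ×ˢ tsupport f, s.int z = 0 :=
        fun z hz => by
      rw [e]
      refine integral_eq_zero_of_ae (.of_forall fun p => smul_eq_zero.2 (by_contra fun k => hz
        ⟨(p, sg (iv p) z), ⟨subset_closure (not_or.1 k).1, subset_closure (not_or.1 k).2⟩, ?_⟩))
      simpa only [iv_iv] using sg_iv (iv p) z
    obtain ⟨Z, A, B, hZ, hA, hB⟩ := trunc (g.affh (tsupport f) _ ⟨hf.1, cf, le_rfl⟩)
    choose X hX k using fun n => smear g sh ch (fun p hp => (th hp).1) (hZ n)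
    obtain ⟨F, hF⟩ := isTest_bar hf.1
    obtain ⟨F', hF'⟩ := isTest_bar ⟨s.int, rfl⟩
    refine ⟨s.int, X, ⟨⟨_, rfl⟩, .intro hK z0, (closure_minimal (Function.support_subset_iff'.2 z0)
      hK.isClosed).trans ?_⟩, (Lie.sn_le (half_pos η0).le fun i hi j hj x =>
      (SchwartzMap.le_seminorm ℝ i j _ x).trans ?_).trans_lt (half_lt_self η0), k,
      fun v j => ⟨half g cf hA sh ch e hX v j, ?_⟩⟩
    · rintro _ ⟨q, hq, rfl⟩
      exact (th hq.1).1 _ hq.2
    · rw [← ST.norm_wd, map_sub, (s.clm_real s.int_apply (ST.wd i j)).2]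
      simp only [map_smul]
      refine approx sh.continuous ch h0 h1 ((ST.wd i j).continuous.comp ((ct_fs cf).comp ct_iv))
        fun p hp => ?_
      rw [Function.comp_apply, ← map_sub, ST.norm_wd, ← ST.seminorm_eq (𝕜 := ℂ)]
      exact (Lie.le_sn hi hj _).trans (th hp).2.le
    · rw [← hF] at hB
      rw [← hF']
      have b : ∀ z, F z = star (f z) := congrFun hF
      refine half g (show IsCompact (tsupport (ev F)) by rw [hF, tsupport_bar]; exact cf) hB sh ch
        (fun z => ?_) (fun n => ?_) v j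
      · rw [show F' z = starRingEnd ℂ (s.int z) from congrFun hF' z, e, ← integral_conj]
        simp [b]
      · have s := R.ad (Z n)
        have s' := R.ad (star (Z n))
        rw [norm_star] at s'
        simpa only [star_mul, star_star, mul_assoc] using (hX n).star sh.continuous ch s
          (by simpa only [star_mul, star_star, mul_assoc] using s')

end Vale.Agent.P352X
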