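import Vale.Agent.P352X.R.IB.Est

/-!
# P352X: the row IB (helper83)
-/

set_option linter.all false

open MeasureTheory Filter Topology Set
open scoped SchwartzMap ComplexConjugate ContDiff Real

namespace Vale.Agent.P352X

open Vale.Agent.P352 Vale.Agent.P352.GF Vale.Agent.P352.BW Vale.Agent.P352.H246
open Vale.Agent.P352.H496 Vale.Agent.P352.H755
open UniformSpace (Completion)
open Complex (I exp)

noncomputable section

namespace Ib

variable {g g' ρ κ : P3 → ℝ}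

lemma prim1 {u : ℝ → ℝ} (hu : Tst u) (h0 : ∫ t, u t = 0) :
    ∃ U, Tst U ∧ ∀ t, HasDerivAt U (u t) t := by
  obtain ⟨R, hR, h⟩ := rad hu
  have d : ∀ t, HasDerivAt (fun t => ∫ s in (-R)..t, u s) (u t) t := fun t =>
    (hu.1.continuous.integral_hasStrictDerivAt _ _).hasDerivAt
  refine ⟨_, Ap.cs_of (contDiff_infty_iff_deriv.2 ⟨fun t => (d t).differentiableAt, ?_⟩)
    (isCompact_Icc (a := -R) (b := R)) fun t ht => ?_, d⟩
  · rw [funext fun t => (d t).deriv]
    exact hu.1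
  · rw [mem_Icc, not_and_or, not_le, not_le] at ht
    rcases ht with ht | ht
    · rw [intervalIntegral.integral_congr (g := fun _ => 0) fun s hs => h s (by
        rw [uIcc_of_ge ht.le] at hs
        exact le_abs.2 (.inr (le_neg_of_le_neg hs.2))), intervalIntegral.integral_zero]
    · rw [intervalIntegral.integral_eq_integral_of_support_subset fun s hs => ?_, h0]
      have := abs_lt.1 (lt_of_not_ge fun k => hs (h s k))
      exact ⟨this.1, this.2.le.trans ht.le⟩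

lemma Dx_eq (hg : Differentiable ℝ g) {y : P3} {a : ℝ}
    (h : HasDerivAt (fun t : ℝ => g (y.1 + t, y.2)) a 0) : Dx (1, 0) g y = a :=
  ((hg y).hasFDerivAt.hasLineDerivAt (1, 0)).unique (by simpa [HasLineDerivAt, Prod.add_def] using h)

lemma der_Dx (hg : Differentiable ℝ g) (y : P3) :
    HasDerivAt (fun t : ℝ => g (y.1 + t, y.2)) (Dx (1, 0) g y) 0 := by
  simpa [HasLineDerivAt, Prod.add_def, Dx] using (hg y).hasFDerivAt.hasLineDerivAt (1, 0)

lemma tst_ap (j : ℕ) (hg : Tst g) : Tst (ap j g) := Ap.cs_mul_l (contDiff_fst.pow j) hg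

lemma tst_k3 {k : ℝ → ℝ} {k' : R2 → ℝ} (hk : Tst k) (hk' : Tst k') : Tst (k3 k k') := Ap.cs_prod hk hk'

lemma prim3 {k : ℝ → ℝ} {k' : R2 → ℝ} (hk : Tst k) (hk' : Tst k') {j : ℕ}
    (h : ∫ t, t ^ j * k t = 0) : ∃ g0, Tst g0 ∧ ap j (k3 k k') = Dx (1, 0) g0 := by
  obtain ⟨U, h1, h2⟩ := prim1 (Ap.cs_mul_l (contDiff_id.pow j) hk) h
  refine ⟨k3 U k', tst_k3 h1 hk', funext fun y =>
    (Dx_eq ((tst_k3 h1 hk').1.differentiable (by simp)) ?_).symm⟩
  simpa [k3, ap, mul_assoc] using ((h2 (y.1 + 0)).comp_const_add y.1 0).mul_const (k' y.2)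

lemma Dx_ap (j : ℕ) (hg : Tst g) (y : P3) :
    Dx (1, 0) (ap j g) y = j * y.1 ^ (j - 1) * g y + y.1 ^ j * Dx (1, 0) g y := by
  refine Dx_eq ((tst_ap j hg).1.differentiable (by simp)) ?_
  simpa [ap] using (((hasDerivAt_id (0 : ℝ)).const_add y.1).fun_pow j).fun_mul
    (der_Dx (hg.1.differentiable (by simp)) y)

lemma key_pt (hρ : Tst ρ) (hκ : Tst κ) (h : ∀ y ∈ tsupport ρ, κ y = 1) (y : P3) :
    Dx (1, 0) (ap 2 ρ) y * Dx (1, 0) (ap 0 κ) y - 2 * (Dx (1, 0) (ap 1 ρ) y * Dx (1, 0) (ap 1 κ) y) +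
      Dx (1, 0) (ap 0 ρ) y * Dx (1, 0) (ap 2 κ) y = -2 * ρ y := by
  simp only [Dx_ap _ hρ, Dx_ap _ hκ]
  by_cases k : y ∈ tsupport ρ
  · have : Dx (1, 0) κ y = 0 := closure_minimal (t := {y | Dx (1, 0) κ y = 0}) (fun z hz => by
      have e : κ =ᶠ[𝓝 z] fun _ => 1 := (hρ.1.continuous.isOpen_support.eventually_mem hz).mono
        fun x hx => h x (subset_tsupport _ hx)
      simp [Dx, e.fderiv_eq]) (isClosed_eq (tst_Dx _ hκ).1.continuous continuous_const) k
    simp [this, h y k]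
    ring
  · have : Dx (1, 0) ρ y = 0 := by simp [Dx, (notMem_tsupport_iff_eventuallyEq.1 k).fderiv_eq]
    simp [this, image_eq_zero_of_notMem_tsupport k]

lemma ft3_Dx (hg : Tst g) (k : P3) : ft3 (cx (Dx (1, 0) g)) k = -(I * k.1) * ft3 (cx g) k := by
  have := ft3_fd (sch (cx g)) (1, 0) k
  rw [Api4.coe_sch (Api4.dc_cx hg)] at this
  convert this using 3 with y
  · have := (Complex.ofRealCLM.hasFDerivAt.comp y (hg.1.differentiable (by simp) y).hasFDerivAt).fderiv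
    exact (DFunLike.congr_fun this (1, 0)).symm
  · simp [d2]

lemma ft3_cx (g : P3 → ℝ) (k : P3) : ft3 (cx g) (-k) = conj (ft3 (cx g) k) := by
  rw [← neg_neg k, ← ft3_conj, neg_neg]
  congr 1 with t
  simp [cx]

lemma II_add (hg : Tst g) (hg' : Tst g') :
    II g g' + II g' g = ((2 * π) ^ 3 * ∫ y, Dx (1, 0) g y * Dx (1, 0) g' y : ℝ) := by
  have d := Api4.dc_cx (tst_Dx (1, 0) hg)
  have d' := Api4.dc_cx (tst_Dx (1, 0) hg')
  set F : P3 → ℂ := fun k => k.1 ^ 2 • (conj (ft3 (cx g) k) * ft3 (cx g') k)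
  have e : ∀ k, conj (ft3 (sch (cx (Dx (1, 0) g))) k) * ft3 (sch (cx (Dx (1, 0) g'))) k = F k := by
    intro k
    simp only [Api4.coe_sch d, Api4.coe_sch d', ft3_Dx hg, ft3_Dx hg', F, map_mul, map_neg,
      Complex.conj_I, Complex.conj_ofReal, Complex.real_smul, Complex.ofReal_pow]
    linear_combination -(k.1 ^ 2 * conj (ft3 (cx g) k) * ft3 (cx g') k) * Complex.I_sq
  have i : Integrable F := (funext e : _ = F) ▸ Ap.sw_int (Ap.sw_mul (Ap.sw_temp
    (Ap.sw_conj (sw_ft3 _))) (sw_ft3 _))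
  have p := ft3_plancherel (sch (cx (Dx (1, 0) g))) (sch (cx (Dx (1, 0) g')))
  simp only [e] at p
  simp only [Api4.coe_sch d, Api4.coe_sch d', cx, Complex.conj_ofReal, ← Complex.ofReal_mul,
    integral_complex_ofReal] at p
  have q : II g' g = ∫ k, Pp.indicator (fun k => F (-k)) k := by
    rw [II, integral_m3, integral_indicator meas_Pp]
    simp [F, ft3_cx, mul_comm]
  rw [← p, q, II, integral_m3, ← integral_indicator meas_Pp, ← integral_neg_eq_self (Pp.indicator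
    fun k => F (-k)), ← integral_add (i.indicator meas_Pp) (i.comp_neg.indicator meas_Pp).comp_neg]
  refine integral_congr_ae (.of_forall fun k => ?_)
  rcases lt_trichotomy 0 k.1 with a | a | a
  · simp [indicator, a, a.not_gt]
  · simp [indicator, F, ← a]
  · simp [indicator, a, a.not_gt]

lemma G_eq (hρ : Tst ρ) (hκ : Tst κ) (h : ∀ y ∈ tsupport ρ, κ y = 1) :
    ∑ j : Fin 3, (![1, -2, 1] j : ℂ) * (II (ap (2 - j) ρ) (ap j κ) + II (ap j κ) (ap (2 - j) ρ)) =
      ((2 * π) ^ 3 * (-2 * ∫ y, ρ y) : ℝ) := by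
  have i : ∀ m n, Integrable fun y => Dx (1, 0) (ap m ρ) y * Dx (1, 0) (ap n κ) y := fun m n =>
    Ap.cs_int (Ap.cs_mul_r (tst_Dx _ (tst_ap m hρ)) (tst_Dx _ (tst_ap n hκ)).1)
  rw [← integral_const_mul, ← funext (key_pt hρ hκ h),
    integral_add (by exact (i _ _).sub ((i _ _).const_mul 2)) (i _ _),
    integral_sub (i _ _) ((i _ _).const_mul 2), integral_const_mul]
  simp [II_add (tst_ap _ hρ) (tst_ap _ hκ), Fin.sum_univ_three]
  ring

variable {D : Type*} [NormedAddCommGroup D] [InnerProductSpace ℂ D] {c : Ctx D}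

theorem ib_thm (t : T2 c) : IB c := by
  intro ell c0 cc dd h S ρ k θ k' hρ _ hk _ hm hk' hθ h1 h0
  have hκ := tst_k3 hk hk'
  have G := G_eq hρ hκ fun y hy => by rw [k3, (h1 y hy).1, (h1 y hy).2, mul_one]
  refine ⟨_, G ▸ Complex.ofReal_ne_zero.2 (mul_ne_zero (by positivity)
    (mul_ne_zero (by norm_num) h0)), fun η hη => ?_⟩
  have p := sd_ch (.inl rfl) hθ
  have m := sd_ch (.inr rfl) hθ
  have A := fun j => tst_ap j hρ
  have B := fun j => tst_ap j hκ
  have K := fun j : Fin 3 => prim3 hk hk' (hm j (Nat.le_of_lt_succ j.2))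
  have l1 := tendsto_finset_sum Finset.univ fun (j : Fin 3) _ =>
    ((((faceR h t S (.inr rfl) hθ p (B j) (A (2 - j)) ((K j).imp fun _ a => ⟨a.1, .inl a.2⟩)).add
      (faceL h t S (.inl rfl) hθ m (B j) (A (2 - j)) ((K j).imp fun _ a => ⟨a.1, .inl a.2⟩))).add
      (faceL h t S (.inl rfl) hθ m (A (2 - j)) (B j) ((K j).imp fun _ a => ⟨a.1, .inr a.2⟩))).add
      (faceR h t S (.inr rfl) hθ p (A (2 - j)) (B j)
        ((K j).imp fun _ a => ⟨a.1, .inr a.2⟩))).const_mul (![1, -2, 1] j : ℂ)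
  have l2 := (((lim_int (S.int _ _ p.d0 m.d0)).comp ratio).sub_const
    (YY cc (ch 1 θ) (ch (-1) θ))).const_mul (∑ j : Fin 3, (![1, -2, 1] j : ℂ) *
      (II (ap (2 - j) ρ) (ap j (k3 k k')) + II (ap j (k3 k k')) (ap (2 - j) ρ)))
  have l3 := l1.add l2
  simp only [add_zero, mul_zero, Finset.sum_const_zero, YY, sub_self] at l3
  refine (eventually_curry_iff (p := fun q : ℝ × ℝ => ‖c.Faces _ _ _ q.1 q.2 - _‖ ≤ η)).1 (((l3.norm.eventually_le_const (by simpa using hη)).and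
    (ev_LL 0)).mono fun q a => (le_of_eq ?_).trans a.1)
  rw [Function.comp, ← two_int (S.cont _ _ p.d0 m.d0) a.2.1 a.2.2.1]
  simp only [Ctx.Faces, chp_eq, chm_eq, abv_eq, blw_eq, YY, Finset.sum_mul, mul_sub,
    ← Finset.sum_add_distrib, ← Finset.sum_sub_distrib]
  congr 1
  exact Finset.sum_congr rfl fun j _ => by ring

end Ib

theorem ib_row {D : Type*} [NormedAddCommGroup D] [InnerProductSpace ℂ D] (c : Ctx D) :
    T3 c → IB c := fun t => Ib.ib_thm t.toT2

end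

end Vale.Agent.P352X
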