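import Vale.Agent.P352X.R.JC.A2
import Vale.Agent.P352X.R.JC.B

/-!
# P352X, row JC: the modular conjugation of the wedge, duality
-/

set_option linter.all false

namespace Vale.Agent.P352X

variable {D : Type*} [NormedAddCommGroup D] [InnerProductSpace ℂ D]

theorem jc_row (c : Ctx D) (t : T0 c) : JC c where
  lor := JCa.lor
  ug := JCa.ug c
  S := JCb.S c t
  S0 := JCa.s0 c
  one := JCa.one c
  two := JCa.two c
  dual := JCb.dual c t
  alg := JCa.alg_of c (JCb.dual c t _ _ _ null_va null_vb (by rw [md_ab]; exact one_pos))
  core := JCb.core c t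

end Vale.Agent.P352X
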