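import Vale.Agent.P352X.R.BAS

/-!
# P352X: row KT
-/

noncomputable section

open MeasureTheory Filter Topology Complex Set
open scoped ComplexConjugate

namespace Vale.Agent.P352X

open Vale.Agent.P352 Vale.Agent.P352.GF Vale.Agent.P352.BW
open Vale.Agent.P352.H496 Vale.Agent.P352.H755 Vale.Agent.P352.H15
open SN (BC Calc Bd IsPair URep)
open UniformSpace (Completion)
open Br

namespace Br

section grp

variable {X H : Type*} [MeasurableSpace X] [NormedAddCommGroup H] [InnerProductSpace ℂ H]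
  [CompleteSpace H] (C : Calc X H) {r r' : X → ℝ}

/-- the unitary group of a real function -/
def Ex (r : X → ℝ) (t : ℝ) : H →L[ℂ] H := C.Phi fun p => cexp (I * (t * r p : ℝ))

lemma ex_bd (hr : Measurable r) (t : ℝ) : Bd fun p => cexp (I * (t * r p : ℝ)) :=
  Bd.expI (measurable_const.mul hr)

lemma Ex_zero : Ex C r 0 = 1 := by simpa [Ex] using C.one

lemma Ex_add (hr : Measurable r) (s t : ℝ) : Ex C r (s + t) = Ex C r s * Ex C r t := by
  rw [Ex, Ex, Ex, ← C.mul (ex_bd hr s) (ex_bd hr t)]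
  congr 1
  funext p
  rw [← Complex.exp_add]
  push_cast
  ring_nf

lemma Ex_star (hr : Measurable r) (t : ℝ) : star (Ex C r t) = Ex C r (-t) := by
  rw [Ex, ← C.star (ex_bd hr t), Ex]
  congr 1
  funext p
  rw [← exp_conj, map_mul, conj_I, conj_ofReal]
  push_cast
  ring_nf

lemma Ex_uni (hr : Measurable r) (t : ℝ) : Ex C r t ∈ unitary (H →L[ℂ] H) := by
  rw [Unitary.mem_iff, Ex_star C hr, ← Ex_add C hr, ← Ex_add C hr, neg_add_cancel, add_neg_cancel,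
    Ex_zero]
  exact ⟨rfl, rfl⟩

lemma Ex_cont (hr : Measurable r) (z : H) : Continuous fun t => Ex C r t z := by
  refine continuous_iff_continuousAt.2 fun t => ?_
  refine C.tendsto_Phi (ex_bd hr) (ex_bd hr t) (K := 1) (Eventually.of_forall fun t =>
    Eventually.of_forall fun p => (norm_exp_I_mul_ofReal _).le) (Eventually.of_forall fun p => ?_)
  exact (show Continuous fun t : ℝ => cexp (I * (t * r p : ℝ)) by fun_prop).tendsto t

lemma Ex_comm (hr : Measurable r) (hr' : Measurable r') (s t : ℝ) :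
    Ex C r s * Ex C r' t = Ex C r' t * Ex C r s := by
  ext z
  exact C.comm (ex_bd hr s) (ex_bd hr' t) z

lemma Ex_lip (hr : Measurable r) {z : H} (hz : C.Dom (fun p => (r p : ℂ)) z)
    (h : ∀ᵐ p ∂C.nu z, 0 ≤ r p) {t : ℝ} (ht : 0 ≤ t) :
    ‖Ex C r t z - z‖ ^ 2 ≤ 2 * t * (inner ℂ z (C.Psi (fun p => (r p : ℂ)) z)).re := by
  have h1 := C.dist_sq (ex_bd hr t) (Bd.const 1) z
  rw [C.one, one_apply_eq_self] at h1
  have hi : Integrable r (C.nu z) := by simpa using hz.integrable.re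
  rw [Ex, h1, Calc.inner_Psi_self hz, integral_complex_ofReal, ofReal_re, ← integral_const_mul]
  refine integral_mono_ae (SN.memLp_sq (((ex_bd hr t).sub (Bd.const 1)).memLp _ 2))
    (hi.const_mul _) ?_
  filter_upwards [h] with p hp
  have h2 : ‖cexp (I * (t * r p : ℝ)) - 1‖ ≤ t * r p :=
    Real.norm_exp_I_mul_ofReal_sub_one_le.trans_eq (Real.norm_of_nonneg (mul_nonneg ht hp))
  have h3 : ‖cexp (I * (t * r p : ℝ)) - 1‖ ≤ 2 := by
    refine (norm_sub_le _ _).trans_eq ?_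
    rw [norm_exp_I_mul_ofReal, norm_one]
    norm_num
  nlinarith [norm_nonneg (cexp (I * (t * r p : ℝ)) - 1)]

end grp

variable {D : Type*} [NormedAddCommGroup D] [InnerProductSpace ℂ D] (c : Ctx D)

lemma S0_Ex (t : ℝ) : c.S0 t = Ex c.kc.toCalc Kin.k0 t := ContinuousLinearMap.ext (c.S0_Phi t)

lemma Sk_Ex (t : ℝ) : c.Sk t = Ex c.kc.toCalc Kin.kt t := ContinuousLinearMap.ext (c.Sk_Phi t)

lemma ae_kt (v : Completion D) : ∀ᵐ q ∂c.kc.nu v, 0 ≤ Kin.kt q :=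
  Kin.ae_kt_nonneg c.kc c.bR c.hS fr c.bV c.kpos v

lemma ae_k0 (v : Completion D) : ∀ᵐ q ∂c.kc.nu v, 0 ≤ Kin.k0 q :=
  Kin.ae_k0_nonneg c.kc c.bR c.hS fr c.bV v

/-- covariance of the joint calculus under the transverse translations -/
lemma tv_kc (y : R2) {f : Kin.KX → ℂ} (hf : Bd f) (v : Completion D) :
    Ut c.Q (tv y) (c.kc.Phi f v) = c.kc.Phi (fun q => f (Kin.ky y q)) (Ut c.Q (tv y) v) := by
  rw [Ut_apply, Ut_apply, ← tv_kin]
  exact Kin.tv_Phi c.kc c.bR c.hS fr y hf v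

/-- covariance of the joint calculus under the scalings -/
lemma sc_kc {r s : ℝ} (hr : 0 < r) (hs : 0 < s) {f : Kin.KX → ℂ} (hf : Bd f) (v : Completion D) :
    Usc c.Q r s (c.kc.Phi f v) =
      c.kc.Phi (fun q => f (s⁻¹ * q.1, Real.sqrt (r / s) • q.2.1, r * q.2.2)) (Usc c.Q r s v) := by
  rw [Usc_apply _ hr hs, Usc_apply _ hr hs, Kin.sc_Phi c.kc c.bR c.hS fr (sc_pos hr hs)
    (Real.sqrt_pos.2 (div_pos hr hs)) (scL_lor hr hs) (scL_va r s)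
    (fun w => by rw [tv_kin, scL_tv]) hf]
  simp only [Kin.ks, sqrt_sc hr hs, sqrt_sc' hr hs]

lemma kt_sc {r s : ℝ} (hr : 0 < r) (hs : 0 < s) (q : Kin.KX) :
    Kin.kt (s⁻¹ * q.1, Real.sqrt (r / s) • q.2.1, r * q.2.2) = s⁻¹ * Kin.kt q := by
  have := Kin.kt_ks (σ := Real.sqrt (r * s)) (Real.sqrt_pos.2 (div_pos hr hs)).ne' q
  simpa only [Kin.ks, sqrt_sc hr hs, sqrt_sc' hr hs] using this

lemma k0_sc {r s : ℝ} (hr : 0 < r) (hs : 0 < s) (q : Kin.KX) :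
    Kin.k0 (s⁻¹ * q.1, Real.sqrt (r / s) • q.2.1, r * q.2.2) = s⁻¹ * Kin.k0 q := by
  have := Kin.k0_ks (σ := Real.sqrt (r * s)) (Real.sqrt_pos.2 (div_pos hr hs)).ne' q
  simpa only [Kin.ks, sqrt_sc hr hs, sqrt_sc' hr hs] using this

/-- translations in the null plane -/
lemma Ut_plane {y : V} (hy : be y = 0) (z : Completion D) :
    Ut c.Q y z = Pa c.Q (al y) (Ut c.Q (tv (tx y)) z) := by
  rw [Pa, Ut_apply, Ut_apply, Ut_apply, ← (Kin.urep_tr c.bR).add]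
  congr 1
  conv_lhs => rw [← pt_self y, pt_eq, hy, zero_smul, add_zero]

/-- functions of `Kt` commute with the translations in the null plane -/
lemma Ut_kt {y : V} (hy : be y = 0) {f : ℝ → ℂ} (hf : Bd f) (z : Completion D) :
    Ut c.Q y (c.kc.Phi (fun q => f (Kin.kt q)) z) =
      c.kc.Phi (fun q => f (Kin.kt q)) (Ut c.Q y z) := by
  rw [Ut_plane c hy, Ut_plane c hy, Ut_apply, Ut_apply, ← tv_kin,
    Kin.tv_kt c.kc c.bR c.hS fr c.bV _ hf, c.Pa_Phi, c.Pa_Phi]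
  exact c.kc.comm (ex_bd (r := fun q : Kin.KX => q.2.2) (by fun_prop) _) (hf.comp Kin.kt_meas) _

end Br

variable {D : Type*} [NormedAddCommGroup D] [InnerProductSpace ℂ D]

/-- row KT, without hypotheses -/
theorem kt_thm (c : Ctx D) : KT c where
  add0 s t := by simp only [S0_Ex, Ex_add _ Kin.k0_meas]
  add s t := by simp only [Sk_Ex, Ex_add _ Kin.kt_meas]
  zero := by simp only [S0_Ex, Sk_Ex, Ex_zero, and_self]
  uni t := by
    rw [S0_Ex, Sk_Ex]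
    exact ⟨Ex_uni _ Kin.k0_meas t, Ex_uni _ Kin.kt_meas t⟩
  cont z := by
    simp only [S0_Ex, Sk_Ex]
    exact ⟨Ex_cont _ Kin.k0_meas z, Ex_cont _ Kin.kt_meas z⟩
  comm s t := by
    refine ⟨by rw [S0_Ex, Sk_Ex, Ex_comm _ Kin.k0_meas Kin.kt_meas], ?_⟩
    rw [Ctx.Sk, mul_assoc, S0_Ex, S0_Ex, ← Ex_add _ Kin.k0_meas, neg_add_cancel, Ex_zero, mul_one]
  vac t := by
    rw [c.S0_Phi, c.Sk_Phi, Kin.kPhi_om c.kc c.bR c.hS fr (ex_bd Kin.k0_meas t),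
      Kin.kPhi_om c.kc c.bR c.hS fr (ex_bd Kin.kt_meas t)]
    simp [Kin.kt, Kin.k0]
  ut t y hy := by
    ext z
    rw [mul_apply_eq_comp, mul_apply_eq_comp, c.Sk_Phi, c.Sk_Phi]
    exact Ut_kt c hy (f := fun x => cexp (I * (t * x : ℝ))) (ex_bd measurable_id t) z
  ga t w := by
    ext z
    rw [mul_apply_eq_comp, mul_apply_eq_comp, c.Sk_Phi, c.Sk_Phi, c.Ga_Phi, c.Ga_Phi]
    exact c.kc.comm (Bd.expI (by unfold d2; fun_prop)) (ex_bd Kin.kt_meas t) z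
  sc r s t hr hs := by
    ext z
    rw [mul_apply_eq_comp, mul_apply_eq_comp, c.Sk_Phi, c.Sk_Phi,
      sc_kc c hr hs (ex_bd Kin.kt_meas t)]
    simp only [kt_sc hr hs]
    simp only [div_eq_mul_inv, mul_assoc]
  pos z w h := by
    obtain ⟨h1, rfl⟩ := c.cgn_Sk.1 h
    exact Calc.form_nonneg h1 (ae_kt c z)
  lip z w t ht h := by
    obtain ⟨h1, rfl⟩ := c.cgn_Sk.1 h
    rw [Sk_Ex]
    exact Ex_lip _ Kin.kt_meas h1 (ae_kt c z) ht
  dom z := by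
    rw [dm_iff _ measurable_fst fun t => c.SK_Phi t z, dm_iff _ Kin.kt_meas fun t => c.Sk_Phi t z,
      dm_iff _ Kin.k0_meas fun t => c.S0_Phi t z]
    exact Kin.dom_K c.kc c.bR c.hS fr c.bV c.kpos
  split z hz := by
    obtain ⟨h1, h2⟩ := c.cgn_SK.1 hz.gn'
    obtain ⟨h3, h4⟩ := (Kin.dom_K c.kc c.bR c.hS fr c.bV c.kpos).1 h1
    rw [(c.cgn_Sk.2 ⟨h3, rfl⟩).gen_eq', (c.cgn_S0.2 ⟨h4, rfl⟩).gen_eq', ← h2]
    refine ⟨Kin.K_eq c.kc h3 h4, ?_⟩
    simpa only [pow_one] using (Kin.norm_kt_pow c.kc c.bR c.hS fr c.bV c.kpos 1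
      (by simpa only [pow_one] using h1)).2
  two z hz hz' := by
    obtain ⟨h1, h2⟩ := c.cgn_SK.1 hz.gn'
    obtain ⟨h3, h4⟩ := c.cgn_SK.1 hz'.gn'
    rw [← h2] at h3
    obtain ⟨h5, h6⟩ := Calc.Psi_mul h1 h3
    obtain ⟨h7, h8⟩ := Kin.norm_kt_pow c.kc c.bR c.hS fr c.bV c.kpos 2
      (by simpa only [_root_.sq] using h5)
    simp only [_root_.sq] at h7 h8
    have h9 := ((Kin.dom_K c.kc c.bR c.hS fr c.bV c.kpos).1 h1).1
    have hm : Measurable fun q => (Kin.kt q : ℂ) := measurable_ofReal.comp Kin.kt_meas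
    have h10 := c.cgn_Sk.2 ⟨(Calc.dom_Psi h9 hm).2 h7, Calc.Psi_Psi h9 hm h7⟩
    rw [(c.cgn_Sk.2 ⟨h9, rfl⟩).gen_eq', h10.gen_eq', ← h4, ← h2, ← h6]
    exact ⟨h10.dm', h8⟩
  k0 ψ ψ' h h0 hP := by
    have a : ∀ i, c.kc.Dom (fun q => (q.2.1 i : ℂ) * q.2.1 i) ψ ∧
        c.kc.Psi (fun q => (q.2.1 i : ℂ) * q.2.1 i) ψ = gen (Mi c.Q i) (gen (Mi c.Q i) ψ) := by
      intro i
      obtain ⟨h1, h2⟩ := (c.cgn_Mi i).1 (h i).1.gn'
      obtain ⟨h3, h4⟩ := (c.cgn_Mi i).1 (h i).2.gn'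
      rw [← h4, ← h2]
      rw [← h2] at h3
      exact Calc.Psi_mul h1 h3
    obtain ⟨h1, h2⟩ := c.cgn_Pa'.1 hP
    have e : (fun q : Kin.KX => ((SN.dot q.2.1 q.2.1 : ℝ) : ℂ)) =
        fun q => (q.2.1 0 : ℂ) * q.2.1 0 + (q.2.1 1 : ℂ) * q.2.1 1 := by
      funext q
      rw [Kin.dot2]
      push_cast
      rfl
    refine c.cgn_S0.2 (Kin.k0_crit c.kc c.bR c.hS fr c.bV h0 ?_ h1 ?_)
    · rw [e]
      exact (a 0).1.add (a 1).1
    · rw [e, Calc.Psi_add (a 0).1 (a 1).1, (a 0).2, (a 1).2, h2, Fin.sum_univ_two]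

theorem kt_row (c : Ctx D) : T1 c → KT c := fun _ => kt_thm c

end Vale.Agent.P352X

end
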