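import Vale.Agent.P352X.Api1C

/-!
# P352X, row MIR: the mirror image of the time ordered product
-/

set_option linter.all false

noncomputable section

open scoped SchwartzMap ComplexConjugate

namespace Vale.Agent.P352X

open Vale.Agent.P352 Vale.Agent.P352.GF Vale.Agent.P352.BW Vale.Agent.P352.H246
open UniformSpace (Completion)

namespace Mir

/-- the reflection as an equivalence -/
def jE : V ≃L[ℝ] V := ContinuousLinearEquiv.equivOfInverse jrL jrL jr_jr jr_jr

/-- mirror images of test functions -/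
def mr {E : Type*} [NormedAddCommGroup E] [NormedSpace ℝ E] (e : E ≃L[ℝ] E) :
    𝓢(E, ℂ) →L[ℝ] 𝓢(E, ℂ) :=
  SchwartzMap.postcompCLM (Complex.conjCLE : ℂ →L[ℝ] ℂ) ∘L
    SchwartzMap.compCLMOfContinuousLinearEquiv ℝ e

lemma mr_apply {E : Type*} [NormedAddCommGroup E] [NormedSpace ℝ E] (e : E ≃L[ℝ] E)
    (F : 𝓢(E, ℂ)) (x : E) : mr e F x = conj (F (e x)) := rfl

lemma mr1 (f : Sch) (x : V) : mr jE f x = conj (f (jr x)) := rfl

/-- mirror images of test functions of two points -/
def m2 : S2 →L[ℝ] S2 := mr (jE.prodCongr jE)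

lemma mr2 (F : S2) (x y : V) : m2 F (x, y) = conj (F (jr x, jr y)) := rfl

lemma supp1 (f : Sch) {x : V} (h : x ∈ tsupport (mr jE f)) : jr x ∈ tsupport f := by
  have : tsupport (mr jE f) ⊆ jr ⁻¹' tsupport f :=
    closure_minimal (fun y hy => subset_tsupport _ fun e => hy (by rw [mr1, e, map_zero]))
      ((isClosed_tsupport _).preimage cont_jr)
  exact this h

lemma late {f g : Sch} (h : Late (tsupport f) (tsupport g)) :
    Late (tsupport (mr jE g)) (tsupport (mr jE f)) := fun x hx y hy e => by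
  refine h _ (supp1 f hy) _ (supp1 g hx) ?_
  rw [← mu, cone_iff] at e ⊢
  simp only [al_sub, be_sub, tx_sub, al_jr, be_jr, tx_jr] at e ⊢
  simp only [d2, Pi.sub_apply] at e ⊢
  exact ⟨by linarith [e.1], by linarith [e.2.1], by linarith [e.2.2]⟩

/-- the sign -/
def sg (K M : I2) : ℂ := ((sj K.1 * sj K.2 * (sj M.1 * sj M.2) : ℝ) : ℂ)

variable {D : Type*} [NormedAddCommGroup D] [InnerProductSpace ℂ D] (c : Ctx D)

/-- the mirror image of the time ordered product -/
def w (u : I2 → I2 → S2 →L[ℂ] Completion D) (K M : I2) : S2 →L[ℂ] Completion D where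
  toFun G := sg K M • c.J (u K M (m2 G))
  map_add' F G := by rw [map_add, map_add, map_add, smul_add]
  map_smul' a G := by
    have e : m2 (a • G) = conj a • m2 G := by
      ext ⟨x, y⟩
      simp [mr2]
    rw [e, map_smul, J_smul, Complex.conj_conj, smul_comm]
    rfl
  cont := (c.J.continuous.comp ((u K M).continuous.comp m2.continuous)).const_smul (sg K M)

lemma w_apply (u : I2 → I2 → S2 →L[ℂ] Completion D) (K M : I2) (G : S2) :
    w c u K M G = sg K M • c.J (u K M (m2 G)) := rfl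

lemma back (f : Sch) : (bar fun z => ev (mr jE f) (jr z)) = ev f := by
  funext z
  simp [bar, ev, mr1]

/-- the mirror image of a time ordered product is an anti-time ordered product -/
theorem mir_of (j : JC c) {u : I2 → I2 → S2 →L[ℂ] Completion D} (h : TP2 c.Q c.T true u) :
    TP2 c.Q c.T false (w c u) ∧ ∀ K M (F G : S2), (∀ x y, G (x, y) = conj (F (jr x, jr y))) →
      w c u K M G = ((sj K.1 * sj K.2 * (sj M.1 * sj M.2) : ℝ) : ℂ) • c.J (u K M F) := by
  refine ⟨⟨fun I K f g F hF hL => ?_, fun I K F G hG => ?_, fun I K => ?_,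
    fun s L a I K F G hs hL hG => ?_⟩, fun K M F G hG => ?_⟩
  · have e1 := h.swap I K (m2 F) (mr ((ContinuousLinearEquiv.prodComm ℝ V V).trans
      (jE.prodCongr jE)) F) fun x y => rfl
    have e2 := h.fac K I (mr jE g) (mr jE f) (mr ((ContinuousLinearEquiv.prodComm ℝ V V).trans
      (jE.prodCongr jE)) F) (fun x y => by
        rw [mr1, mr1, ← map_mul, mul_comm, ← hF]
        rfl) (late hL)
    rw [w_apply, e1, e2, if_pos rfl, j.two _ _ _ _ _ _ ⟨_, rfl⟩ ⟨_, rfl⟩, back, back, smul_smul,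
      if_neg (by simp), sg, ← Complex.ofReal_mul]
    have e3 : sj I.1 * sj I.2 * (sj K.1 * sj K.2) * (sj K.1 * sj K.2 * (sj I.1 * sj I.2)) = 1 := by
      calc _ = (sj I.1 * sj I.1) * (sj I.2 * sj I.2) * ((sj K.1 * sj K.1) * (sj K.2 * sj K.2)) := by
            ring
        _ = 1 := by simp only [sj_sq, mul_one]
    rw [e3, Complex.ofReal_one, one_smul]
  · rw [w_apply, w_apply, h.swap I K (m2 F) (m2 G) fun x y => by rw [mr2, mr2, hG], sg, sg,
      mul_comm]
  · ext F
    rw [w_apply, w_apply, h.ind I K, sg, sg, Prod.fst_swap, Prod.snd_swap, mul_comm (sj I.1)]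
  · obtain ⟨h1, h2⟩ := j.lor L hL
    obtain ⟨κ, hκ⟩ := h.cov s (jL L) (jr a) I K (m2 F) (m2 G) hs h1 fun x y => by
      have e : ∀ x, jr (sim s (jL L) (jr a) x) = sim s L a (jr x) := fun x => by
        rw [← jr_jr (sim s L a (jr x)), ← h2, jr_jr]
      rw [mr2, mr2, hG, e, e]
    have e1 : jL (jL L) = L := by
      funext m n
      calc jL (jL L) m n = (sj m * sj m) * (sj n * sj n) * L m n := by simp only [jL]; ring
        _ = L m n := by simp only [sj_sq, one_mul]
    refine ⟨sg I K * conj κ, ?_⟩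
    rw [w_apply, hκ, map_add, J_smul, c.J_Om, smul_add, smul_smul, map_sum, Finset.smul_sum]
    congr 1
    refine Finset.sum_congr rfl fun K' _ => ?_
    rw [map_sum, Finset.smul_sum]
    refine Finset.sum_congr rfl fun M' _ => ?_
    rw [J_smul, ← Ug_apply c.Q hs h1, j.ug _ _ _ _ hs h1, e1, jr_jr, w_apply,
      ← Ug_apply c.Q hs hL, map_smul, smul_smul, smul_smul]
    congr 1
    simp only [sg, L2, jL, map_mul, Complex.conj_ofReal, ← Complex.ofReal_mul]
    congr 1
    calc _ = (sj I.1 * sj I.1) * (sj I.2 * sj I.2) * ((sj K.1 * sj K.1) * (sj K.2 * sj K.2)) *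
          (L K'.1 I.1 * L K'.2 I.2 * (L M'.1 K.1 * L M'.2 K.2) *
            (sj K'.1 * sj K'.2 * (sj M'.1 * sj M'.2))) := by ring
      _ = _ := by simp only [sj_sq, one_mul]
  · have e : m2 G = F := by
      ext ⟨x, y⟩
      rw [mr2, hG, jr_jr, jr_jr, Complex.conj_conj]
    rw [w_apply, e, sg]

end Mir

theorem mir_row {D : Type*} [NormedAddCommGroup D] [InnerProductSpace ℂ D] (c : Ctx D)
    (t : T1 c) : MIR c := fun h => ⟨_, Mir.mir_of c t.jc (c.hTP0 h).tp⟩

end Vale.Agent.P352X
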