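import Vale.Agent.P352X.R.PW.A

/-!
# P352X, row PW: Ward identities on the null plane, for fields
-/

set_option linter.all false

open MeasureTheory Filter Topology Set
open scoped SchwartzMap ComplexConjugate ENNReal ContDiff

namespace Vale.Agent.P352X

open Vale.Agent.P352 Vale.Agent.P352.GF Vale.Agent.P352.BW Vale.Agent.P352.H246
open Vale.Agent.P352.H496 Vale.Agent.P352.H755 Vale.Agent.P352.H15
open UniformSpace (Completion)
open Complex (I)

noncomputable section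

namespace Pw

/-- a smooth step with derivative `ρ` -/
structure Stp (u0 : ℝ) (ρ P : ℝ → ℝ) : Prop where
  sm : ContDiff ℝ ∞ P
  der : ∀ t, HasDerivAt P (ρ t) t
  lo : ∀ t, t ≤ -u0 → P t = 0
  hi : ∀ t, u0 ≤ t → P t = 1

lemma ex_stp {u0 : ℝ} {ρ : ℝ → ℝ} (h : Tst ρ) (hs : tsupport ρ ⊆ Ioo (-u0) u0)
    (h1 : ∫ t, ρ t = 1) : ∃ P, Stp u0 ρ P := by
  have d : ∀ t, HasDerivAt (fun t => ∫ s in (-u0)..t, ρ s) (ρ t) t := fun t =>
    (h.1.continuous.integral_hasStrictDerivAt _ t).hasDerivAt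
  refine ⟨_, contDiff_infty_iff_deriv.2 ⟨fun t => (d t).differentiableAt, ?_⟩, d, fun t ht => ?_,
    fun t ht => ?_⟩
  · rw [funext fun t => (d t).deriv]
    exact h.1
  · rw [intervalIntegral.integral_congr (g := fun _ => 0) fun s hs' => ?_]
    · simp
    · rw [uIcc_of_ge ht] at hs'
      exact image_eq_zero_of_notMem_tsupport fun k => (hs k).1.not_ge hs'.2
  · rw [← h1]
    exact intervalIntegral.integral_eq_integral_of_support_subset fun s hs' =>
      ⟨(hs (subset_tsupport _ hs')).1, (hs (subset_tsupport _ hs')).2.le.trans ht⟩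

/-- the step function of the closed surface -/
def Xi (P k : ℝ → ℝ) (L : ℝ) (z : V) : ℝ := 1 - (1 - P (be z)) * k (al z / L)

lemma smooth_Xi {P k : ℝ → ℝ} (hP : ContDiff ℝ ∞ P) (hk : ContDiff ℝ ∞ k) (L : ℝ) :
    ContDiff ℝ ∞ (Xi P k L) :=
  contDiff_const.sub ((contDiff_const.sub (hP.comp smooth_be)).mul
    (hk.comp (smooth_al.div_const L)))

lemma dr_Xi {P k ρ : ℝ → ℝ} (hP : ∀ t, HasDerivAt P (ρ t) t) (hk : Differentiable ℝ k) (L : ℝ)
    (m : Ix) (z : V) : dr m (Xi P k L) z = ρ (be z) * k (al z / L) * (eta m * va m) -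
      (1 - P (be z)) * deriv k (al z / L) / L * (eta m * vb m) := by
  have e1 : ∀ t, be (z + bas m t) = be z + t * (eta m * va m) := fun t => by
    rw [be_add, Ap.bas_smul, be_smul]
    simp [be, GF.mdot, bas]
  have e2 : ∀ t, al (z + bas m t) = al z + t * (eta m * vb m) := fun t => by
    rw [al_add, Ap.bas_smul, al_smul]
    simp [al, GF.mdot, bas]
  have h := hasDerivAt_id' (0 : ℝ)
  have d1 := (hP (be z)).comp_of_eq 0 ((h.mul_const (eta m * va m)).const_add (be z)) (by simp)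
  have d2 := (hk (al z / L)).hasDerivAt.comp_of_eq 0
    (((h.mul_const (eta m * vb m)).const_add (al z)).div_const L) (by simp)
  simp only [dr, Xi, e1, e2]
  refine ((d1.const_sub 1).fun_mul d2).const_sub 1 |>.deriv.trans ?_
  simp only [Function.comp_def, zero_mul, add_zero]
  ring

lemma cone2 {x y : V} (h : 0 ≤ GF.mdot (x - y) (x - y)) :
    (y o ≤ x o ∧ al y ≤ al x ∧ be y ≤ be x ∧
      d2 (tx x - tx y) (tx x - tx y) ≤ 2 * (al x - al y) * (be x - be y)) ∨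
    (x o ≤ y o ∧ al x ≤ al y ∧ be x ≤ be y) := by
  rcases le_total (y o) (x o) with k | k
  · have := (cone_iff (x - y)).1 ⟨sub_nonneg.2 k, h⟩
    simp only [al_sub, be_sub, tx_sub, sub_nonneg] at this
    exact .inl ⟨k, this⟩
  · have := (cone_iff (y - x)).1 ⟨sub_nonneg.2 k, by rwa [← neg_sub, mu_neg]⟩
    simp only [al_sub, be_sub, tx_sub, sub_nonneg] at this
    exact .inr ⟨k, this.1, this.2.1⟩

/-- the closed surface carries the charge -/
theorem chg {K : Set V} {u0 R t1 ε L : ℝ} {κ : P3 → ℝ} {ρ P k θ : ℝ → ℝ} (hu : 0 < u0) (hR : 0 < R)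
    (hK : ∀ y ∈ K, ‖y‖ ≤ R ∧ be y < -u0) (h1 : Tst κ) (h2 : ∀ y, ‖y‖ < ε → κ y = 1)
    (hP : Stp u0 ρ P) (hk : ContDiff ℝ ∞ k) (k1 : ∀ t, t ≤ t1 → k t = 1)
    (k0 : ∀ t, 2 * t1 ≤ t → k t = 0) (hθ : Tst θ)
    (θ1 : ∀ t ∈ Icc (-(u0 + 2 * R)) (u0 + 2 * R), ∀ᶠ x in 𝓝 t, θ x = 1) (hL0 : 0 < L)
    (hL : R < t1 * L) (e1 : 2 * t1 < ε) (e2 : 16 * t1 * (u0 + 2 * R) < ε ^ 2) :
    Chg K (fun z => kL κ L (pl z) * θ (be z)) (Xi P k L) := by
  have a1 : ∀ z, 2 * t1 * L < al z ∨ u0 < be z → ∀ᶠ x in 𝓝 z, Xi P k L x = 1 := by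
    rintro z (h | h)
    · filter_upwards [(isOpen_lt continuous_const cont_al).mem_nhds h] with x hx
      rw [Xi, k0 _ ((le_div_iff₀ hL0).2 (le_of_lt hx)), mul_zero, sub_zero]
    · filter_upwards [(isOpen_lt continuous_const cont_be).mem_nhds h] with x hx
      rw [Xi, hP.hi _ (le_of_lt hx), sub_self, zero_mul, sub_zero]
  have a0 : ∀ z, ∀ y ∈ K, al z ≤ al y → be z ≤ be y → ∀ᶠ x in 𝓝 z, Xi P k L x = 0 := by
    intro z y hy b1 b2
    have b3 : al z < t1 * L := by linarith [le_abs_self (al y), abs_al_le y, (hK y hy).1]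
    filter_upwards [(isOpen_lt cont_al continuous_const).mem_nhds b3,
      (isOpen_lt cont_be continuous_const).mem_nhds (b2.trans_lt (hK y hy).2)] with x c1 c2
    rw [Xi, k1 _ ((div_le_iff₀ hL0).2 (le_of_lt c1)), hP.lo _ (le_of_lt c2)]
    ring
  refine ⟨Ap.tst_pr (Ap.tst_kL h1 hL0) hθ, smooth_Xi hP.sm hk L,
    ⟨2 * t1 * L + u0, fun z hz => ⟨fun h => a1 z ?_, fun h => ?_⟩⟩, fun z hz => ?_⟩
  · rw [time_eq z] at h
    by_contra k
    rw [not_or, not_lt, not_lt] at k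
    linarith [k.1, k.2]
  · obtain ⟨y, hy, hz⟩ := hz
    rcases cone2 hz with b | b
    · have : |y o| ≤ _ := norm_le_pi_norm y o
      linarith [b.1, neg_abs_le (y o), (hK y hy).1]
    · exact a0 z y hy b.2.1 b.2.2
  · obtain ⟨y, hy, hz⟩ := hz
    rcases cone2 hz with ⟨-, b1, b2, b3⟩ | b
    · by_cases h : 2 * t1 * L < al z ∨ u0 < be z
      · exact .inr ((a1 z h).mono fun x hx => hx.trans (a1 z h).self_of_nhds.symm)
      rw [not_or, not_lt, not_lt] at h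
      have c1 := (hK y hy).1
      have c2 := abs_le.1 ((abs_al_le y).trans c1)
      have c3 := abs_le.1 ((abs_be_le y).trans (mul_le_mul_of_nonneg_left c1 two_pos.le))
      have c4 : d2 (tx y) (tx y) ≤ 2 * R ^ 2 := (d2_le_norm _).trans (by
        have := (norm_tx_le y).trans c1
        gcongr)
      have c5 : (al z - al y) * (be z - be y) ≤ 3 * (t1 * L) * (u0 + 2 * R) :=
        mul_le_mul (by linarith [h.1]) (by linarith [h.2]) (sub_nonneg.2 b2) (by linarith)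
      have c6 : R ^ 2 ≤ t1 * L * (u0 + 2 * R) := by nlinarith
      have c7 : d2 (tx z) (tx z) < ε ^ 2 * L := by
        nlinarith [Far.d2_far (tx z) (tx y), mul_lt_mul_of_pos_right e2 hL0]
      have t0 : 0 < t1 := by nlinarith
      have c8 : ‖Ap.kM L (pl z)‖ < ε := by
        rw [Ap.kM_apply, Prod.norm_def, max_lt_iff, Real.norm_eq_abs, abs_div, abs_of_pos hL0,
          div_lt_iff₀ hL0, abs_lt]
        refine ⟨⟨by simp only [pl_1]; nlinarith, by simp only [pl_1]; nlinarith [h.1]⟩,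
          lt_of_pow_lt_pow_left₀ 2 (by linarith) ((norm_sq_le_d2 _).trans_lt ?_)⟩
        rw [d2_smul, d2_smul_l, ← mul_assoc, ← mul_inv, Real.mul_self_sqrt hL0.le,
          inv_mul_lt_iff₀' hL0]
        exact c7
      left
      filter_upwards [(isOpen_lt ((Ap.kM L).continuous.comp cont_pl).norm continuous_const).mem_nhds
        c8, cont_be.continuousAt.eventually (θ1 (be z) ⟨by linarith, by linarith [h.2]⟩)]
        with x d1 d2
      rw [Ap.kL_eq, d2, mul_one]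
      exact h2 _ d1
    · have := a0 z y hy b.2.1 b.2.2
      exact .inr (this.mono fun x hx => hx.trans this.self_of_nhds.symm)

lemma sep {f : Fn} {R t1 L u0 : ℝ} {g : P3 → ℝ} {φ : ℝ → ℝ} (hL0 : 0 < L) (hL : R < t1 * L)
    (hf : ∀ y ∈ tsupport f, ‖y‖ ≤ R ∧ u0 < be y) (hg : tsupport g ⊆ {y | t1 ≤ y.1})
    (hφ : tsupport φ ⊆ Iic u0) (h : V) (X : V → V) (m n : Ix) :
    Sep (hX h X (pr (kL g L) φ) m n) (bar f) := fun x hx y hy => by
  obtain ⟨a1, a2⟩ := Ap.tsupport_pr _ _ (tsupport_mul_subset_right hx)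
  have a3 : t1 ≤ al x / L := hg (Ap.tsupport_kL _ _ a1)
  have a4 : be x ≤ u0 := hφ a2
  obtain ⟨a5, a6⟩ := hf y (Ap.tsupport_bar f ▸ hy)
  rw [le_div_iff₀ hL0] at a3
  change mu (x - y) < 0
  rw [mu_eq, al_sub, be_sub]
  have a7 : 0 < al x - al y := by linarith [le_abs_self (al y), abs_al_le y]
  nlinarith [d2_nonneg (tx (x - y)), mul_pos a7 (show 0 < be y - be x by linarith)]

variable {D : Type*} [NormedAddCommGroup D] [InnerProductSpace ℂ D] {c : Ctx D}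

lemma lim0 {u : ℝ → Completion D} {r : ℝ → ℝ} (h : Sm fun L => r L * ‖u L‖)
    (h0 : ∀ L, 0 < L → 0 ≤ r L) : Tendsto (fun L => (r L : ℂ) • u L) atTop (𝓝 0) := by
  refine tendsto_zero_iff_norm_tendsto_zero.2 ((h.lim fun L hL =>
    mul_nonneg (h0 L hL) (norm_nonneg _)).congr' ?_)
  filter_upwards [eventually_gt_atTop 0] with L hL
  rw [norm_smul, Complex.norm_real, Real.norm_of_nonneg (h0 L hL)]

/-- the plane charge, for profiles of integral one -/
theorem core (hc : CH c) (g : GRP c) {W X} (K : Gen.Fl c W X) (hX' : IsSim 0 X)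
    (hs : ContDiff ℝ ∞ X) (hd : Dec c X) {u0 : ℝ} {f1 f3 : Fn} {κ : P3 → ℝ} {ρ : ℝ → ℝ}
    (hu : 0 < u0) (h1 : In {z | u0 < be z} f1) (h3 : In {z | be z < -u0} f3) (hκ : Cut κ)
    (hρ : Tst ρ) (hρ' : tsupport ρ ⊆ Ioo (-u0) u0) (hi : ∫ t, ρ t = 1) :
    Tendsto (fun L => Ph c f1 f3 (hX va X (pr (kL κ L) ρ))) atTop
      (𝓝 (inner ℂ (c.Th (bar f1)) (gen W (c.Th f3)))) := by
  obtain ⟨R, hR, hb⟩ := (h1.2.1.isCompact.union h3.2.1.isCompact).isBounded.subset_closedBall_lt 0 0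
  obtain ⟨ε, ε0, hε⟩ := Metric.eventually_nhds_iff.1 hκ.2
  obtain ⟨P, hP⟩ := ex_stp hρ hρ' hi
  have hM : 0 < u0 + 2 * R := by positivity
  obtain ⟨t1, t0, e1, e2⟩ : ∃ t1, 0 < t1 ∧ 2 * t1 < ε ∧ 16 * t1 * (u0 + 2 * R) < ε ^ 2 := by
    refine ⟨min (ε / 4) (ε ^ 2 / (32 * (u0 + 2 * R))), by positivity,
      by linarith [min_le_left (ε / 4) (ε ^ 2 / (32 * (u0 + 2 * R)))], ?_⟩
    have := min_le_right (ε / 4) (ε ^ 2 / (32 * (u0 + 2 * R)))
    rw [le_div_iff₀ (by positivity)] at this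
    nlinarith [pow_pos ε0 2]
  obtain ⟨s, s1, s2, s3, -⟩ := Ap.ex_step (show t1 < 2 * t1 by linarith)
  obtain ⟨θ, hθ, -, θ1, -⟩ := Ap.ex_chi (isCompact_Icc (a := -(u0 + 2 * R)) (b := u0 + 2 * R))
    isOpen_univ (subset_univ _)
  set k : ℝ → ℝ := fun t => 1 - s t
  have hk' : ContDiff ℝ ∞ k := contDiff_const.sub s1
  have k1 : ∀ t, t ≤ t1 → k t = 1 := fun t ht => by simp [k, s2 t ht]
  have k0 : ∀ t, 2 * t1 ≤ t → k t = 0 := fun t ht => by simp [k, s3 t ht]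
  set φ : ℝ → ℝ := fun t => (1 - P t) * θ t
  have hφ : Tst φ := Ap.cs_mul_l (contDiff_const.sub hP.sm) hθ
  have sφ : tsupport φ ⊆ Iic u0 := Ap.tsupp_sub isClosed_Iic fun t ht => by_contra fun h =>
    ht (by simp [φ, hP.hi t (not_le.1 h).le])
  have g1 : Tst fun y : P3 => κ y * k y.1 := Ap.cs_mul_r hκ.1 (hk'.comp contDiff_fst)
  have g2 : Tst fun y : P3 => κ y * deriv k y.1 :=
    Ap.cs_mul_r hκ.1 ((contDiff_infty_iff_deriv.1 hk').2.comp contDiff_fst)
  have g3 : Tst fun y : P3 => κ y * s y.1 := Ap.cs_mul_r hκ.1 (s1.comp contDiff_fst)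
  have cl : IsClosed {y : P3 | t1 ≤ y.1} := isClosed_le continuous_const continuous_fst
  have u2 : tsupport (fun y : P3 => κ y * deriv k y.1) ⊆ {y | t1 ≤ y.1} :=
    Ap.tsupp_sub cl fun y hy => by_contra fun h => right_ne_zero_of_mul hy (by
      rw [EventuallyEq.deriv_eq (f := fun _ => 1) (mem_of_superset (Iio_mem_nhds (not_le.1 h))
        fun t ht => k1 t (le_of_lt ht)), deriv_const])
  have u3 : tsupport (fun y : P3 => κ y * s y.1) ⊆ {y | t1 ≤ y.1} :=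
    Ap.tsupp_sub cl fun y hy => by_contra fun h =>
      right_ne_zero_of_mul hy (s2 _ (not_le.1 h).le)
  have tt : ∀ h {g : P3 → ℝ} {ρ : ℝ → ℝ} {L}, Tst g → Tst ρ → 0 < L →
      TT (hX h X (pr (kL g L) ρ)) := fun h g ρ L a b hL m n =>
    (Ap.in_hX h hs (Ap.in_univ (Ap.dc_pr (Ap.tst_kL a hL) b)) m n).1
  have re : ∀ h (g : P3 → ℝ) (ρ : ℝ → ℝ) m n, bar (hX h X (pr g ρ) m n) = hX h X (pr g ρ) m n :=
    fun h g ρ m n => by rw [Ap.bar_hX, Ap.bar_pr]
  have l1 := lim0 (r := fun _ => 1) (by simpa only [one_mul] using (hd _ _ g1 hρ).1)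
    fun _ _ => zero_le_one
  have l2 := lim0 (hd _ _ g2 hφ).2 fun L hL => (inv_pos.2 hL).le
  have l3 := lim0 (r := fun _ => 1) (by simpa only [one_mul] using (hd _ _ g3 hρ).1)
    fun _ _ => zero_le_one
  have l := (((tendsto_const_nhds (x := ((c.Thf (bar f3) (c.Thf (bar f1) c.Q.vac) : D) :
    Completion D))).inner (𝕜 := ℂ) (l1.sub l2)).add_const
      (inner ℂ (c.Th (bar f1)) (gen W (c.Th f3)))).add ((l2.add l3).inner (𝕜 := ℂ)
        (tendsto_const_nhds (x := ((c.Thf f1 (c.Thf f3 c.Q.vac) : D) : Completion D))))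
  simp only [sub_zero, add_zero, inner_zero_left, inner_zero_right, zero_add] at l
  refine l.congr' ?_
  filter_upwards [eventually_gt_atTop 0, eventually_gt_atTop (R / t1)] with L hL0 hL
  rw [div_lt_iff₀' t0] at hL
  have hf : ∀ y ∈ tsupport f1, ‖y‖ ≤ R ∧ u0 < be y := fun y hy =>
    ⟨mem_closedBall_zero_iff.1 (hb (.inl hy)), h1.2.2 hy⟩
  have ch := chg hu hR (fun y hy => ⟨mem_closedBall_zero_iff.1 (hb (.inr hy)), h3.2.2 hy⟩) hκ.1
    (fun y hy => hε (by rwa [dist_zero_right])) hP hk' k1 k0 hθ θ1 hL0 hL e1 e2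
  have θρ : ∀ t, θ t * ρ t = ρ t := fun t => by
    by_cases h : t ∈ tsupport ρ
    · rw [(θ1 t ⟨by linarith [(hρ' h).1], by linarith [(hρ' h).2]⟩).self_of_nhds, one_mul]
    · rw [image_eq_zero_of_notMem_tsupport h, mul_zero]
  have q1 : dens (fun z => kL κ L (pl z) * θ (be z)) (Xi P k L) X = fun m n x =>
      hX va X (pr (kL (fun y => κ y * k y.1) L) ρ) m n x +
        (-(L⁻¹ : ℝ) : ℂ) * hX vb X (pr (kL (fun y => κ y * deriv k y.1) L) φ) m n x := by
    funext m n x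
    simp only [dens, hX, pr, kL, dr_Xi hP.der (hk'.differentiable (by simp)), pl_1, φ]
    rw [← θρ (be x)]
    simp only [← Complex.ofReal_mul, ← Complex.ofReal_neg, ← Complex.ofReal_add]
    congr 1
    linear_combination (κ (al x / L, (Real.sqrt L)⁻¹ • (pl x).2) * k (al x / L) * (eta m * va m) *
      (eta n * X x n)) * θ (be x) * θρ (be x)
  have q0 := (tt va g1 hρ hL0).lin (tt vb g2 hφ hL0) (-(L⁻¹ : ℝ) : ℂ)
  have q2 : hX va X (pr (kL κ L) ρ) = fun m n x => hX va X (pr (kL (fun y => κ y * k y.1) L) ρ)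
      m n x + 1 * hX va X (pr (kL (fun y => κ y * s y.1) L) ρ) m n x := by
    funext m n x
    simp only [hX, pr, kL, k]
    push_cast
    ring
  have w := ward (f1 := f1) hc g K hX' h3.1 h3.2.1 ch (q1 ▸ q0)
  rw [q1, Ph_lin c _ _ (tt va g1 hρ hL0) (tt vb g2 hφ hL0),
    Tv_lin c (tt va g1 hρ hL0) (tt vb g2 hφ hL0),
    Ph_sep c h1.1 (tt vb g2 hφ hL0) (re _ _ _) (sep hL0 hL hf u2 sφ _ _)] at w
  rw [q2, Ph_lin c _ _ (tt va g1 hρ hL0) (tt va g3 hρ hL0), Ph_sep c h1.1 (tt va g3 hρ hL0)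
    (re _ _ _) (sep hL0 hL hf u3 (hρ'.trans fun t ht => ht.2.le) _ _)]
  simp only [Complex.ofReal_one, one_smul, inner_add_left, inner_smul_left, Complex.conj_ofReal,
    neg_smul, ← sub_eq_add_neg] at w ⊢
  linear_combination -w

/-- the plane charge -/
theorem core' (hc : CH c) (g : GRP c) {W X} (K : Gen.Fl c W X) (hX' : IsSim 0 X)
    (hs : ContDiff ℝ ∞ X) (hd : Dec c X) {u0 : ℝ} {f1 f3 : Fn} {κ : P3 → ℝ} {ρ : ℝ → ℝ}
    (h1 : In {z | u0 < be z} f1) (h3 : In {z | be z < -u0} f3) (hκ : Cut κ)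
    (hρ : Tst ρ) (hρ' : tsupport ρ ⊆ Ioo (-u0) u0) :
    Tendsto (fun L => Ph c f1 f3 (hX va X (pr (kL κ L) ρ))) atTop
      (𝓝 ((∫ t, ρ t : ℝ) * inner ℂ (c.Th (bar f1)) (gen W (c.Th f3)))) := by
  have tt : ∀ {ρ : ℝ → ℝ} {L}, Tst ρ → 0 < L → TT (hX va X (pr (kL κ L) ρ)) :=
    fun b hL m n => (Ap.in_hX va hs (Ap.in_univ (Ap.dc_pr (Ap.tst_kL hκ.1 hL) b)) m n).1
  rcases le_or_gt u0 0 with hu | hu
  · have e : ρ = fun _ => 0 := funext fun t => image_eq_zero_of_notMem_tsupport fun h => by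
      linarith [(hρ' h).1, (hρ' h).2]
    subst e
    simp only [integral_zero, Complex.ofReal_zero, zero_mul]
    refine tendsto_const_nhds.congr' ?_
    filter_upwards [eventually_gt_atTop 0] with L hL
    have := Ph_lin c f1 f3 (tt hρ hL) (tt hρ hL) 1
    rw [show (fun m n x => hX va X (pr (kL κ L) fun _ => 0) m n x + 1 * hX va X
      (pr (kL κ L) fun _ => 0) m n x) = hX va X (pr (kL κ L) fun _ => 0) from
        funext fun m => funext fun n => funext fun x => by simp [hX, pr]] at this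
    linear_combination this
  obtain ⟨ρ0, a1, a2, -, a3⟩ := Ap.ex_rho volume (Ioo_mem_nhds (neg_lt_zero.2 hu) hu)
  set m := ∫ t, ρ t
  have b1 : Tst fun t => ρ t + (1 - m) * ρ0 t := Ap.cs_add hρ (Ap.cs_cmul _ a1)
  have l1 := core hc g K hX' hs hd hu h1 h3 hκ b1 ((tsupport_add _ _).trans (union_subset hρ'
    (tsupport_mul_subset_right.trans a2))) (by
      rw [integral_add (Ap.cs_int hρ) (Ap.cs_int (Ap.cs_cmul _ a1)), integral_const_mul, a3]
      ring)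
  have l := l1.add ((core hc g K hX' hs hd hu h1 h3 hκ a1 a2 a3).const_mul ((m : ℂ) - 1))
  rw [← one_add_mul, add_sub_cancel] at l
  refine l.congr' ?_
  filter_upwards [eventually_gt_atTop 0] with L hL
  rw [← Ph_lin c f1 f3 (tt b1 hL) (tt a1 hL)]
  congr 1
  funext m n x
  simp only [hX, pr]
  push_cast
  ring

theorem pw (hc : CH c) (g : GRP c) : PW c := fun u0 f1 f3 κ ρ h1 h3 hκ hρ hρ' => by
  refine ⟨core' hc g (Gen.fl_ut c va) (sim_const _) contDiff_const (dec_a g) h1 h3 hκ hρ hρ',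
    fun i => ?_⟩
  have l := (core' hc g (Gen.fl_mi g i) (sim_M i) (by fun_prop) (dec_M g i) h1 h3 hκ hρ hρ').sub
    (core' hc g (Gen.fl_ut c (ex i)) (sim_const _) contDiff_const (dec_e g i) h1 h3 hκ (tst_t hρ)
      (tsupport_mul_subset_right.trans hρ'))
  refine l.congr' ?_
  filter_upwards [eventually_gt_atTop 0] with L hL
  have t := Ap.tst_kL hκ.1 hL
  rw [hX_M, Ph_lin c f1 f3 (TT_hk _ _ t (tst_t hρ)) (TT_hk _ _ (tst_x t i) hρ), one_mul]
  exact add_sub_cancel_left _ _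

end Pw

theorem pw_row {D : Type*} [NormedAddCommGroup D] [InnerProductSpace ℂ D] (c : Ctx D) :
    T1 c → PW c := fun h => Pw.pw h.ch h.grp

end

end Vale.Agent.P352X
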