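import Vale.Agent.P352X.R.STRUCT.A
import Vale.Agent.P352X.R.GRP.C
import Vale.Agent.P352X.Spec

/-!
# P352X, row STRUCT: the contact terms of the divergence
-/

set_option linter.all false

noncomputable section

open Filter Topology Set Metric
open scoped SchwartzMap ContDiff LineDeriv

namespace Vale.Agent.P352X

namespace Str

open Vale.Agent.P352 Vale.Agent.P352.GF Vale.Agent.P352.BW Api4 Grp
open UniformSpace (Completion)

/-- different points have causally ordered neighbourhoods -/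
lemma late_near {x y : V} (h : x ≠ y) :
    ∃ δ > 0, Late (ball x δ) (ball y δ) ∨ Late (ball y δ) (ball x δ) := by
  have key : ∀ {x y : V}, ¬ (0 ≤ (y - x) o ∧ 0 ≤ mdot (y - x) (y - x)) →
      ∃ δ > 0, Late (ball x δ) (ball y δ) := fun {x y} k => by
    have c : IsClosed {q : V × V | 0 ≤ (q.2 - q.1) o ∧ 0 ≤ mdot (q.2 - q.1) (q.2 - q.1)} := by
      unfold GF.mdot
      refine IsClosed.and (isClosed_le continuous_const ?_) (isClosed_le continuous_const ?_) <;>
        fun_prop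
    obtain ⟨δ, d0, d⟩ := Metric.isOpen_iff.1 c.isOpen_compl (x, y) k
    exact ⟨δ, d0, fun a ha b hb => d (a := (a, b)) (ball_prod_same x y δ ▸ ⟨ha, hb⟩)⟩
  by_cases k : 0 ≤ (y - x) o ∧ 0 ≤ mdot (y - x) (y - x)
  · refine (key (x := y) (y := x) fun k' => h ?_).imp fun _ a => ⟨a.1, .inr a.2⟩
    obtain ⟨k1, k2⟩ := k
    have k3 := k'.1
    simp [GF.mdot, eta, o, Fin.sum_univ_four] at k1 k2 k3
    have e : y 0 = x 0 := le_antisymm k3 k1
    rw [e] at k2
    funext n
    fin_cases n <;> simp <;> nlinarith [sq_nonneg (y 1 - x 1), sq_nonneg (y 2 - x 2),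
      sq_nonneg (y 3 - x 3)]
  · exact (key k).imp fun _ a => ⟨a.1, .inl a.2⟩

lemma d_tens (m : Ix) (f g : Sch) (x y : V) :
    ∂_{((bas m 1, 0) : V × V)} (ST.tens f g) (x, y) = ∂_{(bas m 1 : V)} f x * g y := by
  simp [SchwartzMap.lineDerivOp_apply, lineDeriv]

variable {D : Type*} [NormedAddCommGroup D] [InnerProductSpace ℂ D] {Q : Theory D}
  {T : Ix → Ix → Fld D} {e : Bool} {w : I2 → I2 → S2 →L[ℂ] Completion D}

lemma fld_lin {B : Fld D} (hB : Q.fld B) {f : Fn} (hf : GF.IsTest f) {ι : Type*} (t : Finset ι)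
    (v : ι → D) : B f (∑ i ∈ t, v i) = ∑ i ∈ t, B f (v i) := by
  obtain ⟨B', -, h⟩ := Q.adj B hB
  exact ext_inner_right ℂ fun u => by simp only [sum_inner, h f _ u hf]

lemma coe_sum {ι : Type*} (t : Finset ι) (v : ι → D) :
    ((∑ i ∈ t, v i : D) : Completion D) = ∑ i ∈ t, (v i : Completion D) :=
  map_sum (Completion.toComplL (𝕜 := ℂ)) v t

/-- the exchange of the two points -/
def sw : S2 →L[ℂ] S2 :=
  SchwartzMap.compCLMOfContinuousLinearEquiv ℂ (ContinuousLinearEquiv.prodComm ℝ V V)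

lemma ind2 (h : TP2 Q T e w) (K J : I2) : w K J.swap = w K J := by
  ext F
  rw [h.swap K J F (sw F) fun _ _ => rfl, h.swap K J.swap F (sw F) fun _ _ => rfl, ← h.ind]

/-- the divergence -/
def dvL (w : I2 → I2 → S2 →L[ℂ] Completion D) (n : Ix) (J : I2) : S2 →L[ℂ] Completion D :=
  ∑ m, w (m, n) J ∘L LineDeriv.lineDerivOpCLM ℂ S2 ((bas m 1, 0) : V × V)

lemma dvL_apply (n : Ix) (J : I2) (G : S2) : dvL w n J G = dv1 w n J G := by
  simp [dvL, dv1]

/-- the divergence vanishes off the diagonal -/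
theorem off (hT : Q.IsStress T) (h : TP2 Q T e w) (n : Ix) (J : I2) : Off (dvL w n J) := by
  refine fun G hG => ST.ker2_local _ G fun q hq => ?_
  obtain ⟨δ, d0, d⟩ := late_near (x := q.1) (y := q.2) fun a => hG q.1 (by
    rwa [show (q.1, q.1) = q from Prod.ext rfl a])
  refine ⟨δ, d0, fun f g _ _ s1 s2 => ?_⟩
  have s3 := fun m : Ix => (SchwartzMap.tsupport_lineDerivOp_subset (bas m 1 : V) f).trans s1
  have c1 : ∀ v : D, ∑ m, T m n (ev (∂_{(bas m 1 : V)} f)) v = 0 := fun v => by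
    simpa only [pd_ev] using hT.conserved n (ev f) v ⟨f, rfl⟩
  have a1 : ∑ m, ((T m n (ev (∂_{(bas m 1 : V)} f)) (T J.1 J.2 (ev g) Q.vac) : D) : Completion D) =
      0 := by rw [← coe_sum, c1, Completion.coe_zero]
  have a2 : ∑ m, ((T J.1 J.2 (ev g) (T m n (ev (∂_{(bas m 1 : V)} f)) Q.vac) : D) : Completion D) =
      0 := by
    rw [← coe_sum, ← fld_lin (T_fld hT _ _) ⟨g, rfl⟩, c1, ← Finset.sum_empty (f := fun _ : Ix => 0),
      fld_lin (T_fld hT _ _) ⟨g, rfl⟩, Finset.sum_empty, Completion.coe_zero]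
  rw [dvL_apply, dv1]
  rcases d with d | d
  · rw [Finset.sum_congr rfl fun m _ => h.fac (m, n) J _ g _ (d_tens m f g)
      fun a ha b hb => d a (s3 m ha) b (s2 hb)]
    cases e
    exacts [a2, a1]
  · rw [Finset.sum_congr rfl fun m _ => (h.swap (m, n) J _ (ST.tens g (∂_{(bas m 1 : V)} f))
      fun x y => (mul_comm _ _).trans (d_tens m f g y x).symm).trans
        (h.fac J (m, n) g _ _ (fun _ _ => rfl) fun a ha b hb => d a (s2 ha) b (s3 m hb))]
    cases e
    exacts [a1, a2]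

variable {s : ℝ} {L : Ix → V}

/-- the linear part of a similitude -/
def sl (hs : 0 < s) (hL : IsLor L) : V ≃L[ℝ] V := (H755.simE s L hs hL).toContinuousLinearEquiv

lemma sl_apply (hs : 0 < s) (hL : IsLor L) (x : V) : sl hs hL x = sim s L 0 x :=
  H755.simE_apply hs hL x

/-- the pull back by a similitude -/
def sim2 (hs : 0 < s) (hL : IsLor L) (a : V) : S2 →L[ℂ] S2 :=
  SchwartzMap.compCLMOfContinuousLinearEquiv ℂ ((sl hs hL).prodCongr (sl hs hL)) ∘L
    SchwartzMap.compSubConstCLM ℂ (-(a, a))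

lemma sim2_apply (hs : 0 < s) (hL : IsLor L) (a : V) (F : S2) (x y : V) :
    sim2 hs hL a F (x, y) = F (sim s L a x, sim s L a y) := by
  show F ((sl hs hL x, sl hs hL y) - -(a, a)) = _
  rw [sl_apply, sl_apply, HM.sim_at s L a, HM.sim_at s L a y, sub_neg_eq_add]
  rfl

lemma d_sim2 (hs : 0 < s) (hL : IsLor L) (a : V) (F : S2) (k : Ix) :
    ∂_{((bas k 1, 0) : V × V)} (sim2 hs hL a F) =
      ∑ m, ((s * L k m : ℝ) : ℂ) • sim2 hs hL a (∂_{((bas m 1, 0) : V × V)} F) := by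
  ext ⟨x, y⟩
  have d := (F.differentiableAt (x := (sl hs hL).prodCongr (sl hs hL) (x, y) - -(a, a))).hasFDerivAt.comp
    (x, y) (((sl hs hL).prodCongr (sl hs hL)).hasFDerivAt.sub_const (-(a, a)))
  have e : (sl hs hL).prodCongr (sl hs hL) (bas k 1, 0) =
      ∑ m, (s * L k m) • ((bas m 1, 0) : V × V) := by
    show (sl hs hL (bas k 1), sl hs hL 0) = _
    rw [map_zero, sl_apply]
    ext n <;> simp [Prod.fst_sum, Prod.snd_sum, bas, sim]
  refine (congrArg (fun u => u (bas k 1, 0)) d.fderiv).trans ?_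
  rw [ContinuousLinearMap.comp_apply, ContinuousLinearEquiv.coe_coe, e, map_sum,
    SchwartzMap.sum_apply]
  exact Finset.sum_congr rfl fun m _ => map_smul _ _ _

/-- covariance of the divergence -/
theorem dv_cov (h : TP2 Q T e w) (hs : 0 < s) (hL : IsLor L) (a : V) (n : Ix) (J : I2) (F : S2) :
    ∃ κ : ℂ, dvL w n J F = ∑ k, ∑ M, (((s⁻¹ * L k n : ℝ) : ℂ) * L2 L M J) •
      Ug Q s L a (dvL w k M (sim2 hs hL a F)) + κ • om Q := by
  choose κ hκ using fun m => h.cov s L a (m, n) J (∂_{((bas m 1, 0) : V × V)} F) _ hs hL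
    (sim2_apply hs hL a _)
  refine ⟨∑ m, κ m, ?_⟩
  simp only [dvL_apply, dv1, hκ, Finset.sum_add_distrib, Finset.sum_smul, d_sim2, map_sum, map_smul,
    Finset.smul_sum, smul_smul, ← Ug_apply Q hs hL, Fintype.sum_prod_type (α₁ := Ix) (f := fun K =>
      ∑ M, (L2 L K _ * L2 L M J) • _), add_left_inj]
  refine (Finset.sum_congr rfl fun m _ => Finset.sum_comm).trans (Finset.sum_comm.trans
    (Finset.sum_congr rfl fun k _ => ((Finset.sum_congr rfl fun m _ => Finset.sum_comm).trans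
      Finset.sum_comm).trans (Finset.sum_congr rfl fun M _ => Finset.sum_comm.trans
        (Finset.sum_congr rfl fun j _ => Finset.sum_congr rfl fun m _ => ?_))))
  congr 1
  have : (s : ℂ) ≠ 0 := by exact_mod_cast hs.ne'
  simp only [L2]
  push_cast
  field_simp

lemma mon_sim {k : ℕ} (γ : Fin k → Ix) (u : V) :
    mon γ (sim s L 0 u) = ∑ ν, ((s ^ k * ∏ i, L (ν i) (γ i) : ℝ) : ℂ) * mon ν u := by
  simp only [mon, sim, Pi.zero_apply, zero_add, Finset.mul_sum]
  push_cast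
  rw [Finset.prod_univ_sum, Fintype.piFinset_univ]
  refine Finset.sum_congr rfl fun ν _ => ?_
  simp only [Finset.prod_mul_distrib, Finset.prod_const, Finset.card_univ, Fintype.card_fin]
  ring

lemma sum_cons {M : Type*} [AddCommMonoid M] {k : ℕ} (F : (Fin (k + 1) → Ix) → M) :
    ∑ ν, F ν = ∑ a, ∑ γ, F (Matrix.vecCons a γ) := by
  rw [← (Fin.consEquiv fun _ => Ix).sum_comp, Fintype.sum_prod_type]
  rfl

/-- the contact terms -/
def ct (w : I2 → I2 → S2 →L[ℂ] Completion D) (χ : V → ℂ) (k : ℕ) (μ : Fin (k + 3) → Ix) :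
    Sch →L[ℂ] Completion D :=
  dvL w (μ 0) (μ 1, μ 2) ∘L ten2 (sch fun u => mon (fun i => μ i.succ.succ.succ) u * χ u)

lemma ct_ix3 (χ : V → ℂ) {k : ℕ} (n : Ix) (J : I2) (γ : Fin k → Ix) :
    ct w χ k (ix3 n J γ) = dvL w n J ∘L ten2 (sch fun u => mon γ u * χ u) := rfl

theorem ct_cov (hT : Q.IsStress T) (h : TP2 Q T e w) {χ : V → ℂ} (hχ : Dc χ)
    (h1 : ∀ᶠ u in 𝓝 (0 : V), χ u = 1) (k : ℕ) : CovM Q (k + 3) (5 - k) (ct w χ k) := by
  refine ⟨fun μ s L a f g hs hL hg => ?_⟩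
  obtain ⟨n, J, γ, rfl⟩ : ∃ n J γ, μ = ix3 n J γ :=
    ⟨μ 0, (μ 1, μ 2), fun i => μ i.succ.succ.succ, funext fun i =>
      Fin.cases rfl (Fin.cases rfl (Fin.cases rfl fun _ => rfl)) i⟩
  have dc := fun γ : Fin k → Ix => dc_mul_left (smooth_mon γ) hχ
  refine (dv_cov h hs hL a n J (ten2 (sch fun u => mon γ u * χ u) f)).imp fun κ hκ => hκ.trans ?_
  have key : ∀ j M, dvL w j M (sim2 hs hL a (ten2 (sch fun u => mon γ u * χ u) f)) =
      ∑ ν, ((s ^ k * ∏ i, L (ν i) (γ i) : ℝ) : ℂ) • ct w χ k (ix3 j M ν) g := fun j M => by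
    simp only [ct_ix3, ContinuousLinearMap.comp_apply, ← map_smul, ← map_sum]
    refine (off hT h j M).congr fun x => ?_
    filter_upwards [near h1 continuous_id rfl x, near h1 (sl hs hL).continuous (map_zero _) x]
      with ⟨y, z⟩ a1 a2
    have : sim s L a y - sim s L a z = sim s L 0 (y - z) := by
      rw [← sl_apply hs hL, map_sub, sl_apply, sl_apply, HM.sim_at s L a, HM.sim_at s L a z]
      abel
    rw [sl_apply] at a2
    simp only [map_smul, sim2_apply, SchwartzMap.sum_apply, SchwartzMap.smul_apply, ten2_apply,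
      sch_apply (dc _), this, a2, show χ (y - z) = 1 from a1, hg, mon_sim, mul_one,
      Finset.sum_mul, smul_eq_mul, mul_assoc]
  simp only [key, map_sum, map_smul, Finset.smul_sum, smul_smul, ← Ug_apply Q hs hL, add_left_inj]
  rw [sum_cons]
  refine Finset.sum_congr rfl fun j _ => ?_
  rw [Fintype.sum_prod_type, sum_cons]
  refine Finset.sum_congr rfl fun m1 _ => ?_
  rw [sum_cons]
  refine Finset.sum_congr rfl fun m2 _ => Finset.sum_congr rfl fun ν _ => ?_
  congr 1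
  rw [show (4 - (5 - k) : ℝ) = k - 1 by ring, Real.rpow_sub_one hs.ne', Real.rpow_natCast]
  simp only [L2, ix3, Fin.prod_univ_succ, Matrix.cons_val_zero, Matrix.cons_val_succ]
  push_cast
  ring

end Str

open Str Api4 in
/-- **row STRUCT** -/
theorem struct_row {D : Type*} [NormedAddCommGroup D] [InnerProductSpace ℂ D] (c : Ctx D) :
    T0 c → STRUCT c := fun _ e w h => by
  let b : ContDiffBump (0 : P352.GF.V) := ⟨1, 2, one_pos, one_lt_two⟩
  have hχ : Dc (cx b) := dc_cx ⟨b.contDiff, b.hasCompactSupport⟩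
  have h1 : ∀ᶠ u in 𝓝 0, cx b u = 1 := b.eventuallyEq_one.mono fun u hu => by
    rw [cx, hu]
    rfl
  choose C N hC hb using fun p : P352.GF.Ix × I2 => ST.clm_sn_c (dvL w p.1 p.2)
  refine ⟨Finset.univ.sup N, ct w (cx b), ct_cov c.hT h hχ h1, fun k n J γ σ => ⟨?_, ?_⟩,
    fun n J G hG => ?_⟩
  · rw [ct_ix3, ct_ix3, show mon (γ ∘ σ) = mon γ from funext fun u =>
      Equiv.prod_comp σ fun i => (u (γ i) : ℂ)]
  · simp only [ct_ix3, dvL, ind2 h]
  · exact (dvL_apply n J G).symm.trans ((off c.hT h n J).expand (hC (n, J)) (fun f =>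
      (hb (n, J) f).trans (mul_le_mul_of_nonneg_left
        (ST.sn_mono (Finset.le_sup (Finset.mem_univ _)) f) (hC _))) hχ h1 hG)

end Vale.Agent.P352X
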