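import Vale.Agent.P352X.R.RES.Fib
import Vale.Agent.P352X.R.RES.Divc
import Vale.Agent.P352X.R.RES.Diva
import Vale.Agent.P352X.R.RES.Coc
import Vale.Agent.P352X.R.RES.Alg1
import Vale.Agent.P352X.R.RES.Alg2
import Vale.Agent.P352X.R.RES.Link

/-!
# P352X, row RES
-/

set_option linter.all false

namespace Vale.Agent.P352X

open RS in
/-- row RES -/
theorem res_row {D : Type*} [NormedAddCommGroup D] [InnerProductSpace ℂ D] (c : Ctx D) [Fact c.tp] :
    T3 c → RES c :=
  RS.Rows.res ⟨fib_row c, red_row c, divc_row c, diva_row c, coc_row, alg1_row, alg2_row,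
    link_row c⟩

end Vale.Agent.P352X
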