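import Vale.Agent.P352X.R.SYM.B
import Vale.Agent.P352X.Api3
import Vale.Agent.P352X.Spec

/-!
# P352X, row SYM (helper64)
-/

set_option linter.all false

open MeasureTheory Filter Topology Set
open scoped SchwartzMap ComplexConjugate ContDiff
open Complex (I)

namespace Vale.Agent.P352X

open Vale.Agent.P352.GF Vale.Agent.P352.BW Vale.Agent.P352.H246
open Vale.Agent.P352.H496 Vale.Agent.P352.H755 Vale.Agent.P352.H15 Ap

noncomputable section

namespace Sy

variable {f g : Fn}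

theorem sw_dv (h : V) (hf : Sw f) : Sw (dv h f) := sw_sum fun m _ => sw_cmul _ (sw_pd m hf)

theorem eta_sq' (m : Ix) : (eta m : ℂ) * eta m = 1 := by exact_mod_cast eta_sq m

theorem ft_co (hf : Sw f) (n : Ix) (p : V) :
    ft (fun z => (z n : ℂ) * f z) p = -I * eta n * pd n (ft f) p := by
  rw [pd_test (test_ft hf)]
  simp only [fderiv_ft hf, md_comm (bas n 1), md_bas, Complex.ofReal_mul, mul_assoc, ft_mul]
  linear_combination (ft (fun z => (z n : ℂ) * f z) p) *
    (eta n * eta n * Complex.I_mul_I - eta_sq' n)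

/-- the current in position space -/
def cm (m : Ix) (f : Fn) : Fn := fun z =>
  -(eta m : ℂ) * pd m (fun z => (be z : ℂ) * f z) z +
    -(va m : ℂ) * ∑ n, pd n (fun z => (z n : ℂ) * f z) z + dv va (fun z => (z m : ℂ) * f z) z

/-- the current in momentum space -/
def jm (m : Ix) (F : Fn) : Fn := fun p => (p m : ℂ) * dv va F p +
  (va m : ℂ) * ∑ n, (p n : ℂ) * pd n F p - (be p : ℂ) * (eta m * pd m F p)

theorem sw_cm (m : Ix) (hf : Sw f) : Sw (cm m f) :=
  sw_add (sw_add (sw_cmul _ (sw_pd _ (sw_be hf)))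
    (sw_cmul _ (sw_sum fun n _ => sw_pd _ (sw_co _ hf)))) (sw_dv _ (sw_co _ hf))

theorem sw_jm (m : Ix) (hf : Sw f) : Sw (jm m f) :=
  sw_sub (sw_add (sw_co _ (sw_dv _ hf)) (sw_cmul _ (sw_sum fun n _ => sw_co _ (sw_pd _ hf))))
    (sw_be (sw_cmul _ (sw_pd _ hf)))

theorem ft_cm (m : Ix) (hf : Sw f) : ft (cm m f) = jm m (ft f) := by
  funext p
  have s1 := sw_pd m (sw_be hf)
  have s2 (n) := sw_pd n (sw_co n hf)
  have e (n) : ft (pd n fun z => (z n : ℂ) * f z) p = -((p n : ℂ) * pd n (ft f) p) := by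
    rw [ft_pd (sw_co n hf), ft_co hf]
    push_cast
    linear_combination (p n * pd n (ft f) p) * (eta n * eta n * Complex.I_mul_I - eta_sq' n)
  unfold cm
  rw [ft_add (sw_add (sw_cmul _ s1) (sw_cmul _ (sw_sum fun n _ => s2 n))) (sw_dv _ (sw_co _ hf)),
    ft_add (sw_cmul _ s1) (sw_cmul _ (sw_sum fun n _ => s2 n)), ft_mul, ft_mul,
    ft_sum _ fun n _ => s2 n, ft_pd (sw_be hf), ft_be hf, ft_dv (sw_co _ hf), ft_co hf, md_va']
  simp only [e, Finset.sum_neg_distrib, jm]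
  push_cast
  linear_combination (p m * dv va (ft f) p) * (eta_sq' m - eta m * eta m * Complex.I_mul_I) +
    (be p * eta m * pd m (ft f) p) * Complex.I_mul_I

theorem Kc_cm (hf : ContDiff ℝ ∞ f) :
    Kc 2 f = fun z => ∑ m, (eta m : ℂ) * ((z m : ℂ) * cm m f z) := by
  funext z
  simp only [Kc, cm, dv, pd_mul sm_be hf, pd_mul (sm_co _) hf, pd_be, pd_co]
  simp only [cK, mdot_eq, Fin.sum_univ_four, be_eq]
  simp [eta, o, va, bas]
  ring

theorem ft_Kc (hf : Sw f) (p : V) : ft (Kc 2 f) p = -I * ∑ m, pd m (jm m (ft f)) p := by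
  rw [Kc_cm (sw_smooth hf), ft_sum _ fun m _ => sw_cmul _ (sw_co _ (sw_cm m hf)), Finset.mul_sum]
  refine Finset.sum_congr rfl fun m _ => ?_
  rw [ft_mul, ft_co (sw_cm m hf), ft_cm m hf]
  linear_combination (-I * pd m (jm m (ft f)) p) * eta_sq' m

theorem pd_conj (m : Ix) (hf : Sw f) (p : V) :
    pd m (fun p => conj (f p)) p = conj (pd m f p) := by
  rw [pd_fd (sw_diff hf p)]
  have := (Complex.conjCLE.hasFDerivAt.comp p (sw_diff hf p).hasFDerivAt)
  rw [pd_fd (f := fun p => conj (f p)) this.differentiableAt]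
  exact congrArg (fun L : V →L[ℝ] ℂ => L (bas m 1)) this.fderiv

theorem green {F G : Fn} (hF : Sw F) (hG : Sw G) :
    (∫ p in Fc, conj (F p) * (-I * ∑ m, pd m (jm m G) p)) +
      ∫ p in Fc, conj (-I * ∑ m, pd m (jm m F) p) * G p = 0 := by
  have mu' {A B : Fn} (a : Sw A) (b : Sw B) : Sw fun p => A p * B p := sw_mul (sw_temp a) b
  have s {F : Fn} (hF : Sw F) : Sw fun p => -I * ∑ m, pd m (jm m F) p :=
    sw_cmul _ (sw_sum fun m _ => sw_pd m (sw_jm m hF))
  have s1 (m) := mu' (sw_conj hF) (sw_jm m hG)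
  have s2 (m) := mu' (sw_conj (sw_jm m hF)) hG
  have := div_zero (J := fun m p => conj (F p) * jm m G p + -1 * (conj (jm m F p) * G p))
    (W := fun p => conj (F p) * dv va G p - conj (dv va F p) * G p)
    (fun m => sw_add (s1 m) (sw_cmul _ (s2 m)))
    (sw_int (sw_sub (mu' (sw_conj hF) (sw_dv _ hG)) (mu' (sw_conj (sw_dv _ hF)) hG))) fun p => by
      simp only [jm, dv, mu, mdot_eq, be_eq, Fin.sum_univ_four]
      simp [eta, o, va]
      ring
  rw [← integral_add (sw_int (mu' (sw_conj hF) (s hG))).integrableOn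
    (sw_int (mu' (sw_conj (s hF)) hG)).integrableOn, ← mul_zero (-I), ← this,
    ← integral_const_mul]
  congr 1
  funext p
  simp only [pd_add (sw_smooth (s1 _)) (sw_smooth (sw_cmul _ (s2 _))),
    pd_cmul _ (sw_smooth (s2 _)), pd_mul (sw_smooth (sw_conj hF)) (sw_smooth (sw_jm _ hG)),
    pd_mul (sw_smooth (sw_conj (sw_jm _ hF))) (sw_smooth hG), pd_conj _ hF,
    pd_conj _ (sw_jm _ hF), Fin.sum_univ_four]
  generalize pd 0 (jm 0 F) p = a0
  generalize pd 1 (jm 1 F) p = a1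
  generalize pd 2 (jm 2 F) p = a2
  generalize pd 3 (jm 3 F) p = a3
  generalize pd 0 (jm 0 G) p = b0
  generalize pd 1 (jm 1 G) p = b1
  generalize pd 2 (jm 2 G) p = b2
  generalize pd 3 (jm 3 G) p = b3
  simp only [jm, dv, be_eq, Fin.sum_univ_four]
  simp [eta, o, va]
  ring

theorem ne : ∃ f, In {z | be z < 0} f ∧
    ∫ p in Fc, conj (ft f p) * ft (fun z => (be z : ℝ) * f z) p ≠
      ∫ p in Fc, conj (ft (fun z => (be z : ℝ) * f z) p) * ft f p := by
  obtain ⟨ρ, h1, h2, -, h3⟩ := ex_rho (volume : Measure V) (x := -vb) (U := {z | be z < 0})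
    ((isOpen_lt cont_be continuous_const).mem_nhds (by simp))
  have s := tst_sw h1
  have sF : Sw (ft fun z => (ρ z : ℂ)) := test_ft s
  refine ⟨fun z => (ρ z : ℂ), ⟨s, (dc_cx h1).2, (tsupport_cx ρ).trans_subset h2⟩, fun h => ?_⟩
  set F := ft fun z => (ρ z : ℂ)
  have F0 : F 0 ≠ 0 := by
    rw [show F 0 = ∫ z, (ρ z : ℂ) from FT.gft_at_zero (B := FT.d4.B) _, integral_complex_ofReal, h3]
    simp
  refine flux_ne sF F0 ?_
  have i1 := sw_mul (sw_temp (sw_conj sF)) (sw_cmul (-I) (sw_dv va sF))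
  have i2 := sw_mul (sw_temp (sw_conj (sw_cmul (-I) (sw_dv va sF)))) sF
  simp only [ft_be s] at h
  rw [← sub_eq_zero, ← integral_sub (sw_int i1).integrableOn (sw_int i2).integrableOn] at h
  rw [← mul_zero I, ← h, ← integral_const_mul]
  congr 1
  funext p
  rw [← dv_at (sw_diff (sw_mul (sw_temp (sw_conj sF)) sF) p)]
  simp only [dv, pd_mul (sw_smooth (sw_conj sF)) (sw_smooth sF), pd_conj _ sF, Fin.sum_univ_four]
  simp
  linear_combination (conj (F p) * (va 0 * pd 0 F p + va 1 * pd 1 F p + va 2 * pd 2 F p +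
    va 3 * pd 3 F p) + (va 0 * conj (pd 0 F p) + va 1 * conj (pd 1 F p) +
    va 2 * conj (pd 2 F p) + va 3 * conj (pd 3 F p)) * F p) * Complex.I_mul_I

end Sy

theorem sym_row : SYM where
  sym f g hf hg := by
    simp only [Sy.ft_Kc hf.1, Sy.ft_Kc hg.1]
    exact Sy.green (test_ft hf.1) (test_ft hg.1)
  ne := Sy.ne
  box f hf := Sy.box_K (sw_smooth hf)

end

end Vale.Agent.P352X
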