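import Vale.Agent.P352X.Main0
import Vale.Agent.P352X.R.UQ.En

/-!
# P352X, row UQ
-/

set_option linter.all false

noncomputable section

open MeasureTheory Filter Topology Set
open scoped ContDiff Convolution

namespace Vale.Agent.P352X.Uq

open Vale.Agent.P352.GF Vale.Agent.P352.BW Vale.Agent.P352.H496 Vale.Agent.P352.H755
open Vale.Agent.P352.H246 (In box)

/-- directional derivatives -/
def D (v : V) (g : V → ℂ) : V → ℂ := fun z => fderiv ℝ g z v

variable {g : V → ℂ} {b : V → ℂ}

lemma D_smooth (v : V) (hg : ContDiff ℝ ∞ g) : ContDiff ℝ ∞ (D v g) :=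
  (hg.fderiv_right (m := ∞) le_rfl).clm_apply contDiff_const

lemma D_dc (v : V) (hg : Dc g) : Dc (D v g) := ⟨D_smooth v hg.1, hg.2.fderiv_apply ℝ v⟩

lemma DD (hg : ContDiff ℝ ∞ g) (v w z : V) : D v (D w g) z = fderiv ℝ (fderiv ℝ g) z v w := by
  have h := ((hg.fderiv_right (m := ∞) le_rfl).differentiable (by simp) z).hasFDerivAt.clm_apply
    (hasFDerivAt_const w z)
  unfold D
  rw [h.fderiv]
  simp

lemma D_comm (hg : ContDiff ℝ ∞ g) (v w : V) : D v (D w g) = D w (D v g) := by
  funext z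
  rw [DD hg, DD hg]
  exact hg.contDiffAt.isSymmSndFDerivAt (by simp; exact WithTop.coe_le_coe.2 le_top) v w

lemma pd_refl (hg : ContDiff ℝ ∞ g) (y : V) (m : Ix) :
    pd m (fun z => g (y - z)) = fun z => -D (bas m 1) g (y - z) := by
  funext x
  have e : (fun t : ℝ => g (y - fun n => x n + bas m t n)) =
      fun t : ℝ => g (y - x - t • bas m 1) := by
    funext t
    congr 1
    funext n
    simp [bas]
    ring
  have h1 : HasDerivAt (fun t : ℝ => y - x - t • bas m 1) (-bas m 1) 0 := by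
    simpa using ((hasDerivAt_id' (0 : ℝ)).smul_const (bas m 1)).const_sub (y - x)
  have h2 := (hg.differentiable (by simp) (y - x - (0 : ℝ) • bas m 1)).hasFDerivAt.comp_hasDerivAt
    (0 : ℝ) h1
  rw [pd, e]
  refine h2.deriv.trans ?_
  simp [D]

lemma box_refl (hg : ContDiff ℝ ∞ g) (y z : V) : box (fun z => g (y - z)) z =
    2 * D vb (D va g) (y - z) - D (ex 0) (D (ex 0) g) (y - z) - D (ex 1) (D (ex 1) g) (y - z) := by
  have h1 : ∀ m, pd m (pd m fun z => g (y - z)) z = D (bas m 1) (D (bas m 1) g) (y - z) := by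
    intro m
    have h2 := congrFun (pd_refl (g := fun x => -D (bas m 1) g x) (D_smooth _ hg).neg y m) z
    rw [pd_refl hg, h2]
    simp [D, fderiv_fun_neg]
    rfl
  have h2 := congrFun (D_comm hg (bas 0 1) (bas 1 1)) (y - z)
  have ea : va = bas 0 1 + bas 1 1 := by
    funext m
    fin_cases m <;> simp [va, bas]
  have eb : vb = (1 / 2 : ℝ) • (bas 0 1 - bas 1 1) := by
    funext m
    fin_cases m <;> simp [vb, bas]
  simp only [box, h1, Fin.sum_univ_four, DD hg, ex_0, ex_1] at h2 ⊢
  rw [ea, eb]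
  simp [eta, o]
  linear_combination -h2

/-- convolution -/
def cv (b g : V → ℂ) (y : V) : ℂ := ∫ z, b z * g (y - z)

lemma cv_eq : cv b g = b ⋆[ContinuousLinearMap.mul ℝ ℂ] g := rfl

lemma cv_cont (hb : LocallyIntegrable b) (hg : Dc g) : Continuous (cv b g) :=
  hg.2.continuous_convolution_right (ContinuousLinearMap.mul ℝ ℂ) hb hg.1.continuous

lemma cv_int (hb : LocallyIntegrable b) (hg : Dc g) (y : V) :
    Integrable fun z => b z * g (y - z) :=
  hg.2.convolutionExists_right (ContinuousLinearMap.mul ℝ ℂ) hb hg.1.continuous y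

lemma cv_ld (hb : LocallyIntegrable b) (hg : Dc g) (v : V) : LD (cv b g) (cv b (D v g)) v := by
  intro x
  have h1 := hg.2.hasFDerivAt_convolution_right (ContinuousLinearMap.mul ℝ ℂ) hb
    (hg.1.of_le (by simp)) x
  have h2 := h1.hasLineDerivAt v
  rw [convolution_precompR_apply _ hb (hg.2.fderiv ℝ) (hg.1.continuous_fderiv (by simp))] at h2
  exact h2

/-- `|b|^2 * |g|` -/
def cq (b g : V → ℂ) (y : V) : ℝ := ∫ z, ‖b z‖ ^ 2 * ‖g (y - z)‖

lemma cq_int (hb : MemLp b 2) (hg : Dc g) : Integrable (cq b g) :=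
  (hb.integrable_norm_pow two_ne_zero).integrable_convolution (ContinuousLinearMap.mul ℝ ℝ)
    (hg.1.continuous.integrable_of_hasCompactSupport hg.2).norm

lemma cv_sq (hb : MemLp b 2) (hg : Dc g) (y : V) : ‖cv b g y‖ ^ 2 ≤ cq b g y * ∫ z, ‖g z‖ := by
  have i1 : Integrable fun z => ‖b z‖ ^ 2 * ‖g (y - z)‖ :=
    hg.2.norm.convolutionExists_right (ContinuousLinearMap.mul ℝ ℝ)
      (hb.integrable_norm_pow two_ne_zero).locallyIntegrable hg.1.continuous.norm y
  have i2 := (cv_int (hb.locallyIntegrable one_le_two) hg y).norm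
  have i3 : Integrable fun z => ‖g (y - z)‖ :=
    (hg.1.continuous.integrable_of_hasCompactSupport hg.2).norm.comp_sub_left y
  have h1 := discrim_le_zero (a := cq b g y) (b := -2 * ∫ z, ‖b z * g (y - z)‖)
    (c := ∫ z, ‖g z‖) fun t => by
      have h2 : 0 ≤ ∫ z, ((t * t) * (‖b z‖ ^ 2 * ‖g (y - z)‖) + (-2 * t) * ‖b z * g (y - z)‖ +
          ‖g (y - z)‖) := integral_nonneg fun z => by
        have := mul_nonneg (sq_nonneg (t * ‖b z‖ - 1)) (norm_nonneg (g (y - z)))
        simp only [norm_mul, Pi.zero_apply]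
        linarith
      rw [integral_add ((i1.const_mul _).fun_add (i2.const_mul _)) i3,
        integral_add (i1.const_mul _) (i2.const_mul _), integral_const_mul, integral_const_mul,
        integral_sub_left_eq_self (fun z => ‖g z‖) volume y] at h2
      unfold cq
      linarith
  have h2 : ‖cv b g y‖ ≤ ∫ z, ‖b z * g (y - z)‖ := norm_integral_le_integral_norm _
  have h3 := pow_le_pow_left₀ (norm_nonneg _) h2 2
  rw [discrim] at h1
  linarith

lemma cq_lim (hb : MemLp b 2) (hg : Dc g) (y : V) :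
    Tendsto (fun t : ℝ => cq b g (y + t • va)) atTop (𝓝 0) := by
  obtain ⟨C, hC⟩ := hg.1.continuous.bounded_above_of_compact_support hg.2
  obtain ⟨R, hR⟩ := hg.2.isCompact.isBounded.subset_closedBall 0
  have h := tendsto_integral_filter_of_dominated_convergence (μ := volume) (l := atTop)
    (F := fun (t : ℝ) z => ‖b z‖ ^ 2 * ‖g (y + t • va - z)‖) (f := fun _ => 0)
    (fun z => ‖b z‖ ^ 2 * C) (Eventually.of_forall fun t =>
      (hb.1.norm.pow 2).mul (hg.1.continuous.comp (continuous_sub_left _)).norm.aestronglyMeasurable)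
    (Eventually.of_forall fun t => Eventually.of_forall fun z => by
      rw [Real.norm_of_nonneg (by positivity)]
      exact mul_le_mul_of_nonneg_left (hC _) (by positivity))
    ((hb.integrable_norm_pow two_ne_zero).mul_const C) (Eventually.of_forall fun z => by
      refine tendsto_const_nhds.congr' ((eventually_gt_atTop (R + ‖y - z‖)).mono fun t ht => ?_)
      have h1 : y + t • va - z ∉ tsupport g := fun h => by
        have h2 := (abs_al_le _).trans (mem_closedBall_zero_iff.1 (hR h))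
        have h3 := abs_al_le (y - z)
        simp only [al_sub, al_add, al_smul, al_va] at h2 h3
        linarith [le_abs_self (al y + t * 1 - al z), neg_abs_le (al y - al z)]
      simp [image_eq_zero_of_notMem_tsupport h1])
  rw [integral_zero] at h
  exact h

lemma in_refl {O : Set V} (hg : Dc g) (y : V) (h : ∀ x ∈ tsupport g, y - x ∈ O) :
    In O fun z => g (y - z) := by
  have h1 : HasCompactSupport fun z => g (y - z) := hg.2.comp_homeomorph (Homeomorph.subLeft y)
  refine ⟨⟨h1.toSchwartzMap (hg.1.comp (contDiff_const.sub contDiff_id)), rfl⟩, h1, fun z hz => ?_⟩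
  have h2 : y - z ∈ tsupport g := tsupport_comp_subset_preimage g (continuous_sub_left y) hz
  simpa using h _ h2

theorem main {p : V} (hb : MemLp b 2)
    (h1 : ∀ f, In {z | z - p ∈ Fc} f → ∫ z, b z * box f z = 0)
    (h2 : ∀ f, In {z | z - p ∈ Fc ∧ 0 < be z} f → ∫ z, b z * f z = 0) (hg : Dc g)
    (hs : ∀ x ∈ tsupport g, -x - p ∈ Fc) : cv b g 0 = 0 := by
  have lb := hb.locallyIntegrable one_le_two
  have s1 : ∀ y ∈ Fc, ∀ x ∈ tsupport g, y - x - p ∈ Fc := fun y hy x hx => by
    have := Fc_add hy (hs x hx)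
    rwa [show y + (-x - p) = y - x - p by abel] at this
  have z1 : ∀ v, ∀ y ∈ Fc, -be p < be y → cv b (D v g) y = 0 := fun v y hy h =>
    h2 _ (in_refl (D_dc v hg) y fun x hx => by
      have h3 := tsupport_fderiv_apply_subset ℝ v hx
      have h4 := ((mem_Fc _).1 (hs x h3)).1
      simp only [be_sub, be_neg] at h4
      exact ⟨s1 y hy x h3, by rw [be_sub]; linarith⟩)
  have z2 : ∀ y ∈ Fc, 2 * cv b (D vb (D va g)) y =
      cv b (D (ex 0) (D (ex 0) g)) y + cv b (D (ex 1) (D (ex 1) g)) y := fun y hy => by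
    have h3 := h1 _ (in_refl hg y (s1 y hy))
    have i := fun v w => cv_int lb (D_dc v (D_dc w hg)) y
    simp only [box_refl hg.1, mul_sub, mul_left_comm _ (2 : ℂ)] at h3
    rw [integral_sub (((i _ _).const_mul 2).sub' (i _ _)) (i _ _),
      integral_sub ((i _ _).const_mul 2) (i _ _), integral_const_mul] at h3
    unfold cv
    linear_combination h3
  have z3 : ∀ l : ℂ →L[ℝ] ℝ, (∀ c, |l c| ≤ ‖c‖) → ∀ y ∈ Fc, l (cv b (D va g) y) = 0 := by
    intro l hl
    have c1 : ∀ v, Continuous fun y => l (cv b (D v g) y) := fun v =>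
      l.continuous.comp (cv_cont lb (D_dc v hg))
    have c2 : ∀ v w, Continuous fun y => l (cv b (D v (D w g)) y) := fun v w =>
      l.continuous.comp (cv_cont lb (D_dc v (D_dc w hg)))
    have d : ∀ v w, LD (fun y => l (cv b (D w g) y)) (fun y => l (cv b (D v (D w g)) y)) v :=
      fun v w x => l.hasFDerivAt.comp_hasDerivAt (0 : ℝ) (cv_ld lb (D_dc w hg) v x)
    have i : ∀ v, Integrable fun y => l (cv b (D v g) y) ^ 2 := fun v =>
      ((cq_int hb (D_dc v hg)).mul_const _).mono' ((c1 v).pow 2).aestronglyMeasurable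
        (Eventually.of_forall fun y => by
          rw [Real.norm_of_nonneg (sq_nonneg _), ← sq_abs]
          exact (pow_le_pow_left₀ (abs_nonneg _) (hl _) 2).trans (cv_sq hb (D_dc v hg) y))
    refine energy (β := -be p) (c1 va) (c2 vb va) (c2 (ex 0) va) (c2 (ex 1) va) (c1 (ex 0))
      (c1 (ex 1)) (c2 _ _) (c2 _ _) (d vb va) (d _ va) (d _ va) (D_comm hg.1 va _ ▸ d va (ex 0))
      (D_comm hg.1 va _ ▸ d va (ex 1)) (d _ _) (d _ _) (fun y hy => ?_) (fun y hy h => ?_) (i _) (i _)
    · rw [← map_add, ← z2 y hy, two_mul, two_mul, map_add]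
    · simp [z1 _ y hy h]
  have z4 : ∀ y ∈ Fc, cv b (D va g) y = 0 := fun y hy =>
    Complex.ext (z3 Complex.reCLM Complex.abs_re_le_norm y hy)
      (z3 Complex.imCLM Complex.abs_im_le_norm y hy)
  have z5 : ∀ y ∈ Fc, cv b g y = 0 := fun y hy => by
    have m : ∀ t : ℝ, 0 ≤ t → y + t • va ∈ Fc := fun t ht => by
      obtain ⟨a1, a2⟩ := (mem_Fc y).1 hy
      rw [mem_Fc]
      simp only [mu_eq, al_add, be_add, tx_add, al_smul, be_smul, tx_smul, al_va, be_va, tx_va,
        smul_zero, add_zero, mul_zero] at a2 ⊢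
      exact ⟨a1, by nlinarith [mul_nonneg ht a1.le]⟩
    have dd : ∀ t : ℝ, HasDerivAt (fun t : ℝ => cv b g (y + t • va))
        (cv b (D va g) (y + t • va)) t := fun t => by
      have h3 := HasDerivAt.comp_sub_const t t
        ((sub_self t).symm ▸ cv_ld lb hg va (y + t • va))
      refine h3.congr_of_eventuallyEq (Eventually.of_forall fun s => ?_)
      show cv b g _ = cv b g _
      congr 1
      module
    have k : ∀ t : ℝ, 0 ≤ t → cv b g (y + t • va) = cv b g y := fun t ht => by
      have h3 := constant_of_has_deriv_right_zero (f := fun t : ℝ => cv b g (y + t • va))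
        (a := 0) (b := t) (fun s _ => (dd s).continuousAt.continuousWithinAt)
        (fun s hs => (z4 _ (m s hs.1) ▸ dd s).hasDerivWithinAt) t ⟨ht, le_rfl⟩
      simpa using h3
    have h3 : ‖cv b g y‖ ^ 2 ≤ 0 := by
      have h4 := (cq_lim hb hg y).mul_const (∫ z, ‖g z‖)
      rw [zero_mul] at h4
      exact ge_of_tendsto h4 ((eventually_ge_atTop 0).mono fun t ht => k t ht ▸ cv_sq hb hg _)
    simpa using h3
  have c : Continuous fun t : ℝ => cv b g (t • (va + vb)) := (cv_cont lb hg).comp (by fun_prop)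
  have h3 := (c.tendsto 0).mono_left (nhdsWithin_le_nhds (s := Ioi 0))
  rw [zero_smul] at h3
  refine tendsto_nhds_unique h3 (tendsto_const_nhds.congr' (eventually_mem_nhdsWithin.mono
    fun t ht => (z5 _ ((Fc_smul ht).2 ?_)).symm))
  simp [mem_Fc, mu_eq]

end Vale.Agent.P352X.Uq

namespace Vale.Agent.P352X

open Vale.Agent.P352.GF

/-- **row UQ** -/
theorem uq_row : UQ := by
  rintro b p hb h1 h2 _ ⟨⟨f, rfl⟩, hc, hs⟩
  have h := Uq.main (g := fun x => f (-x)) hb h1 h2
    ⟨(f.smooth _).comp contDiff_neg, hc.comp_homeomorph (Homeomorph.neg V)⟩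
    fun x hx => hs (tsupport_comp_subset_preimage f continuous_neg hx)
  simpa [Uq.cv, ev] using h

end Vale.Agent.P352X

end
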