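import Vale.Agent.P352X.R.WK.Ker
import Vale.Agent.P352X.R.GRP.C
import Vale.Agent.P352X.Spec

/-!
# P352X, row WK: the kernel theorem for the product of two components of `T`
-/

set_option linter.all false

noncomputable section

open MeasureTheory Filter Topology Set
open scoped SchwartzMap

namespace Vale.Agent.P352X

open Vale.Agent.P352 Vale.Agent.P352.GF Vale.Agent.P352.BW
open UniformSpace (Completion)

variable {D : Type*} [NormedAddCommGroup D] [InnerProductSpace ℂ D]

namespace Wk

/-- a field smeared with a test function is linear -/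
def fL {Q : Theory D} {A : Fld D} (hA : Q.fld A) (f : Sch) : D →ₗ[ℂ] D where
  toFun := A (ev f)
  map_add' v w := by
    obtain ⟨B, -, h⟩ := Q.adj A hA
    refine ext_inner_right ℂ fun u => ?_
    simp only [inner_add_left, h _ _ _ ⟨f, rfl⟩]
  map_smul' a v := by
    obtain ⟨B, -, h⟩ := Q.adj A hA
    refine ext_inner_right ℂ fun u => ?_
    simp only [inner_smul_left, h _ _ _ ⟨f, rfl⟩, RingHom.id_apply]

lemma fL_apply {Q : Theory D} {A : Fld D} (hA : Q.fld A) (f : Sch) (v : D) :
    fL hA f v = A (ev f) v := rfl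

/-- the product of two fields applied to a vector -/
def bil {Q : Theory D} {A B : Fld D} (hA : Q.fld A) (hB : Q.fld B) (v : D) :
    Sch →ₗ[ℂ] Sch →ₗ[ℂ] Completion D :=
  LinearMap.mk₂ ℂ (fun f g => ((A (ev f) (B (ev g) v) : D) : Completion D))
    (fun f f' g => by rw [← Completion.coe_add]; exact congrArg _ (map_add (Grp.fC hA _) f f'))
    (fun a f g => by rw [← Completion.coe_smul]; exact congrArg _ (map_smul (Grp.fC hA _) a f))
    (fun f g g' => by
      rw [← Completion.coe_add]
      exact congrArg _ ((congrArg _ (map_add (Grp.fC hB v) g g')).trans (map_add (fL hA f) _ _)))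
    (fun a f g => by
      rw [← Completion.coe_smul]
      exact congrArg _ ((congrArg _ (map_smul (Grp.fC hB v) a g)).trans (map_smul (fL hA f) _ _)))

/-- the pull back of a function of two points by a similitude -/
def sim2 {s : ℝ} {L : Ix → V} (hs : 0 < s) (hL : IsLor L) (a : V) : S2 →L[ℂ] S2 :=
  SchwartzMap.compCLMOfContinuousLinearEquiv ℂ ((H755.simE s L hs hL).toContinuousLinearEquiv.prodCongr
    (H755.simE s L hs hL).toContinuousLinearEquiv) ∘L SchwartzMap.compSubConstCLM ℂ (-a, -a)

lemma sim2_apply {s : ℝ} {L : Ix → V} (hs : 0 < s) (hL : IsLor L) (a : V) (F : S2) (x y : V) :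
    sim2 hs hL a F (x, y) = F (sim s L a x, sim s L a y) := by
  show F (H755.simE s L hs hL x - -a, H755.simE s L hs hL y - -a) = _
  rw [H755.simE_apply, H755.simE_apply, HM.sim_at s L a, HM.sim_at s L a y, sub_neg_eq_add,
    sub_neg_eq_add]

lemma sim2_tens {s : ℝ} {L : Ix → V} (hs : 0 < s) (hL : IsLor L) (a : V) (f g : Sch) :
    sim2 hs hL a (ST.tens f g) = ST.tens (Grp.simS hs hL a f) (Grp.simS hs hL a g) :=
  SchwartzMap.ext fun z => by
    rw [sim2_apply hs hL a _ z.1 z.2]
    simp only [ST.tens_apply, Grp.simS_apply]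

lemma cov (c : Ctx D) {s : ℝ} {L : Ix → V} (hs : 0 < s) (hL : IsLor L) (a : V) (K : I2) (f : Sch)
    (v : D) : c.T K.1 K.2 (ev f) (c.Q.U s L a v) =
      ∑ K', L2 L K' K • ueI c.Q hs hL a (c.T K'.1 K'.2 (ev (Grp.simS hs hL a f)) v) := by
  rw [c.hT.cov _ _ s L a _ v hs hL ⟨f, rfl⟩, Fintype.sum_prod_type,
    show ev (Grp.simS hs hL a f) = _ from funext (Grp.simS_apply hs hL a f)]
  simp only [L2, Complex.ofReal_mul]
  rfl

end Wk

open Wk in
theorem wk_row (c : Ctx D) : T1 c → WK c := fun t => by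
  obtain ⟨m, C, h⟩ := t.gen.bd2 c.Q.vac
  choose W hW using fun K M : I2 => kernel
    (bil (Grp.T_fld c.hT K.1 K.2) (Grp.T_fld c.hT M.1 M.2) c.Q.vac) (C := C) (m := m) fun f g =>
      (Completion.norm_coe _).trans_le (h _ _ _ _ f g)
  have hW' : ∀ K M f g, W K M (ST.tens f g) =
      ((c.T K.1 K.2 (ev f) (c.T M.1 M.2 (ev g) c.Q.vac) : D) : Completion D) := hW
  refine ⟨W, fun K M f g F e => ?_, fun s L a K M F G hs hL e => ?_⟩
  · rw [show F = ST.tens f g from SchwartzMap.ext fun z => e z.1 z.2, hW']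
  · rw [show G = sim2 hs hL a F from SchwartzMap.ext fun z =>
      (e z.1 z.2).trans (sim2_apply hs hL a F z.1 z.2).symm]
    have key : W K M = ∑ K', ∑ M', (L2 L K' K * L2 L M' M) •
        (Ug c.Q s L a ∘L W K' M' ∘L sim2 hs hL a) := ST.ext2 fun f g _ _ => by
      simp only [ContinuousLinearMap.sum_apply, ContinuousLinearMap.smul_apply,
        ContinuousLinearMap.comp_apply, sim2_tens, hW', t.grp.coe _ _ _ _ hs hL]
      conv_lhs => rw [← c.Q.U_vac s L a hs hL, cov c hs hL,
        ← fL_apply (Grp.T_fld c.hT K.1 K.2)]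
      simp only [map_sum, map_smul, fL_apply, ueI_apply, cov c hs hL, Finset.smul_sum, smul_smul]
      rw [Finset.sum_comm, ← Completion.coe_toComplL (𝕜 := ℂ), map_sum]
      simp only [map_sum, map_smul, Completion.coe_toComplL, mul_comm]
    rw [key]
    simp only [ContinuousLinearMap.sum_apply, ContinuousLinearMap.smul_apply,
      ContinuousLinearMap.comp_apply]

end Vale.Agent.P352X
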