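import Vale.Agent.P352X.Api2c
import Vale.Agent.P352X.Main0

/-!
# P352X, row YZ: the logarithmic coefficient vanishes (helper11)
-/

set_option linter.all false

open MeasureTheory Filter Topology Set Function
open scoped SchwartzMap ComplexConjugate ContDiff

namespace Vale.Agent.P352X

open Vale.Agent.P352 Vale.Agent.P352.GF Vale.Agent.P352.BW Vale.Agent.P352.H246
open Vale.Agent.P352.H496 Vale.Agent.P352.H755 Vale.Agent.P352.H15
open Ap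

noncomputable section

namespace Yz

/-! ### the data -/

theorem ex_k (N : ℕ) : ∃ k, Bump k ∧ ∀ j < N, ∫ t, t ^ j * k t = 0 := by
  induction N with
  | zero => exact ex_bump.imp fun θ h => ⟨h.1, by simp⟩
  | succ N ih =>
    obtain ⟨k, hk, h0⟩ := ih
    have hq : (2 : ℝ) ^ (N + 1) - 1 ≠ 0 := (sub_pos.2 (one_lt_pow₀ one_lt_two N.succ_ne_zero)).ne'
    have h2 := tst_dil hk.1 two_ne_zero
    refine ⟨fun t => (2 ^ (N + 1) - 1)⁻¹ * (2 ^ (N + 1) * k t - dil 2 k t),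
      ⟨cs_cmul _ (cs_sub (cs_cmul _ hk.1) h2), fun t => by simp [dil, neg_div, hk.2.1],
      fun t ht => ?_⟩, fun j hj => ?_⟩
    · simp only [hk.2.2 t ht, dil_one_of hk two_pos (ht.trans one_le_two), mul_one]
      exact inv_mul_cancel₀ hq
    have i : ∀ φ : ℝ → ℝ, Tst φ → Integrable fun t => t ^ j * φ t := fun φ h =>
      cs_int (cs_mul_l (by fun_prop) h)
    have e : ∫ t, t ^ j * dil 2 k t = 2 ^ (j + 1) * ∫ t, t ^ j * k t := by
      rw [pow_succ, mul_assoc, ← integral_dil two_pos, ← integral_const_mul]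
      congr 1
      funext t
      simp only [dil, div_pow]
      field_simp
    have e' : ∀ t, t ^ j * ((2 ^ (N + 1) - 1)⁻¹ * (2 ^ (N + 1) * k t - dil 2 k t)) =
        (2 ^ (N + 1) - 1)⁻¹ * (2 ^ (N + 1) * (t ^ j * k t) - t ^ j * dil 2 k t) := fun t => by ring
    simp only [e']
    rw [integral_const_mul, integral_sub ((i k hk.1).const_mul _) (i _ h2), integral_const_mul, e]
    rcases (Nat.lt_succ_iff.1 hj).lt_or_eq with h | rfl
    · simp [h0 j h]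
    · simp

theorem ex_r : ∃ ρ1 : P3 → ℝ, Tst ρ1 ∧ (∀ y : P3, ρ1 (-y.1, y.2) = ρ1 y) ∧
    tsupport ρ1 ⊆ Metric.ball 0 1 ∧ ∫ y, ρ1 y ≠ 0 := by
  obtain ⟨χ, h, hs, h0⟩ := ex_cut (Metric.ball_mem_nhds (0 : P3) one_pos)
  have t : Tst fun y : P3 => χ y * χ (-y.1, y.2) := cs_mul_r h.1 (h.1.1.comp (by fun_prop))
  refine ⟨_, t, fun y => by simp [mul_comm], tsupport_mul_subset_left.trans hs,
    (t.1.continuous.integral_pos_of_hasCompactSupport_nonneg_nonzero (x := 0) t.2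
      (fun y => mul_nonneg (h0 _).1 (h0 _).1) ?_).ne'⟩
  have := h.2.self_of_nhds
  simpa [Prod.mk_zero_zero, this] using this

/-! ### the functional -/

abbrev V3 := V × V × V

variable {D : Type*} [NormedAddCommGroup D] [InnerProductSpace ℂ D] (c : Ctx D)

def tL : S3 →L[ℂ] ℂ := ∑ m, ∑ k, ∑ l, ∑ n,
  ((eta m * (eta k * va k) * (eta l * va l) * eta n : ℝ) : ℂ) • c.t (m, m) (k, l) (n, n)

theorem t0_eq (F : S3) : c.t0 F = tL c F := by
  simp only [Ctx.t0, tL, ContinuousLinearMap.sum_apply, ContinuousLinearMap.smul_apply, smul_eq_mul]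

/-- `t0` on real functions -/
def ta (F : V3 → ℝ) : ℂ := c.t0 (sch fun z => (F z : ℂ))

variable {F G : V3 → ℝ}

theorem ta_add (hF : Tst F) (hG : Tst G) : ta c (fun z => F z + G z) = ta c F + ta c G := by
  simp only [ta, t0_eq, Complex.ofReal_add, sch_add (tst_sw hF) (tst_sw hG), map_add]

theorem ta_mul (a : ℝ) (hF : Tst F) : ta c (fun z => a * F z) = a * ta c F := by
  simp only [ta, t0_eq, Complex.ofReal_mul, sch_cmul _ (tst_sw hF), map_smul, smul_eq_mul]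

theorem ta_sum {ι : Type} {s : Finset ι} {F : ι → V3 → ℝ} (hF : ∀ i, Tst (F i)) :
    ta c (fun z => ∑ i ∈ s, F i z) = ∑ i ∈ s, ta c (F i) := by
  simp only [ta, t0_eq, Complex.ofReal_sum, sch_sum fun i _ => tst_sw (hF i), map_sum]

def s1 : V3 ≃L[ℝ] V3 := (ContinuousLinearEquiv.prodAssoc ℝ V V V).symm.trans
  (((ContinuousLinearEquiv.prodComm ℝ V V).prodCongr (.refl ℝ V)).trans (.prodAssoc ℝ V V V))

def s2 : V3 ≃L[ℝ] V3 := (ContinuousLinearEquiv.refl ℝ V).prodCongr (.prodComm ℝ V V)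

theorem tst_sw3 (hF : Tst F) : Tst fun z : V3 => F (z.2.2, z.2.1, z.1) :=
  cs_cle (s1.trans (s2.trans s1)) hF

theorem ta_sw [Fact c.tp] (hF : Tst F) : ta c (fun z => F (z.2.2, z.2.1, z.1)) = ta c F := by
  have key : ∀ I J K, c.t I J K (sch fun z => (F z : ℂ)) =
      c.t K J I (sch fun z : V3 => (F (z.2.2, z.2.1, z.1) : ℂ)) := fun I J K => by
    let F1 := SchwartzMap.compCLMOfContinuousLinearEquiv ℂ s1 (sch fun z => (F z : ℂ))
    let F2 := SchwartzMap.compCLMOfContinuousLinearEquiv ℂ s2 F1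
    refine (c.hTP.swap1 I J K _ F1 fun _ _ _ => rfl).trans ((c.hTP.swap2 J I K F1 F2
      fun _ _ _ => rfl).trans (c.hTP.swap1 J K I F2 _ fun x y z => ?_))
    rw [sch_tst (tst_sw3 hF)]
    exact (sch_tst hF (z, y, x)).symm
  simp only [ta, Ctx.t0, key]
  simp only [Fin.sum_univ_four]
  push_cast
  ring

/-! ### the far part of the plane -/

theorem tst_mid {W : V3 → ℝ} {Ψ : V × V → ℝ} {a : V → ℝ} (hW : ContDiff ℝ ∞ W) (hΨ : Tst Ψ)
    (ha : Tst a) : Tst fun z : V3 => W z * (Ψ (z.1, z.2.2) * a z.2.1) :=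
  cs_mul_l hW (cs_cle (s2.trans (ContinuousLinearEquiv.prodAssoc ℝ V V V).symm) (cs_prod hΨ ha))

/-- weights of degree `n` in the transverse coordinate of the middle point -/
def PP (ρ : ℝ → ℝ) (n : ℕ) (W : V3 → ℝ) : Prop := ContDiff ℝ ∞ W ∧
  ∀ (Ψ : V × V → ℝ) (κ : P3 → ℝ), Tst Ψ → Tst κ → (0 : P3) ∉ tsupport κ →
    Tendsto (fun L : ℝ => ((L / Real.sqrt L ^ n : ℝ) : ℂ) * ta c fun z =>
      W z * (Ψ (z.1, z.2.2) * (kL κ L (pl z.2.1) * ρ (be z.2.1)))) atTop (𝓝 0)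

section far

variable {c} {ρ : ℝ → ℝ} {n : ℕ} {W W' : V3 → ℝ}

theorem pp0 (h : FAR c) (hρ : Tst ρ) : PP c ρ 0 fun _ => 1 :=
  ⟨contDiff_const, fun Ψ κ h1 h2 h3 => by
    simpa only [ta, pr, cx, pow_zero, div_one, one_mul, Complex.ofReal_mul] using
      h.far κ ρ (cx Ψ) h2 h3 hρ (dc_cx h1)⟩

theorem pp_add (hρ : Tst ρ) (h : PP c ρ n W) (h' : PP c ρ n W') :
    PP c ρ n fun z => W z + W' z := by
  refine ⟨h.1.add h'.1, fun Ψ κ h1 h2 h3 => ?_⟩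
  have := (h.2 Ψ κ h1 h2 h3).add (h'.2 Ψ κ h1 h2 h3)
  rw [add_zero] at this
  refine this.congr' ((eventually_gt_atTop 0).mono fun L hL => ?_)
  have k := tst_pr (tst_kL h2 hL) hρ
  simp only [add_mul]
  rw [ta_add c (tst_mid h.1 h1 k) (tst_mid h'.1 h1 k), mul_add]

theorem pp_mul (hρ : Tst ρ) (h : PP c ρ n W) (i : Fin 2) {a : V × V → ℝ} (ha : ContDiff ℝ ∞ a) :
    PP c ρ (n + 1) fun z => (tx z.2.1 i - a (z.1, z.2.2)) * W z := by
  refine ⟨ContDiff.mul (by fun_prop) h.1, fun Ψ κ h1 h2 h3 => ?_⟩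
  have h4 : Tst fun y : P3 => y.2 i * κ y := cs_mul_l (by fun_prop) h2
  have h5 : Tst fun y => a y * Ψ y := cs_mul_l ha h1
  have s : Tendsto (fun L : ℝ => (((Real.sqrt L)⁻¹ : ℝ) : ℂ)) atTop (𝓝 0) :=
    (Complex.continuous_ofReal.tendsto 0).comp (tendsto_inv_atTop_zero.comp Real.tendsto_sqrt_atTop)
  have := (h.2 Ψ _ h1 h4 fun k => h3 (tsupport_mul_subset_right k)).sub (s.mul (h.2 _ κ h5 h2 h3))
  rw [mul_zero, sub_zero] at this
  refine this.congr' ((eventually_gt_atTop 0).mono fun L hL => ?_)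
  have k := tst_mid h.1 h1 (tst_pr (tst_kL h4 hL) hρ)
  have k' := tst_mid h.1 h5 (tst_pr (tst_kL h2 hL) hρ)
  have q := (Real.sqrt_pos.2 hL).ne'
  have q' : ((Real.sqrt L : ℝ) : ℂ) ≠ 0 := Complex.ofReal_ne_zero.2 q
  have e := ta_add c (cs_cmul (Real.sqrt L) k) (cs_cmul (-1) k')
  rw [ta_mul c _ k, ta_mul c _ k'] at e
  beta_reduce
  rw [show (fun z : V3 => (tx z.2.1 i - a (z.1, z.2.2)) * W z *
    (Ψ (z.1, z.2.2) * (kL κ L (pl z.2.1) * ρ (be z.2.1)))) = _ from funext fun z => ?_, e]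
  · push_cast
    field_simp
    ring
  · simp only [kL, pl, Pi.smul_apply, smul_eq_mul]
    field_simp
    ring

theorem far3 (h : FAR c) (hρ : Tst ρ) {Ψ : V × V → ℝ} {κ : P3 → ℝ} (hΨ : Tst Ψ) (hκ : Cut κ) :
    (∀ L, 0 < L → Tst fun z : V3 => d2 (tx z.2.1 - tx z.1) (tx z.2.1 - tx z.2.2) * (Ψ (z.1, z.2.2) *
      (dx (kL κ L) (pl z.2.1) (tx z.2.1 - tx z.1) * ρ (be z.2.1)))) ∧
    Tendsto (fun L => ta c fun z => d2 (tx z.2.1 - tx z.1) (tx z.2.1 - tx z.2.2) *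
      (Ψ (z.1, z.2.2) * (dx (kL κ L) (pl z.2.1) (tx z.2.1 - tx z.1) * ρ (be z.2.1)))) atTop
      (𝓝 0) := by
  have a : ∀ i, ContDiff ℝ ∞ fun y : V × V => tx y.1 i := fun i => by fun_prop
  have b : ∀ i, ContDiff ℝ ∞ fun y : V × V => tx y.2 i := fun i => by fun_prop
  have p := fun i => pp_mul hρ (pp_mul hρ (pp0 h hρ) i (b i)) i (a i)
  have p3 := fun i => pp_mul hρ (pp_add hρ (p 0) (p 1)) i (a i)
  have t := fun i => tst_dx hκ.1 (e2 i)
  have k := fun i L hL => tst_mid (p3 i).1 hΨ (tst_pr (tst_kL (t i) (L := L) hL) hρ)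
  have e : ∀ L, (fun z : V3 => d2 (tx z.2.1 - tx z.1) (tx z.2.1 - tx z.2.2) * (Ψ (z.1, z.2.2) *
      (dx (kL κ L) (pl z.2.1) (tx z.2.1 - tx z.1) * ρ (be z.2.1)))) = fun z => ∑ i,
      (Real.sqrt L)⁻¹ * ((tx z.2.1 i - tx z.1 i) * ((tx z.2.1 0 - tx z.1 0) *
        ((tx z.2.1 0 - tx z.2.2 0) * 1) + (tx z.2.1 1 - tx z.1 1) * ((tx z.2.1 1 - tx z.2.2 1) * 1)) *
        (Ψ (z.1, z.2.2) * (kL (fun y => dx κ y (e2 i)) L (pl z.2.1) * ρ (be z.2.1)))) :=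
    fun L => funext fun z => by
      rw [dx_sum]
      simp only [dx_kL (hκ.1.1.differentiable (by simp)), Fin.sum_univ_two, d2, Pi.sub_apply]
      ring
  simp only [e]
  refine ⟨fun L hL => cs_sum fun i _ => cs_cmul _ (k i L hL), ?_⟩
  have := tendsto_finset_sum Finset.univ fun i _ =>
    (p3 i).2 Ψ _ hΨ (t i) (notMem_fd hκ.2 fun _ => (0, e2 i))
  rw [Finset.sum_const_zero] at this
  refine this.congr' ((eventually_gt_atTop 0).mono fun L hL => ?_)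
  beta_reduce
  rw [ta_sum c fun i => cs_cmul _ (k i L hL)]
  refine Finset.sum_congr rfl fun i _ => ?_
  rw [ta_mul c _ (k i L hL)]
  congr 2
  have q := (Real.sqrt_pos.2 hL).ne'
  field_simp
  rw [pow_succ, Real.sq_sqrt hL.le]

end far

/-! ### the faces -/

/-- first `L → ∞`, then `δ → 0` -/
abbrev Fl : Filter (ℝ × ℝ) := (𝓝[>] (0 : ℝ)).curry atTop

theorem apx {a : ℝ → ℝ → ℂ} {b : ℝ → ℂ}
    (h : ∀ η > 0, ∀ᶠ δ in 𝓝[>] (0 : ℝ), ∀ᶠ L in atTop, ‖a δ L - b δ‖ ≤ η) :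
    Tendsto (fun p : ℝ × ℝ => a p.1 p.2 - b p.1) Fl (𝓝 0) :=
  NormedAddCommGroup.tendsto_nhds_zero.2 fun η hη => eventually_curry_iff.2
    ((h _ (half_pos hη)).mono fun δ h1 => h1.mono fun L h2 => h2.trans_lt (half_lt_self hη))

theorem fst : Tendsto Prod.fst Fl (𝓝[>] (0 : ℝ)) := tendsto_fst.mono_left curry_le_prod

theorem pos : ∀ᶠ p in Fl, 0 < p.1 ∧ 0 < p.2 := eventually_curry_iff.2
  (eventually_mem_nhdsWithin.mono fun δ h => (eventually_gt_atTop 0).mono fun L k => ⟨h, k⟩)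

theorem err {a : ℝ → ℝ → ℂ} {b : ℝ → ℂ} {r : ℂ}
    (h : (∀ η > 0, ∀ᶠ δ in 𝓝[>] (0 : ℝ), ∀ᶠ L in atTop, ‖a δ L - r * b δ‖ ≤ η) ∧
      Tendsto (fun δ : ℝ => (δ : ℂ) * b δ) (𝓝[>] 0) (𝓝 0)) :
    Tendsto (fun p : ℝ × ℝ => (p.1 : ℂ) * a p.1 p.2) Fl (𝓝 0) := by
  have s : Tendsto (fun p : ℝ × ℝ => (p.1 : ℂ)) Fl (𝓝 0) :=
    (Complex.continuous_ofReal.tendsto 0).comp (fst.mono_right nhdsWithin_le_nhds)
  have := (s.mul (apx h.1)).add ((h.2.comp fst).const_mul r)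
  rw [mul_zero, mul_zero, add_zero] at this
  exact this.congr fun p => by simp only [comp]; ring

/-- the function of `triF` -/
def tri (κ f g : P3 → ℝ) (ρ θ1 φ : ℝ → ℝ) (p : ℝ × ℝ) (z : V3) : ℝ :=
  d2 (tx z.2.1 - tx z.1) (tx z.2.1 - tx z.2.2) * (f (pl z.1) * θ1 (be z.1)) *
    (kL κ p.2 (pl z.2.1) * dlt p.1 ρ (be z.2.1)) * (g (pl z.2.2) * φ (be z.2.2))

/-- the boundary term of the third leg -/
def uu (κ f g : P3 → ℝ) (ρ θ1 : ℝ → ℝ) (p : ℝ × ℝ) (z : V3) : ℝ :=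
  2 * (be z.2.2 - be z.2.1) * tri κ f g ρ θ1 (deriv θ1) p z

/-- two faces -/
def fc (f g : P3 → ℝ) (θ : ℝ → ℝ) (ε δ : ℝ) : ℂ :=
  c.PF (pr f (abv (dil ε θ) θ δ)) (pr g (dil ε (chm θ))) +
    c.PF (pr g (dil ε (chp θ))) (pr f (blw (dil ε θ) θ δ))

section face

variable {c} {κ f g : P3 → ℝ} {ρ θ θ1 φ : ℝ → ℝ} {p : ℝ × ℝ} {ε : ℝ}

theorem tst_t (hκ : Tst κ) (hf : Tst f) (hg : Tst g) (hρ : Tst ρ) (h1 : Tst θ1) (hφ : Tst φ)
    (hp : 0 < p.1 ∧ 0 < p.2) : Tst (tri κ f g ρ θ1 φ p) :=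
  tst_tri (by fun_prop) (tst_pr hf h1) (tst_pr (tst_kL hκ hp.2) (tst_dlt hρ hp.1.ne')) (tst_pr hg hφ)

theorem tst_uu (hκ : Tst κ) (hf : Tst f) (hg : Tst g) (hρ : Tst ρ) (h1 : Tst θ1)
    (hp : 0 < p.1 ∧ 0 < p.2) : Tst (uu κ f g ρ θ1 p) :=
  cs_mul_l (by fun_prop) (tst_t hκ hf hg hρ h1 (cs_deriv h1) hp)

theorem face (h : CONT c) (hκ : Cut κ) (hf : Tst f) (hg : Tst g) (hρ : Tst ρ)
    (hs : tsupport ρ ⊆ Icc (-1 / 2) (1 / 2)) (hi : ∫ t, ρ t = 1) (hθ : Bump θ) (hε : 0 < ε) :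
    Tendsto (fun p => ta c (uu κ f g ρ (dil ε θ) p) + 2 * fc c f g θ ε p.1) Fl (𝓝 0) := by
  have h1 := tst_dil hθ.1 hε.ne'
  have hd : ∀ t, |t| < ε → deriv (dil ε θ) t = 0 := fun t ht => by
    rw [deriv_dil, bump_deriv hθ (by rw [abs_div, abs_of_pos hε, div_le_one hε]; exact ht.le),
      zero_div]
  obtain ⟨p1, p2⟩ := tst_pos (cs_deriv h1) hε hd
  obtain ⟨m1, m2⟩ := tst_neg (cs_deriv h1) hε hd
  have p3 := tst_dil (tst_chp hθ) hε.ne'
  have m3 := tst_dil (tst_chm hθ) hε.ne'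
  have hρ' : Tst fun t => t ^ 1 * ρ t := cs_mul_l (by fun_prop) hρ
  have hs' : tsupport (fun t => t ^ 1 * ρ t) ⊆ _ := tsupport_mul_subset_right.trans hs
  have a1 := apx (h.lo κ f g ρ _ θ _ hκ hf hg hρ hs h1 hθ m3 fun t k => by
    have := (div_le_iff₀ hε).1 (show t / ε ≤ -1 from (tsupport_chm hθ (tsupport_dil _ _ k)).1)
    exact show t < 0 by linarith).1
  have a2 := apx (h.hi κ f g ρ _ θ _ hκ hf hg hρ hs h1 hθ p3 fun t k => by
    have := (le_div_iff₀ hε).1 (show 1 ≤ t / ε from (tsupport_chp hθ (tsupport_dil _ _ k)).1)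
    exact show 0 < t by linarith).1
  have a3 := err (h.lo κ f g _ _ θ _ hκ hf hg hρ' hs' h1 hθ m1 fun t k =>
    show t < 0 by linarith [show t ≤ -ε from (m2 k).1])
  have a4 := err (h.hi κ f g _ _ θ _ hκ hf hg hρ' hs' h1 hθ p1 fun t k => hε.trans_le (p2 k).1)
  have := ((a1.add a2).add (a3.add a4)).const_mul (-2)
  simp only [add_zero, mul_zero, hi, Complex.ofReal_one, one_mul] at this
  refine this.congr' (pos.mono fun p hp => ?_)
  have t1 := tst_t hκ.1 hf hg hρ h1 m3 hp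
  have t2 := tst_t hκ.1 hf hg hρ h1 p3 hp
  have t3 := tst_t hκ.1 hf hg hρ' h1 m1 hp
  have t4 := tst_t hκ.1 hf hg hρ' h1 p1 hp
  have e := ta_mul c (-2) (cs_add (cs_add t1 t2) (cs_cmul p.1 (cs_add t3 t4)))
  rw [ta_add c (cs_add t1 t2) (cs_cmul p.1 (cs_add t3 t4)), ta_add c t1 t2,
    ta_mul c _ (cs_add t3 t4), ta_add c t3 t4] at e
  beta_reduce
  rw [show uu κ f g ρ (dil ε θ) p = _ from funext fun z => ?_, e]
  · simp only [fc, ta, triF, tri]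
    push_cast
    ring
  have e1 := chp_add_chm (dil ε θ) (be z.2.2)
  have e2 : ((if 0 < be z.2.2 then deriv (dil ε θ) (be z.2.2) else 0) +
      if be z.2.2 < 0 then deriv (dil ε θ) (be z.2.2) else 0) = deriv (dil ε θ) (be z.2.2) := by
    rcases lt_trichotomy (be z.2.2) 0 with k | k | k
    · simp [k, lt_asymm k]
    · simp [k, hd 0 (by simpa using hε)]
    · simp [k, lt_asymm k]
  have e3 := pow_dlt hp.1.ne' 1 ρ (be z.2.1)
  rw [chp_dil hε, chm_dil hε] at e1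
  simp only [uu, tri]
  let w := d2 (tx z.2.1 - tx z.1) (tx z.2.1 - tx z.2.2) * (f (pl z.1) * dil ε θ (be z.1)) *
    kL κ p.2 (pl z.2.1) * g (pl z.2.2)
  linear_combination (2 * w * dlt p.1 ρ (be z.2.1)) * e1 +
    (2 * w * p.1 * dlt p.1 (fun t => t ^ 1 * ρ t) (be z.2.1)) * e2 -
    (2 * w * deriv (dil ε θ) (be z.2.2)) * e3

end face

theorem fin {A T T' B Y : ℂ} {η : ℝ} (a : ‖A‖ < η) (b : ‖T‖ < η) (c : ‖T'‖ ≤ η) (d : ‖B‖ ≤ η)
    (e : Y = (A + T + T') / 2 - B) : ‖Y‖ ≤ 3 * η := by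
  have h := norm_sub_le ((A + T + T') / 2) B
  rw [norm_div, Complex.norm_two, ← e] at h
  linarith [norm_add₃_le (a := A) (b := T) (c := T'), norm_nonneg B]

end Yz

open Yz in
/-- row YZ -/
theorem yz_row {D : Type*} [NormedAddCommGroup D] [InnerProductSpace ℂ D] (c : Ctx D) [Fact c.tp] :
    T3 c → RES c → FAR c → IX c → CONT c → IB c → SW c → YZ c := by
  rintro - hR hF ⟨N, hX⟩ hC hB hS ell c0 cc dd hE hc θ hθ
  obtain ⟨k, hk, k0⟩ := ex_k (N + 3)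
  obtain ⟨ρ1, r1, r2, r3, r4⟩ := ex_r
  obtain ⟨k', q1, -, q2, -⟩ := ex_chi (isCompact_closedBall (0 : R2) 1) isOpen_univ (subset_univ _)
  obtain ⟨ρ, s1, s2, -, s3⟩ := ex_rho (volume : Measure ℝ)
    (Icc_mem_nhds (by norm_num) (by norm_num) : Icc (-1 / 2 : ℝ) (1 / 2) ∈ 𝓝 0)
  obtain ⟨κ, hκ, -⟩ := ex_cut (univ_mem : univ ∈ 𝓝 (0 : P3))
  have o : ∀ y ∈ tsupport ρ1, (∀ᶠ x in 𝓝 y.1, k x = 1) ∧ ∀ᶠ x in 𝓝 y.2, k' x = 1 := fun y hy => by
    have := mem_ball_zero_iff.1 (r3 hy)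
    exact ⟨bump_one hk ((norm_fst_le y).trans_lt this),
      q2 _ (mem_closedBall_zero_iff.2 ((norm_snd_le y).trans this.le))⟩
  obtain ⟨G, G0, hG⟩ := hB ell c0 cc dd hE hc ρ1 k θ k' r1 r2 hk.1 hk.2.1
    (fun j hj => k0 j (by omega)) q1 hθ
    (fun y hy => ⟨(o y hy).1.self_of_nhds, (o y hy).2.self_of_nhds⟩) r4
  have h3 := tst_k3 hk.1 q1
  have key : ∀ η > 0, ‖G * YY cc (chp θ) (chm θ)‖ ≤ 3 * η := fun η hη => by
    obtain ⟨ε, ⟨b1, b2⟩, hε⟩ := (((hG η hη).and (hX ρ1 κ k θ ρ k' r1 hκ hk.1 hθ.1 s1 q1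
      (fun j hj => k0 j (by omega)) (fun y hy => (o y hy).2)
      (s2.trans (Icc_subset_Icc (by norm_num) (by norm_num))) η hη)).and
      eventually_mem_nhdsWithin).exists
    replace hε : 0 < ε := hε
    have h1 := tst_dil hθ.1 hε.ne'
    have f1 := tendsto_finset_sum Finset.univ fun (j : Fin 3) _ =>
      ((face hC hκ (tst_ap j h3) (tst_ap (2 - j) r1) s1 s2 s3 hθ hε).add
      (face hC hκ (tst_ap (2 - j) r1) (tst_ap j h3) s1 s2 s3 hθ hε)).const_mul (![1, -2, 1] j : ℂ)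
    simp only [add_zero, mul_zero, Finset.sum_const_zero] at f1
    obtain ⟨δ, ⟨b3, b4⟩, hδ⟩ := ((b1.and (eventually_curry_iff.1
      (NormedAddCommGroup.tendsto_nhds_zero.1 f1 η hη))).and (Ioc_mem_nhdsGT hε)).exists
    have h2 := tst_dlt s1 hδ.1.ne'
    have hΨ : Tst fun y : V × V => (al y.1 - al y.2) ^ 2 *
        (ρ1 (pl y.1) * dil ε θ (be y.1) * (k3 k k' (pl y.2) * dil ε θ (be y.2))) :=
      cs_mul_l (by fun_prop) (cs_prod (tst_pr r1 h1) (tst_pr h3 h1))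
    obtain ⟨t3, l3⟩ := far3 hF h2 hΨ hκ
    obtain ⟨L, ⟨⟨⟨b5, b6⟩, b7⟩, b8⟩, hL⟩ := ((((b4.and (b2 δ hδ)).and
      (NormedAddCommGroup.tendsto_nhds_zero.1 l3 η hη)).and (kL_one_on hκ r1.2.isCompact.isBounded)).and
      (eventually_gt_atTop 0)).exists
    have hp : 0 < (δ, L).1 ∧ 0 < (δ, L).2 := ⟨hδ.1, hL⟩
    have u1 := fun j : Fin 3 => tst_uu hκ.1 (tst_ap j h3) (tst_ap (2 - j) r1) s1 h1 hp
    have u2 := fun j : Fin 3 => tst_uu hκ.1 (tst_ap (2 - j) r1) (tst_ap j h3) s1 h1 hp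
    have u3 := fun j : Fin 3 => cs_cmul (![1, -2, 1] j : ℝ) (cs_add (tst_sw3 (u1 j)) (u2 j))
    have u4 := cs_sum (s := Finset.univ) fun j _ => u3 j
    have t4 : Tst fun z : V3 => Ph0 z.1 z.2.1 z.2.2 * ρ1 (pl z.1) * dlt δ ρ (be z.2.1) *
        (dil ε θ (be z.1) * dil ε θ (be z.2.2) * kL κ L (pl z.2.1) *
          dx (k3 k k') (pl z.2.2) (tx z.2.2 - tx z.1)) := by
      refine (congrArg Tst (funext fun z => ?_)).mpr <| cs_sum (s := Finset.univ) fun i _ => tst_tri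
        (W := fun z => Ph0 z.1 z.2.1 z.2.2 * (tx z.2.2 i - tx z.1 i)) (by unfold Ph0; fun_prop)
        (tst_pr r1 h1) (tst_pr (tst_kL hκ.1 hL) h2) (tst_pr (tst_dx h3 (e2 i)) h1)
      rw [dx_sum]
      simp only [Fin.sum_univ_two, Pi.sub_apply]
      ring
    have o2 : ∀ t ∈ tsupport (dlt δ ρ), ∀ᶠ x in 𝓝 t, dil ε θ x = 1 := fun t ht => by
      obtain ⟨a, b⟩ := tsupport_dlt_Icc s2 hδ.1 ht
      exact (continuous_abs.continuousAt.eventually_lt_const (abs_lt.2 ⟨by linarith [hδ.1, hδ.2],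
        by linarith [hδ.1, hδ.2]⟩)).mono fun x j => dil_one_of hθ hε j.le
    have u5 := cs_add (cs_add u4 (t3 L hL)) t4
    have r : ta c _ = 0 := hR ρ1 (kL κ L) (k3 k k') (dlt δ ρ) (dil ε θ) (dil ε θ) _ r1
      (tst_kL hκ.1 hL) h3 h2 h1 h1 (fun y hy => ⟨b8 y hy, by
        filter_upwards [continuousAt_fst.eventually (o y hy).1,
          continuousAt_snd.eventually (o y hy).2] with x a b
        rw [k3, a, b, mul_one]⟩) (fun t ht => ⟨o2 t ht, o2 t ht⟩) fun z1 z2 z3 =>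
      (sch_tst u5 (z1, z2, z3)).trans (congrArg _ (by
        simp [Fin.sum_univ_three, uu, tri, ap, Ph0, d2, pl]
        ring))
    rw [ta_add c (cs_add u4 (t3 L hL)) t4, ta_add c u4 (t3 L hL), ta_sum c u3] at r
    simp only [fun j : Fin 3 => ta_mul c (![1, -2, 1] j) (cs_add (tst_sw3 (u1 j)) (u2 j)),
      fun j => ta_add c (tst_sw3 (u1 j)) (u2 j), fun j => ta_sw c (u1 j)] at r
    have e : ∀ j : Fin 3, ((![1, -2, 1] j : ℝ) : ℂ) = ![1, -2, 1] j := fun j => by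
      fin_cases j <;> simp
    refine fin b5 b7 b6 b3 ?_
    simp only [e, ta, Ctx.Faces, fc, Fin.sum_univ_three] at r ⊢
    linear_combination (-1 / 2) * r
  have : G * YY cc (chp θ) (chm θ) = 0 := norm_le_zero_iff.1 (le_of_forall_pos_le_add fun η hη => by
    linarith [key (η / 3) (by positivity)])
  simpa [(mul_eq_zero.1 this).resolve_left G0] using hS ell c0 cc dd hE hc θ hθ

end

end Vale.Agent.P352X
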